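import Vale.Agent.P251.C.Basic
import Vale.Agent.P251.I.C

/-!
# P251, part C7: finite cyclic groups

`P` is a finite cyclic group generated by `σ`, with the discrete topology. If a map `u : M → N` of
`P`-modules satisfies
* (i) `σ m = m` implies that `u m` is a norm,
* (ii) `∑ σ^i m = 0` implies `u m ∈ (σ - 1) N`,

then `u` induces zero in `H^b(P; -)` for all `b ≥ 1`.
-/

open Finset Function

namespace Vale.Agent.P251.C

set_option linter.unusedSectionVars false

section Cyclic

universe u

variable {P : Type u} [Group P] [TopologicalSpace P] [DiscreteTopology P]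

section Defs

variable (M : Type*) [AddCommGroup M] [DistribMulAction P M]

variable (P) in
/-- constant functions -/
def cst : M →+ LC P M where
  toFun m := LC.mk (fun _ => m) (IsLocallyConstant.const m)
  map_zero' := by ext; rfl
  map_add' _ _ := by ext; rfl

@[simp] theorem cst_apply (m : M) (x : P) : cst P M m x = m := rfl

theorem smul_cst (g : P) (m : M) : g • cst P M m = cst P M (g • m) := by
  ext x; simp

variable (P) in
/-- the quotient of the coinduced module by the constants -/
def QI : Type _ := LC P M ⧸ (cst P M).range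

instance : AddCommGroup (QI P M) := inferInstanceAs (AddCommGroup (LC P M ⧸ (cst P M).range))

variable (P) in
/-- the projection -/
def QI.mk : LC P M →+ QI P M := QuotientAddGroup.mk' _

theorem QI.mk_surj : Surjective (QI.mk P M) := QuotientAddGroup.mk'_surjective _

theorem QI.mk_eq_zero {f : LC P M} : QI.mk P M f = 0 ↔ ∃ m, f = cst P M m := by
  have : QI.mk P M f = 0 ↔ f ∈ (cst P M).range := QuotientAddGroup.eq_zero_iff f
  rw [this]
  constructor
  · rintro ⟨m, rfl⟩; exact ⟨m, rfl⟩
  · rintro ⟨m, rfl⟩; exact ⟨m, rfl⟩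

@[simp] theorem QI.mk_cst (m : M) : QI.mk P M (cst P M m) = 0 := (QI.mk_eq_zero M).2 ⟨m, rfl⟩

/-- the action on the quotient -/
def QI.act (g : P) : QI P M →+ QI P M :=
  QuotientAddGroup.map _ _ (DistribSMul.toAddMonoidHom (LC P M) g) (by
    rintro _ ⟨m, rfl⟩
    exact ⟨g • m, (smul_cst M g m).symm⟩)

theorem QI.act_mk (g : P) (f : LC P M) : QI.act M g (QI.mk P M f) = QI.mk P M (g • f) := rfl

instance : SMul P (QI P M) := ⟨fun g x => QI.act M g x⟩

theorem QI.smul_mk (g : P) (f : LC P M) : g • QI.mk P M f = QI.mk P M (g • f) := rfl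

instance : DistribMulAction P (QI P M) where
  one_smul x := by
    obtain ⟨f, rfl⟩ := QI.mk_surj M x
    rw [QI.smul_mk, one_smul]
  mul_smul g h x := by
    obtain ⟨f, rfl⟩ := QI.mk_surj M x
    rw [QI.smul_mk, QI.smul_mk, QI.smul_mk, mul_smul]
  smul_zero g := map_zero (QI.act M g)
  smul_add g x y := map_add (QI.act M g) x y

end Defs

section Maps

variable {M N : Type*} [AddCommGroup M] [DistribMulAction P M] [AddCommGroup N]
  [DistribMulAction P N]

/-- the induced map on the quotient -/
def QI.map (u : M →+[P] N) : QI P M →+[P] QI P N where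
  toFun := QuotientAddGroup.map _ _ (LC.map P (u : M →+ N)) (by
    rintro _ ⟨m, rfl⟩
    exact ⟨u m, rfl⟩)
  map_zero' := map_zero _
  map_add' := map_add _
  map_smul' g x := by
    obtain ⟨f, rfl⟩ := QI.mk_surj M x
    change QI.mk P N (LC.map P (u : M →+ N) (g • f)) = QI.mk P N (g • LC.map P (u : M →+ N) f)
    congr 1
    ext y
    simp

theorem QI.map_mk (u : M →+[P] N) (f : LC P M) :
    QI.map u (QI.mk P M f) = QI.mk P N (LC.map P (u : M →+ N) f) := rfl

end Maps

section Norm

variable [Fintype P] {σ : P} (hσ : ∀ g : P, g ∈ Subgroup.zpowers σ)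

include hσ in
theorem sum_range_orderOf {W : Type*} [AddCommMonoid W] (φ : P → W) :
    ∑ i ∈ range (orderOf σ), φ (σ ^ i) = ∑ g : P, φ g := by
  classical
  rw [← IsCyclic.image_range_orderOf hσ, Finset.sum_image]
  intro i hi j hj h
  exact pow_injOn_Iio_orderOf (by simpa using hi) (by simpa using hj) h

include hσ in
/-- `g w - w` is in the image of `σ - 1`. -/
theorem exists_sub_of_mem {W : Type*} [AddCommGroup W] [DistribMulAction P W] (g : P) (w : W) :
    ∃ v : W, g • w - w = σ • v - v := by
  obtain ⟨n, rfl⟩ := (mem_powers_iff_mem_zpowers).2 (hσ g)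
  refine ⟨∑ i ∈ range n, σ ^ i • w, ?_⟩
  rw [Finset.smul_sum]
  simp only [smul_smul, ← pow_succ']
  rw [← Finset.sum_sub_distrib]
  rw [Finset.sum_range_sub (fun i => σ ^ i • w)]
  simp

section

variable {M : Type*} [AddCommGroup M] [DistribMulAction P M]

open Classical in
/-- the function supported at `1` -/
noncomputable def dl (m : M) : LC P M :=
  LC.mk (fun x => if x = 1 then m else 0) (IsLocallyConstant.of_discrete _)

theorem dl_zero : dl (P := P) (0 : M) = 0 := by
  ext x; simp [dl]

theorem dl_sum {ι : Type*} (s : Finset ι) (φ : ι → M) :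
    dl (P := P) (∑ i ∈ s, φ i) = ∑ i ∈ s, dl (P := P) (φ i) := by
  ext x
  rw [LC.sum_apply]
  by_cases hx : x = 1 <;> simp [dl, hx]

theorem eq_sum_dl (f : LC P M) : f = ∑ y : P, y • dl (y⁻¹ • f y) := by
  classical
  ext x
  rw [LC.sum_apply, Finset.sum_eq_single x]
  · simp [dl]
  · intro y _ hy
    have : y⁻¹ * x ≠ 1 := by
      intro h
      exact hy (inv_mul_eq_one.1 h)
    simp [dl, this]
  · simp

include hσ in
/-- The kernel of the norm on the coinduced module. -/
theorem exists_sub_of_norm_eq_zero (f : LC P M) (hf : ∑ g : P, g • f = 0) :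
    ∃ v : LC P M, f = σ • v - v := by
  have h1 : ∑ y : P, y⁻¹ • f y = 0 := by
    have h := congrArg (fun k : LC P M => k 1) hf
    simp only [LC.sum_apply, LC.smul_apply, LC.zero_apply] at h
    rw [← h]
    refine Fintype.sum_equiv (Equiv.inv P) _ _ fun y => ?_
    simp
  have h2 : ∑ y : P, dl (P := P) (y⁻¹ • f y) = 0 := by
    rw [← dl_sum, h1, dl_zero]
  choose v hv using fun y : P => exists_sub_of_mem hσ y (dl (P := P) (y⁻¹ • f y))
  refine ⟨∑ y : P, v y, ?_⟩
  rw [Finset.smul_sum, ← Finset.sum_sub_distrib]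
  simp only [← hv]
  rw [Finset.sum_sub_distrib, h2, sub_zero]
  exact eq_sum_dl f

include hσ in
/-- The invariants of the coinduced module are norms. -/
theorem exists_norm_of_smul_eq (f : LC P M) (hf : σ • f = f) :
    ∃ v : LC P M, f = ∑ g : P, g • v := by
  have h1 : ∀ g : P, g • f = f := by
    intro g
    obtain ⟨n, rfl⟩ := (mem_powers_iff_mem_zpowers).2 (hσ g)
    simp only
    induction n with
    | zero => simp
    | succ n ih => rw [pow_succ, mul_smul, hf, ih]
  refine ⟨dl (f 1), ?_⟩
  conv_lhs => rw [eq_sum_dl f]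
  refine Finset.sum_congr rfl fun y _ => ?_
  congr 2
  have h2 := congrArg (fun k : LC P M => k 1) (h1 y⁻¹)
  simp only [LC.smul_apply] at h2
  rw [← h2]
  simp

end

end Norm

section Step

variable [Fintype P] {σ : P} {M N : Type*} [AddCommGroup M] [DistribMulAction P M] [AddCommGroup N]
  [DistribMulAction P N]

/-- invariants become norms -/
def CycA (σ : P) (u : M → N) : Prop := ∀ m : M, σ • m = m → ∃ z : N, u m = ∑ g : P, g • z

variable (P) in
/-- the kernel of the norm goes into the image of `σ - 1` -/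
def CycB (σ : P) (u : M → N) : Prop := ∀ m : M, ∑ g : P, g • m = 0 → ∃ z : N, u m = σ • z - z

theorem sum_smul_sub (g₀ : P) (m : M) : ∑ g : P, g • (g₀ • m - m) = 0 := by
  simp only [smul_sub, Finset.sum_sub_distrib, smul_smul]
  rw [sub_eq_zero]
  exact Fintype.sum_equiv (Equiv.mulRight g₀) _ _ fun _ => rfl

theorem smul_norm (g₀ : P) (m : M) : g₀ • ∑ g : P, g • m = ∑ g : P, g • m := by
  rw [Finset.smul_sum]
  simp only [smul_smul]
  exact Fintype.sum_equiv (Equiv.mulLeft g₀) _ _ fun _ => rfl

theorem cst_inj {m m' : M} (h : cst P M m = cst P M m') : m = m' :=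
  congrArg (fun k : LC P M => k 1) h

theorem norm_cst (m : M) : ∑ g : P, g • cst P M m = cst P M (∑ g : P, g • m) := by
  simp only [smul_cst, map_sum]

theorem map_smul_LC (u : M →+[P] N) (g : P) (f : LC P M) :
    LC.map P (u : M →+ N) (g • f) = g • LC.map P (u : M →+ N) f := by
  ext y; simp

theorem map_cst (u : M →+[P] N) (m : M) :
    LC.map P (u : M →+ N) (cst P M m) = cst P N (u m) := by
  ext y; simp

theorem cycA_QI (hσ : ∀ g : P, g ∈ Subgroup.zpowers σ) (u : M →+[P] N) (hu : CycB P σ u) :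
    CycA σ (QI.map u) := by
  intro x hx
  obtain ⟨f, rfl⟩ := QI.mk_surj M x
  have h1 : QI.mk P M (σ • f - f) = 0 := by
    rw [map_sub, ← QI.smul_mk, hx, sub_self]
  obtain ⟨m, hm⟩ := (QI.mk_eq_zero M).1 h1
  have h2 : ∑ g : P, g • m = 0 := by
    apply cst_inj (P := P)
    rw [← norm_cst, ← hm, sum_smul_sub, map_zero]
  obtain ⟨z, hz⟩ := hu m h2
  set f' : LC P N := LC.map P (u : M →+ N) f - cst P N z with hf'
  have h3 : σ • f' = f' := by
    have h4 : LC.map P (u : M →+ N) (σ • f - f) = cst P N (σ • z - z) := by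
      rw [hm, map_cst, hz]
    rw [map_sub, map_smul_LC, map_sub] at h4
    rw [hf', smul_sub, smul_cst, sub_eq_sub_iff_sub_eq_sub, h4]
  obtain ⟨v, hv⟩ := exists_norm_of_smul_eq hσ f' h3
  refine ⟨QI.mk P N v, ?_⟩
  rw [QI.map_mk]
  have h5 : LC.map P (u : M →+ N) f = f' + cst P N z := by rw [hf', sub_add_cancel]
  rw [h5, map_add, QI.mk_cst, add_zero, hv, map_sum]
  simp only [QI.smul_mk]

theorem cycB_QI (hσ : ∀ g : P, g ∈ Subgroup.zpowers σ) (u : M →+[P] N) (hu : CycA σ u) :
    CycB P σ (QI.map u) := by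
  intro x hx
  obtain ⟨f, rfl⟩ := QI.mk_surj M x
  have h1 : QI.mk P M (∑ g : P, g • f) = 0 := by
    rw [← hx, map_sum]
    simp only [QI.smul_mk]
  obtain ⟨m, hm⟩ := (QI.mk_eq_zero M).1 h1
  have h2 : σ • m = m := by
    apply cst_inj (P := P)
    rw [← smul_cst, ← hm, smul_norm]
  obtain ⟨z, hz⟩ := hu m h2
  set f' : LC P N := LC.map P (u : M →+ N) f - cst P N z with hf'
  have h3 : ∑ g : P, g • f' = 0 := by
    have h4 : LC.map P (u : M →+ N) (∑ g : P, g • f) = cst P N (∑ g : P, g • z) := by
      rw [hm, map_cst, hz]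
    rw [map_sum] at h4
    simp only [map_smul_LC] at h4
    rw [hf']
    simp only [smul_sub, Finset.sum_sub_distrib]
    rw [h4, norm_cst, sub_self]
  obtain ⟨v, hv⟩ := exists_sub_of_norm_eq_zero hσ f' h3
  refine ⟨QI.mk P N v, ?_⟩
  rw [QI.map_mk]
  have h5 : LC.map P (u : M →+ N) f = f' + cst P N z := by rw [hf', sub_add_cancel]
  rw [h5, map_add, QI.mk_cst, add_zero, hv, map_sub]
  simp only [QI.smul_mk]

/-- The base case. -/
theorem hmapZero_one (hσ : ∀ g : P, g ∈ Subgroup.zpowers σ) (u : M →+[P] N) (hu : CycB P σ u) :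
    HMapZero P 1 u := by
  intro F hF hd
  have hc : ∀ a b c : P, F ![b, c] - F ![a, c] + F ![a, b] = 0 := by
    intro a b c
    have h := congrFun hd ![a, b, c]
    rw [dd, Fin.sum_univ_three] at h
    have e0 : (fun j : Fin 2 => (![a, b, c] : Fin 3 → P) ((0 : Fin 3).succAbove j)) = ![b, c] := by
      ext j; fin_cases j <;> rfl
    have e1 : (fun j : Fin 2 => (![a, b, c] : Fin 3 → P) ((1 : Fin 3).succAbove j)) = ![a, c] := by
      ext j; fin_cases j <;> rfl
    have e2 : (fun j : Fin 2 => (![a, b, c] : Fin 3 → P) ((2 : Fin 3).succAbove j)) = ![a, b] := by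
      ext j; fin_cases j <;> rfl
    rw [e0, e1, e2] at h
    simp only [Fin.val_zero, pow_zero, one_smul, Fin.val_one, pow_one, neg_smul, Fin.val_two,
      Pi.zero_apply] at h
    rw [sub_eq_add_neg, ← h]
    simp
  have he : ∀ g a b : P, F ![g * a, g * b] = g • F ![a, b] := by
    intro g a b
    rw [← hF.equi g ![a, b]]
    congr 1
    ext j; fin_cases j <;> rfl
  have h0 : F ![1, 1] = 0 := by
    have := hc 1 1 1
    simpa using this
  have h1 : ∀ n : ℕ, F ![1, σ ^ n] = ∑ i ∈ range n, σ ^ i • F ![1, σ] := by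
    intro n
    induction n with
    | zero => simpa using h0
    | succ n ih =>
      rw [Finset.sum_range_succ, ← ih]
      have h2 := hc 1 (σ ^ n) (σ ^ (n + 1))
      have h3 := he (σ ^ n) 1 σ
      rw [mul_one, ← pow_succ] at h3
      rw [h3] at h2
      rw [← sub_eq_zero, ← neg_eq_zero, ← h2]
      abel
  have h2 : ∑ g : P, g • F ![1, σ] = 0 := by
    rw [← sum_range_orderOf hσ (fun g : P => g • F ![1, σ]), ← h1, pow_orderOf_eq_one, h0]
  obtain ⟨z, hz⟩ := hu _ h2
  have h3 : ∀ g : P, u (F ![1, g]) = g • z - z := by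
    intro g
    obtain ⟨n, rfl⟩ := (mem_powers_iff_mem_zpowers).2 (hσ g)
    simp only
    rw [h1, map_sum]
    simp only [map_smul, hz, smul_sub, smul_smul, ← pow_succ]
    rw [Finset.sum_range_sub (fun i => σ ^ i • z)]
    simp
  refine ⟨fun x => x 0 • z, ⟨IsLocallyConstant.of_discrete _, fun g x => mul_smul _ _ _⟩, ?_⟩
  funext x
  have hx : F x = x 0 • F ![1, (x 0)⁻¹ * x 1] := by
    rw [← he, mul_one, mul_inv_cancel_left]
    congr 1
    ext j; fin_cases j <;> rfl
  rw [dd, Fin.sum_univ_two, comp_apply, hx, map_smul, h3, smul_sub, smul_smul, mul_inv_cancel_left]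
  simp [sub_eq_add_neg]

end Step

section Shift

variable {M N : Type*} [AddCommGroup M] [DistribMulAction P M] [AddCommGroup N]
  [DistribMulAction P N]

/-- Dimension shifting for a finite discrete group. -/
theorem hmapZero_succ [Fintype P] (u : M →+[P] N) {b : ℕ} (h : HMapZero P (b + 1) (QI.map u)) :
    HMapZero P (b + 2) u := by
  intro F hF hd
  -- the cochain with values in the coinduced module
  set F' : (Fin (b + 2) → P) → LC P M :=
    fun x => LC.mk (fun y => F (Fin.cons y x)) (IsLocallyConstant.of_discrete _) with hF'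
  have hF'a : ∀ x y, F' x y = F (Fin.cons y x) := fun _ _ => rfl
  have hdF' : ∀ x, dd F' x = cst P M (F x) := by
    intro x
    ext y
    have h1 : dd F' x y = dd (fun z => F' z y) x := by
      have := congrFun (dd_map (LC.ev (M := M) y) F') x
      simpa using this.symm
    rw [h1, cst_apply]
    have h2 := dd_cons F y x
    rw [hd, Pi.zero_apply, eq_comm, sub_eq_zero] at h2
    exact h2.symm
  have heF' : ∀ (g : P) (x : Fin (b + 2) → P), F' (fun i => g * x i) = g • F' x := by
    intro g x
    ext y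
    rw [LC.smul_apply, hF'a, hF'a, ← hF.equi]
    congr 1
    ext j
    refine Fin.cases ?_ (fun j => ?_) j
    · simp
    · simp
  obtain ⟨Y, hY, hdY⟩ := h (fun x => QI.mk P M (F' x))
    ⟨IsLocallyConstant.of_discrete _, fun g x => by rw [heF', QI.smul_mk]⟩ (by
      rw [dd_map (QI.mk P M) F']
      funext x
      rw [hdF', QI.mk_cst, Pi.zero_apply])
  choose s hs using QI.mk_surj (P := P) N
  set Y' : (Fin (b + 1) → P) → LC P N := fun x => x 0 • s (Y fun i => (x 0)⁻¹ * x i) with hY'
  have hmY' : ∀ x, QI.mk P N (Y' x) = Y x := by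
    intro x
    rw [hY']
    simp only
    rw [← QI.smul_mk, hs, ← hY.equi]
    simp
  have heY' : ∀ (g : P) (x : Fin (b + 1) → P), Y' (fun i => g * x i) = g • Y' x := by
    intro g x
    simp only [hY', smul_smul]
    congr 3
    ext i
    group
  set H : (Fin (b + 2) → P) → LC P N := fun x => LC.map P (u : M →+ N) (F' x) - dd Y' x with hH
  have h1 : ∀ x, QI.mk P N (H x) = 0 := by
    intro x
    have h2 := congrFun hdY x
    rw [comp_apply, QI.map_mk] at h2
    rw [hH]
    simp only
    rw [map_sub, ← h2, sub_eq_zero]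
    have h3 := congrFun (dd_map (QI.mk P N) Y') x
    rw [← h3]
    congr 1
    funext z
    exact (hmY' z).symm
  have h2 : ∀ x, H x = cst P N (H x 1) := by
    intro x
    obtain ⟨m, hm⟩ := (QI.mk_eq_zero N).1 (h1 x)
    rw [hm]
    rfl
  have hY'c : IsCoch P Y' := ⟨IsLocallyConstant.of_discrete _, heY'⟩
  have heH : ∀ (g : P) (x : Fin (b + 2) → P), H (fun i => g * x i) = g • H x := by
    intro g x
    simp only [hH, smul_sub]
    rw [heF', map_smul_LC, hY'c.dd.equi]
  refine ⟨fun x => H x 1, ⟨IsLocallyConstant.of_discrete _, fun g x => ?_⟩, ?_⟩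
  · rw [heH, LC.smul_apply, h2 x]
    rfl
  · funext x
    have h3 : dd (fun x => H x 1) x = dd H x 1 := by
      have := congrFun (dd_map (LC.ev (M := N) (1 : P)) H) x
      simpa using this
    have h4 : dd H x = LC.map P (u : M →+ N) (dd F' x) - dd (dd Y') x := by
      have e1 : H = (fun x => LC.map P (u : M →+ N) (F' x)) - dd Y' := rfl
      rw [e1, dd_sub, dd_map]
      rfl
    rw [h3, h4, hdF', dd_dd]
    simp

/-- The cohomology of a finite cyclic group. -/
theorem hmapZero_cyclic_aux [Fintype P] {σ : P} (hσ : ∀ g : P, g ∈ Subgroup.zpowers σ) (b : ℕ) :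
    ∀ {M N : Type u} [AddCommGroup M] [DistribMulAction P M] [AddCommGroup N]
      [DistribMulAction P N] (u : M →+[P] N), CycA σ u → CycB P σ u → HMapZero P (b + 1) u := by
  induction b with
  | zero => intro M N _ _ _ _ u _ hB; exact hmapZero_one hσ u hB
  | succ b ih =>
    intro M N _ _ _ _ u hA hB
    exact hmapZero_succ u (ih (QI.map u) (cycA_QI hσ u hB) (cycB_QI hσ u hA))

end Shift

end Cyclic

section Subgroups

open Vale.Agent.P251.I

universe u

/-- The cohomology of a finite cyclic group, form with powers of the generator. -/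
theorem hmapZero_of_cyclic {P M N : Type u} [Group P] [TopologicalSpace P] [DiscreteTopology P]
    [Finite P] [AddCommGroup M] [DistribMulAction P M] [AddCommGroup N] [DistribMulAction P N]
    {σ : P} (hσ : ∀ g : P, g ∈ Subgroup.zpowers σ) (u : M →+[P] N)
    (hA : ∀ m : M, σ • m = m → ∃ z : N, u m = ∑ i ∈ range (orderOf σ), σ ^ i • z)
    (hB : ∀ m : M, ∑ i ∈ range (orderOf σ), σ ^ i • m = 0 → ∃ z : N, u m = σ • z - z)
    {s : ℕ} (hs : 1 ≤ s) : HMapZero P s u := by
  obtain ⟨b, rfl⟩ := Nat.exists_eq_succ_of_ne_zero (Nat.one_le_iff_ne_zero.1 hs)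
  have : Fintype P := Fintype.ofFinite P
  refine hmapZero_cyclic_aux hσ b u (fun m hm => ?_) (fun m hm => ?_)
  · obtain ⟨z, hz⟩ := hA m hm
    exact ⟨z, by rw [hz, sum_range_orderOf hσ (fun g : P => g • z)]⟩
  · exact hB m (by rw [sum_range_orderOf hσ (fun g : P => g • m), hm])

/-- `CycZero` implies that the map is zero in the cohomology of the finite subgroups of order
dividing `p`. -/
theorem CycZero.hmapZero {p : ℕ} (hp : p.Prime) {G M N : Type u} [Group G] [TopologicalSpace G]
    [T1Space G] [AddCommGroup M] [DistribMulAction G M] [AddCommGroup N] [DistribMulAction G N]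
    {u : M →+[G] N} (hu : CycZero p G u) (P : Subgroup G) [Finite P] (hP : Nat.card P ∣ p)
    {s : ℕ} (hs : 1 ≤ s) : HMapZero P s u := by
  let u' : M →+[P] N :=
    { toFun := u, map_zero' := map_zero u, map_add' := map_add u,
      map_smul' := fun g m => map_smul u (g : G) m }
  change HMapZero P s u'
  rcases (Nat.dvd_prime hp).1 hP with h1 | h1
  · have hσ : ∀ g : P, g ∈ Subgroup.zpowers (1 : P) := by
      intro g
      have : Subsingleton P := (Nat.card_eq_one_iff_unique.1 h1).1
      rw [Subsingleton.elim g 1]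
      exact Subgroup.one_mem _
    refine hmapZero_of_cyclic hσ u' (fun m _ => ⟨u m, ?_⟩) (fun m hm => ⟨0, ?_⟩) hs
    · rw [orderOf_one, Finset.sum_range_one, pow_zero, one_smul]
      rfl
    · have : m = 0 := by simpa using hm
      simp [this]
  · have : Fact p.Prime := ⟨hp⟩
    have : IsCyclic P := isCyclic_of_prime_card h1
    obtain ⟨σ, hσ⟩ := IsCyclic.exists_generator (α := P)
    have ho : orderOf σ = p := by rw [orderOf_eq_card_of_forall_mem_zpowers hσ, h1]
    have ho' : orderOf (σ : G) = p := by rw [Subgroup.orderOf_coe, ho]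
    obtain ⟨hA, hB⟩ := hu σ ho'
    refine hmapZero_of_cyclic hσ u' (fun m hm => ?_) (fun m hm => ?_) hs
    · obtain ⟨z, hz⟩ := hA m hm
      exact ⟨z, by rw [ho]; exact hz⟩
    · rw [ho] at hm
      obtain ⟨z, hz⟩ := hB m hm
      exact ⟨z, hz⟩

/-- The identity of a module is zero in the cohomology of the trivial group. -/
theorem hZero_of_card_eq_one {G M : Type u} [Group G] [TopologicalSpace G]
    [T1Space G] [AddCommGroup M] [DistribMulAction G M] (P : Subgroup G) (hP : Nat.card P = 1)
    {s : ℕ} (hs : 1 ≤ s) : HZero P M s := by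
  have : Finite P := Nat.finite_of_card_ne_zero (by rw [hP]; exact one_ne_zero)
  have hσ : ∀ g : P, g ∈ Subgroup.zpowers (1 : P) := by
    intro g
    have : Subsingleton P := (Nat.card_eq_one_iff_unique.1 hP).1
    rw [Subsingleton.elim g 1]
    exact Subgroup.one_mem _
  have h := hmapZero_of_cyclic hσ (DistribMulActionHom.id P : M →+[P] M)
    (fun m _ => ⟨m, by simp⟩) (fun m hm => ⟨0, by
      have : m = 0 := by simpa using hm
      simp [this]⟩) hs
  intro F hF hd
  exact h F hF hd

end Subgroups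

end Vale.Agent.P251.C
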