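import Vale.Agent.P251.C.LemmaX

/-!
# P251, part C2: transport of vanishing along isomorphisms, Shapiro's lemma for open subgroups

* `HMapZero.transport`: transport along isomorphisms of groups and modules;
* `HMapZero.smul_point`: `HMapZero` for the stabilizer of `x` gives it for the stabilizer of `g • x`;
* `shapiro_open`: `HMapZero P s u → HMapZero G s (LC.mapG (G ⧸ P) u)` for `P` open.
-/

open Finset Function Set

namespace Vale.Agent.P251.C

section Transport

variable {P P' : Type*} [Group P] [TopologicalSpace P] [Group P'] [TopologicalSpace P']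
  {M N M' N' : Type*} [AddCommGroup M] [AddCommGroup N] [AddCommGroup M'] [AddCommGroup N']
  [DistribMulAction P M] [DistribMulAction P N] [DistribMulAction P' M'] [DistribMulAction P' N']

/-- Transport of `HMapZero` along isomorphisms. -/
theorem HMapZero.transport (φ : P' ≃* P) (hφ : Continuous φ) (hφ' : Continuous φ.symm)
    (a : M ≃+ M') (b : N →+ N') (ha : ∀ (p : P') (m : M), a (φ p • m) = p • a m)
    (hb : ∀ (p : P') (m : N), b (φ p • m) = p • b m) {u : M → N} {u' : M' → N'}
    (hu : ∀ m, u' (a m) = b (u m)) {s : ℕ} (h : HMapZero P s u) : HMapZero P' s u' := by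
  intro F hF hd
  have hF' : IsCoch P (fun x : Fin (s + 1) → P => a.symm (F (φ.symm ∘ x))) := by
    refine ⟨?_, fun p x => ?_⟩
    · exact (hF.lc.comp_continuous
        (continuous_pi fun j => hφ'.comp (continuous_apply j))).comp a.symm
    · rw [AddEquiv.symm_apply_eq]
      have h1 := ha (φ.symm p) (a.symm (F (φ.symm ∘ x)))
      rw [MulEquiv.apply_symm_apply, AddEquiv.apply_symm_apply] at h1
      rw [h1, ← hF.equi]
      congr 1
      funext i
      simp
  obtain ⟨Y, hY, hY2⟩ := h _ hF' (by
    have h1 := dd_map (a.symm : M' →+ M) (fun x : Fin (s + 1) → P => F (φ.symm ∘ x))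
    have h2 : (dd fun x : Fin (s + 1) → P => F (φ.symm ∘ x)) = fun x => dd F (φ.symm ∘ x) := rfl
    rw [h2, hd] at h1
    refine Eq.trans h1 ?_
    funext x
    simp)
  refine ⟨fun x => b (Y (φ ∘ x)), ⟨?_, fun p x => ?_⟩, ?_⟩
  · exact (hY.lc.comp_continuous (continuous_pi fun j => hφ.comp (continuous_apply j))).comp b
  · rw [← hb, ← hY.equi]
    congr 2
    funext i
    simp
  · have h1 := dd_map b (fun x : Fin s → P' => Y (φ ∘ x))
    rw [h1]
    funext x
    have h2 : dd (fun x : Fin s → P' => Y (φ ∘ x)) x = dd Y (φ ∘ x) := rfl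
    rw [h2, hY2]
    simp only [Function.comp_apply]
    rw [← hu, AddEquiv.apply_symm_apply]
    congr 2
    funext i
    simp

end Transport

section Conj

variable {G : Type*} [Group G] [TopologicalSpace G] {X : Type*} [MulAction G X]
  {M N : Type*} [AddCommGroup M] [AddCommGroup N] [DistribMulAction G M] [DistribMulAction G N]

theorem HMapZero.smul_point [IsTopologicalGroup G] {s : ℕ} (u : M →+[G] N) {x : X} (g : G)
    (h : HMapZero (MulAction.stabilizer G x) s u) :
    HMapZero (MulAction.stabilizer G (g • x)) s u := by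
  have e : g • x = g • x := rfl
  have hf : ∀ q : MulAction.stabilizer G (g • x),
      g⁻¹ * q * g ∈ MulAction.stabilizer G x := by
    intro q
    have hq : (q : G) • g • x = g • x := q.2
    rw [MulAction.mem_stabilizer_iff, mul_smul, mul_smul, hq, inv_smul_smul]
  have hi : ∀ q : MulAction.stabilizer G x,
      g * q * g⁻¹ ∈ MulAction.stabilizer G (g • x) := by
    intro q
    have hq : (q : G) • x = x := q.2
    rw [MulAction.mem_stabilizer_iff, mul_smul, mul_smul, inv_smul_smul, hq]
  let φ : MulAction.stabilizer G (g • x) ≃* MulAction.stabilizer G x :=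
    { toFun := fun q => ⟨g⁻¹ * q * g, hf q⟩
      invFun := fun q => ⟨g * q * g⁻¹, hi q⟩
      left_inv := fun q => Subtype.ext (by simp [mul_assoc])
      right_inv := fun q => Subtype.ext (by simp [mul_assoc])
      map_mul' := fun p q => Subtype.ext (by simp [mul_assoc]) }
  refine HMapZero.transport φ ?_ ?_ (DistribMulAction.toAddEquiv M g)
    (DistribSMul.toAddMonoidHom N g) ?_ ?_ ?_ h
  · refine Continuous.subtype_mk ?_ _
    exact (continuous_const.mul continuous_subtype_val).mul continuous_const
  · refine Continuous.subtype_mk ?_ _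
    exact (continuous_const.mul continuous_subtype_val).mul continuous_const
  · intro p m
    change g • ((g⁻¹ * (p : G) * g) • m) = (p : G) • (g • m)
    rw [smul_smul, smul_smul]
    congr 1
    group
  · intro p m
    change g • ((g⁻¹ * (p : G) * g) • m) = (p : G) • (g • m)
    rw [smul_smul, smul_smul]
    congr 1
    group
  · intro m
    exact map_smul u g m

/-- Conjugate subgroups. -/
theorem HMapZero.conj [IsTopologicalGroup G] {s : ℕ} (u : M →+[G] N) {P Q : Subgroup G} (g : G)
    (hPQ : ∀ q, q ∈ Q ↔ g⁻¹ * q * g ∈ P) (h : HMapZero P s u) : HMapZero Q s u := by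
  have h1 : MulAction.stabilizer G ((1 : G) : G ⧸ P) = P := MulAction.stabilizer_quotient P
  have h2 : MulAction.stabilizer G (g • ((1 : G) : G ⧸ P)) = Q := by
    ext q
    rw [hPQ, MulAction.mem_stabilizer_iff]
    constructor
    · intro h3
      have h4 : ((g⁻¹ * q * g : G) : G ⧸ P) = ((1 : G) : G ⧸ P) := by
        have h5 := congrArg (fun y => g⁻¹ • y) h3
        simp only [inv_smul_smul] at h5
        rw [← h5]
        change _ = ((g⁻¹ * (q * (g * 1)) : G) : G ⧸ P)
        simp [mul_assoc]
      rw [← h1, MulAction.mem_stabilizer_iff]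
      change ((g⁻¹ * q * g * 1 : G) : G ⧸ P) = _
      rw [mul_one]; exact h4
    · intro h3
      have h4 : g⁻¹ * q * g ∈ MulAction.stabilizer G ((1 : G) : G ⧸ P) := by rw [h1]; exact h3
      rw [MulAction.mem_stabilizer_iff, mul_smul, mul_smul, inv_smul_eq_iff] at h4
      exact h4
  have h3 : HMapZero (MulAction.stabilizer G ((1 : G) : G ⧸ P)) s u := by rw [h1]; exact h
  have h4 := HMapZero.smul_point u g h3
  rw [h2] at h4
  exact h4

/-- Restriction of discrete modules. -/
instance DiscMod.subgroup [DiscMod G M] (P : Subgroup G) : DiscMod P M :=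
  ⟨fun m => (DiscMod.isOpen_stab (G := G) m).preimage continuous_subtype_val⟩

end Conj

section Open

variable {G : Type*} [Group G] [TopologicalSpace G] [IsTopologicalGroup G] [CompactSpace G]
  [T2Space G] [TotallyDisconnectedSpace G]
  {M N : Type*} [AddCommGroup M] [AddCommGroup N] [DistribMulAction G M] [DistribMulAction G N]

/-- Shapiro's lemma for an open subgroup. -/
theorem shapiro_open [DiscMod G N] {s : ℕ} (u : M →+[G] N) (P : Subgroup G)
    (hP : IsOpen (P : Set G)) (h : HMapZero P s u) : HMapZero G s (LC.mapG (G ⧸ P) u) := by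
  have hdisc : DiscreteTopology (G ⧸ P) := QuotientGroup.discreteTopology hP
  have h1 : MulAction.stabilizer G ((1 : G) : G ⧸ P) = P := MulAction.stabilizer_quotient P
  have h2 : HMapZero (MulAction.stabilizer G ((1 : G) : G ⧸ P)) s u := by rw [h1]; exact h
  refine lemmaX_of_isOpen u ?_ ?_
  · intro x
    have h3 : ((MulAction.stabilizer G x : Subgroup G) : Set G) = (fun g : G => g • x) ⁻¹' {x} := by
      ext g; simp [MulAction.mem_stabilizer_iff]
    rw [h3]
    exact (isOpen_discrete _).preimage (continuous_id.smul continuous_const)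
  · intro x
    obtain ⟨g, rfl⟩ := QuotientGroup.mk_surjective x
    have h3 := HMapZero.smul_point u g h2
    have h4 : g • ((1 : G) : G ⧸ P) = (g : G ⧸ P) := by
      change ((g * 1 : G) : G ⧸ P) = _
      rw [mul_one]
    rw [h4] at h3
    exact h3

/-- Shapiro's lemma for open subgroups in the form used in `C/CorDim.lean`. -/
theorem shapiroAt (G : Type) [Group G] [TopologicalSpace G] [IsTopologicalGroup G] [CompactSpace G]
    [T2Space G] [TotallyDisconnectedSpace G] (P : Subgroup G) (hP : IsOpen (P : Set G)) :
    ShapiroAt G P := by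
  intro M N _ _ _ _ _ _ u s _ h
  exact shapiro_open u P hP h

end Open

end Vale.Agent.P251.C
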