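import Vale.Agent.P251.C.IndSpace
import Vale.Agent.P251.C.ShapiroOpen
import Vale.Agent.P251.C.Cyclic

/-!
# P251, part C8: assembly

From the data `ρ` of a finite resolution by functions on a free `U`-space, tensor induction to `S`
and Lemma X: `iterS` (towers of modules, pro-version).
-/

set_option linter.unusedSectionVars false

open Finset Function

namespace Vale.Agent.P251.C

section zmod

variable {p : ℕ}

/-- A discrete module killed by `p` is a `ZMod p`-module commuting with the group. -/
theorem smulComm_zmod {S M : Type*} [Group S] [AddCommGroup M] [DistribMulAction S M]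
    [Module (ZMod p) M] : SMulCommClass S (ZMod p) M := by
  refine ⟨fun g r m => ?_⟩
  exact ZMod.map_smul (DistribSMul.toAddMonoidHom M g) r m

/-- An equivariant map as a linear map. -/
def linOf {S M N : Type*} [Group S] [AddCommGroup M] [DistribMulAction S M]
    [AddCommGroup N] [DistribMulAction S N] [Module (ZMod p) M] [Module (ZMod p) N]
    (u : M →+[S] N) : M →ₗ[ZMod p] N where
  toFun := u
  map_add' := map_add u
  map_smul' r m := ZMod.map_smul (u : M →+ N) r m

end zmod

section iterS

variable {p : ℕ} {S : Type} [Group S] [TopologicalSpace S] [IsTopologicalGroup S] [CompactSpace S]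
  [T2Space S] [TotallyDisconnectedSpace S] (U : Subgroup S) [U.Normal]
  {X : Type} [TopologicalSpace X] [CompactSpace X] [T2Space X] [TotallyDisconnectedSpace X]
  [MulAction U X] [ContinuousSMul U X] (ρ : ResData (ZMod p) X)

/-- The main step: if the maps of a tower of discrete modules killed by `p` are zero in the
cohomology (in positive degrees) of the finite subgroups meeting `U` trivially, then the composite
of `d * [S : U] + 1` maps is zero in the cohomology of `S` in degrees above `d * [S : U]`. -/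
theorem iterS (hU : IsOpen (U : Set S)) (hρ : Equi ρ U) {d : ℕ} (hd : ∀ x, ρ.deg x ≤ d)
    (hfree : ∀ (u : U) (z : X), u • z = z → u = 1) (hodd : Odd (Nat.card (S ⧸ U)))
    (M : ℕ → Type) [∀ k, AddCommGroup (M k)] [∀ k, DistribMulAction S (M k)]
    [∀ k, DiscMod S (M k)] (hM : ∀ k (m : M k), p • m = 0) (u : ∀ k, M (k + 1) →+[S] M k)
    (hu : ∀ (P : Subgroup S), Finite P → P ⊓ U = ⊥ → ∀ k s, 1 ≤ s → HMapZero P s (u k))
    (s : ℕ) (hs : d * Nat.card (S ⧸ U) + 1 ≤ s) :
    HMapZero S s (compT u (d * Nat.card (S ⧸ U) + 1)) := by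
  classical
  have : Finite (S ⧸ U) := Subgroup.quotient_finite_of_isOpen U hU
  let _ : Fintype (S ⧸ U) := Fintype.ofFinite _
  let _ : ∀ k, Module (ZMod p) (M k) := fun k => AddCommGroup.zmodModule (hM k)
  have : ∀ k, SMulCommClass S (ZMod p) (M k) := fun k => smulComm_zmod
  have : ContinuousSMul S (IndSp U X) := continuousSMul_indSp hU
  have hns : ∀ (g : S) (c e : S ⧸ U), g • c = e → g • e = c → c = e := noSwap U hodd
  have : ∀ k, DiscMod S (LC (IndSp U X) (M k)) := fun k => discMod_LC
  let J : ℕ → ℕ → Type := fun k i => JMod U ρ (M k) i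
  have hst : ∀ k i (g : S) (a : LC (IndSp U X) (M k)), a ∈ JMod U ρ (M k) i →
      g • a ∈ JMod U ρ (M k) i := fun k i g a ha => smul_mem_JMod ρ hρ g ha
  let _ : ∀ k i, DistribMulAction S (J k i) := fun k i => subAct _ (hst k i)
  have : ∀ k i, DiscMod S (J k i) := fun k i => discMod_sub _ (hst k i)
  let w : ∀ k i, J (k + 1) i →+[S] J k i := fun k i =>
    { toFun := fun z => ⟨LC.mapG (IndSp U X) (u k) z.1,
        map_mem_JMod ρ (u k : M (k + 1) →+ M k) z.2⟩
      map_smul' := fun g z => Subtype.ext (map_smul (LC.mapG (IndSp U X) (u k)) g z.1)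
      map_zero' := Subtype.ext (map_zero (LC.mapG (IndSp U X) (u k)))
      map_add' := fun a b => Subtype.ext (map_add (LC.mapG (IndSp U X) (u k)) a.1 b.1) }
  let ε : ∀ k, M k →+[S] J k 0 := fun k =>
    { toFun := fun m => ⟨augJ ρ U (M k) m, augJ_mem ρ m⟩
      map_smul' := fun g m => Subtype.ext (augJ_smul ρ hρ g m)
      map_zero' := Subtype.ext (map_zero (augJ ρ U (M k)))
      map_add' := fun a b => Subtype.ext (map_add (augJ ρ U (M k)) a b) }
  let δ : ∀ k i, J k i →+[S] J k (i + 1) := fun k i =>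
    { toFun := fun z => ⟨dJ ρ U (M k) z.1, dJ_mem ρ z.2⟩
      map_smul' := fun g z => Subtype.ext (dJ_smul ρ hρ g z.1)
      map_zero' := Subtype.ext (map_zero (dJ ρ U (M k)))
      map_add' := fun a b => Subtype.ext (map_add (dJ ρ U (M k)) a.1 b.1) }
  have hcard : Fintype.card (S ⧸ U) = Nat.card (S ⧸ U) := (Nat.card_eq_fintype_card).symm
  refine HMapZero.iter (G := S) (d * Nat.card (S ⧸ U)) M J u w ε δ ?_ ?_ ?_ ?_ ?_ ?_ ?_ s hs
  · intro k a b hab
    exact augJ_injective (ZMod p) ρ (congrArg Subtype.val hab)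
  · intro k x
    constructor
    · intro h
      obtain ⟨m, hm⟩ := exactJ_zero ρ hns x.2 (congrArg Subtype.val h)
      exact ⟨m, Subtype.ext hm⟩
    · rintro ⟨m, rfl⟩
      exact Subtype.ext (dJ_augJ ρ m)
  · intro k i x
    constructor
    · intro h
      obtain ⟨y, hy, hyx⟩ := exactJ_pos ρ hns x.2 (congrArg Subtype.val h)
      exact ⟨⟨y, hy⟩, Subtype.ext hyx⟩
    · rintro ⟨y, rfl⟩
      exact Subtype.ext (dJ_dJ ρ hns y.1)
  · intro k m
    exact Subtype.ext (map_augJ ρ (u k : M (k + 1) →+ M k) m)
  · intro k i x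
    exact Subtype.ext (dJ_map ρ (linOf (p := p) (u k)) x.1).symm
  · intro k x
    refine Subtype.ext (JMod_eq_bot ρ hd ?_ x.2)
    rw [hcard]
    exact Nat.lt_succ_self _
  · intro k i s hs
    have h1 : HMapZero S s (LC.mapG (IndSp U X) (u k)) := by
      refine lemmaX (u k) (fun x => finite_stab hfree x) fun x => ?_
      refine hu _ (finite_stab hfree x) ?_ k s hs
      rw [eq_bot_iff]
      rintro g ⟨hg1, hg2⟩
      exact stab_inf hfree x hg2 hg1
    let ι : J (k + 1) i →+[S] LC (IndSp U X) (M (k + 1)) :=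
      { toFun := fun z => z.1
        map_smul' := fun g z => rfl
        map_zero' := rfl
        map_add' := fun a b => rfl }
    let π : LC (IndSp U X) (M k) →+[S] J k i :=
      { toFun := fun F => ⟨cmpJ ρ U (M k) i F, cmpJ_mem ρ i F⟩
        map_smul' := fun g F => Subtype.ext (cmpJ_smul ρ hρ i g F)
        map_zero' := Subtype.ext (map_zero (cmpJ ρ U (M k) i))
        map_add' := fun a b => Subtype.ext (map_add (cmpJ ρ U (M k) i) a b) }
    have h2 := (h1.comp_right ι).comp_left π
    have h3 : (π ∘ (LC.mapG (IndSp U X) (u k)) ∘ ι : J (k + 1) i → J k i) = w k i := by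
      funext z
      exact Subtype.ext (cmpJ_of_mem ρ (map_mem_JMod ρ (u k : M (k + 1) →+ M k) z.2))
    rw [← h3]
    exact h2

end iterS

end Vale.Agent.P251.C
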