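import Vale.Agent.P251.C.Defs

/-!
# P251, part C1: basic facts on homogeneous cochains
-/

open Finset Function

namespace Vale.Agent.P251.C

section Alg

variable {G M N : Type*} [AddCommGroup M] [AddCommGroup N] {n : ℕ}

@[simp] theorem dd_zero : dd (0 : (Fin n → G) → M) = 0 := by
  funext x; simp [dd]

theorem dd_add (F H : (Fin n → G) → M) : dd (F + H) = dd F + dd H := by
  funext x; simp [dd, smul_add, sum_add_distrib]

theorem dd_neg (F : (Fin n → G) → M) : dd (-F) = -dd F := by
  funext x; simp [dd]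

theorem dd_sub (F H : (Fin n → G) → M) : dd (F - H) = dd F - dd H := by
  rw [sub_eq_add_neg, dd_add, dd_neg, ← sub_eq_add_neg]

theorem dd_sum {ι : Type*} (s : Finset ι) (F : ι → (Fin n → G) → M) :
    dd (∑ i ∈ s, F i) = ∑ i ∈ s, dd (F i) := by
  classical
  induction s using Finset.induction_on with
  | empty => simp
  | insert a s ha ih => rw [sum_insert ha, sum_insert ha, dd_add, ih]

theorem dd_map (u : M →+ N) (F : (Fin n → G) → M) : dd (fun x => u (F x)) = fun x => u (dd F x) := by
  funext x; simp [dd, map_sum, map_zsmul]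

theorem dd_map' (u : M →+ N) (F : (Fin n → G) → M) : dd (u ∘ F) = u ∘ dd F := dd_map u F

/-- precomposition with a map of the vertices -/
theorem dd_comp {H : Type*} (r : H → G) (F : (Fin n → G) → M) (x : Fin (n + 1) → H) :
    dd (fun y : Fin n → H => F (r ∘ y)) x = dd F (r ∘ x) := rfl

/-- the recursion for the coboundary -/
theorem dd_cons (F : (Fin (n + 1) → G) → M) (a : G) (x : Fin (n + 1) → G) :
    dd F (Fin.cons a x : Fin (n + 2) → G) = F x - dd (fun y => F (Fin.cons a y)) x := by
  unfold dd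
  rw [Fin.sum_univ_succ]
  have h0 : (fun j : Fin (n + 1) => (Fin.cons a x : Fin (n + 2) → G) ((0 : Fin (n + 2)).succAbove j))
      = x := by
    funext j; simp
  rw [h0, sub_eq_add_neg, ← sum_neg_distrib]
  congr 1
  · simp
  · refine sum_congr rfl fun i _ => ?_
    have h1 : (fun j : Fin (n + 1) => (Fin.cons a x : Fin (n + 2) → G) (i.succ.succAbove j)) =
        Fin.cons a (fun j => x (i.succAbove j)) := by
      funext j
      refine Fin.cases ?_ (fun j => ?_) j
      · simp
      · simp [Fin.succ_succAbove_succ]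
    rw [h1, Fin.val_succ, pow_succ]
    simp

theorem dd_one (F : (Fin 0 → G) → M) (x : Fin 1 → G) : dd F x = F (fun i => i.elim0) := by
  unfold dd
  rw [Fin.sum_univ_one]
  simp only [Fin.val_zero, pow_zero, one_smul]
  congr 1
  funext i
  exact i.elim0

theorem dd_dd (F : (Fin n → G) → M) : dd (dd F) = 0 := by
  induction n with
  | zero =>
    funext x
    obtain ⟨a, x', rfl⟩ : ∃ a x', x = (Fin.cons a x' : Fin 2 → G) := ⟨x 0, Fin.tail x, by simp⟩
    rw [dd_cons, dd_one]
    have : (fun y : Fin 0 → G => dd F (Fin.cons a y : Fin 1 → G)) =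
        fun _ => F (fun i => i.elim0) := by
      funext y; exact dd_one F _
    rw [this, dd_one]
    simp
  | succ n ih =>
    funext x
    obtain ⟨a, x', rfl⟩ : ∃ a x', x = (Fin.cons a x' : Fin (n + 3) → G) :=
      ⟨x 0, Fin.tail x, by simp⟩
    rw [dd_cons]
    have h1 : (fun y : Fin (n + 1) → G => dd F (Fin.cons a y : Fin (n + 2) → G)) =
        F - dd (fun y => F (Fin.cons a y)) := by
      funext y; rw [dd_cons]; rfl
    rw [h1, dd_sub, ih (fun y => F (Fin.cons a y))]
    simp

end Alg

section Coch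

variable {G M N : Type*} [Group G] [TopologicalSpace G] [AddCommGroup M] [DistribMulAction G M]
  [AddCommGroup N] [DistribMulAction G N] {n : ℕ}

theorem isLocallyConstant_dd {G M : Type*} [TopologicalSpace G] [AddCommGroup M] {n : ℕ}
    {F : (Fin n → G) → M} (hF : IsLocallyConstant F) : IsLocallyConstant (dd F) := by
  have h : ∀ i : Fin (n + 1), IsLocallyConstant
      (fun x : Fin (n + 1) → G => (-1 : ℤ) ^ (i : ℕ) • F (fun j => x (i.succAbove j))) := fun i =>
    (hF.comp_continuous (continuous_pi fun j => continuous_apply (i.succAbove j))).comp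
      ((-1 : ℤ) ^ (i : ℕ) • ·)
  have key : ∀ t : Finset (Fin (n + 1)), IsLocallyConstant
      (fun x : Fin (n + 1) → G => ∑ i ∈ t, (-1 : ℤ) ^ (i : ℕ) • F (fun j => x (i.succAbove j))) := by
    classical
    intro t
    induction t using Finset.induction_on with
    | empty => exact IsLocallyConstant.const (0 : M)
    | insert a t ha ih =>
      simp only [sum_insert ha]
      exact (h a).add ih
  exact key univ

theorem IsCoch.zero : IsCoch G (0 : (Fin n → G) → M) :=
  ⟨IsLocallyConstant.const 0, fun g x => by simp⟩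

theorem IsCoch.add {F H : (Fin n → G) → M} (hF : IsCoch G F) (hH : IsCoch G H) :
    IsCoch G (F + H) :=
  ⟨hF.lc.add hH.lc, fun g x => by simp [hF.equi, hH.equi]⟩

theorem IsCoch.neg {F : (Fin n → G) → M} (hF : IsCoch G F) : IsCoch G (-F) :=
  ⟨hF.lc.neg, fun g x => by simp [hF.equi]⟩

theorem IsCoch.sub {F H : (Fin n → G) → M} (hF : IsCoch G F) (hH : IsCoch G H) :
    IsCoch G (F - H) := by
  rw [sub_eq_add_neg]; exact hF.add hH.neg

theorem IsCoch.map {F : (Fin n → G) → M} (hF : IsCoch G F) (u : M →+[G] N) : IsCoch G (u ∘ F) :=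
  ⟨hF.lc.comp u, fun g x => by simp [hF.equi]⟩

theorem IsCoch.dd {F : (Fin n → G) → M} (hF : IsCoch G F) : IsCoch G (dd F) := by
  refine ⟨isLocallyConstant_dd hF.lc, fun g x => ?_⟩
  unfold C.dd
  rw [smul_sum]
  refine sum_congr rfl fun i _ => ?_
  rw [hF.equi g (fun j => x (i.succAbove j)), smul_comm]

theorem hzero_iff {s : ℕ} : HZero G M s ↔ HMapZero G s (id : M → M) := Iff.rfl

theorem HMapZero.comp_left {L : Type*} [AddCommGroup L] [DistribMulAction G L] {s : ℕ}
    {u : M → N} (h : HMapZero G s u) (v : N →+[G] L) : HMapZero G s (v ∘ u) := by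
  intro F hF hd
  obtain ⟨Y, hY, hY2⟩ := h F hF hd
  refine ⟨v ∘ Y, hY.map v, ?_⟩
  have := dd_map' v.toAddMonoidHom Y
  calc C.dd (v ∘ Y) = v ∘ C.dd Y := this
    _ = _ := by rw [hY2]; rfl

theorem HMapZero.comp_right {L : Type*} [AddCommGroup L] [DistribMulAction G L] {s : ℕ}
    {u : M → N} (h : HMapZero G s u) (v : L →+[G] M) : HMapZero G s (u ∘ v) := by
  intro F hF hd
  have hd' : C.dd (v ∘ F) = 0 := by
    have := dd_map' v.toAddMonoidHom F
    calc C.dd (v ∘ F) = v ∘ C.dd F := this
      _ = 0 := by rw [hd]; funext x; simp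
  obtain ⟨Y, hY, hY2⟩ := h (v ∘ F) (hF.map v) hd'
  exact ⟨Y, hY, hY2⟩

theorem HZero.hmapZero {s : ℕ} (h : HZero G M s) (u : M →+[G] N) : HMapZero G s u :=
  HMapZero.comp_left (u := (id : M → M)) h u

theorem HZero.hmapZero' {s : ℕ} (h : HZero G N s) (u : M →+[G] N) : HMapZero G s u :=
  HMapZero.comp_right (u := (id : N → N)) h u

end Coch

/-! ### Prism operator -/

section Prism

variable {G M : Type*} [AddCommGroup M]

/-- The prism operator between the identity and `r`, given recursively. -/
def prism (r : G → G) : ∀ {n : ℕ}, ((Fin (n + 1) → G) → M) → (Fin n → G) → M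
  | 0, _, _ => 0
  | n + 1, F, x => F (Fin.cons (x 0) (r ∘ x)) -
      prism r (fun y => F (Fin.cons (x 0) y)) (Fin.tail x)

theorem prism_cons (r : G → G) {n : ℕ} (F : (Fin (n + 2) → G) → M) (a : G) (x : Fin n → G) :
    prism r F (Fin.cons a x : Fin (n + 1) → G) =
      F (Fin.cons a (Fin.cons (r a) (r ∘ x))) - prism r (fun y => F (Fin.cons a y)) x := by
  rw [prism]
  simp only [Fin.cons_zero, Fin.tail_cons]
  congr 3
  funext j
  refine Fin.cases ?_ (fun j => ?_) j <;> simp

theorem prism_sub (r : G → G) {n : ℕ} (F H : (Fin (n + 1) → G) → M) :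
    prism r (F - H) = prism r F - prism r H := by
  induction n with
  | zero => funext x; simp [prism]
  | succ n ih =>
    funext x
    have := congrFun (ih (fun y => F (Fin.cons (x 0) y)) (fun y => H (Fin.cons (x 0) y))) (Fin.tail x)
    change (F (Fin.cons (x 0) (r ∘ x)) - H (Fin.cons (x 0) (r ∘ x))) -
      prism r ((fun y => F (Fin.cons (x 0) y)) - (fun y => H (Fin.cons (x 0) y))) (Fin.tail x) =
      (F (Fin.cons (x 0) (r ∘ x)) - prism r (fun y => F (Fin.cons (x 0) y)) (Fin.tail x)) -
      (H (Fin.cons (x 0) (r ∘ x)) - prism r (fun y => H (Fin.cons (x 0) y)) (Fin.tail x))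
    rw [this]
    simp only [Pi.sub_apply]
    abel

/-- `d h + h d = r^* - 1`. -/
theorem prism_homotopy (r : G → G) {n : ℕ} (F : (Fin (n + 1) → G) → M) (x : Fin (n + 1) → G) :
    dd (prism r F) x + prism r (dd F) x = F (r ∘ x) - F x := by
  induction n with
  | zero =>
    obtain ⟨a, x', rfl⟩ : ∃ a x', x = (Fin.cons a x' : Fin 1 → G) := ⟨x 0, Fin.tail x, by simp⟩
    have h1 : dd (prism r F) (Fin.cons a x' : Fin 1 → G) = 0 := by
      rw [dd_one]; rfl
    rw [h1, prism_cons, dd_cons, zero_add]
    have h2 : prism r (fun y : Fin 1 → G => dd F (Fin.cons a y : Fin 2 → G)) x' = 0 := rfl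
    rw [h2, sub_zero, dd_one]
    congr 2
    · funext j
      refine Fin.cases ?_ (fun j => j.elim0) j
      simp
    · funext j
      refine Fin.cases ?_ (fun j => j.elim0) j
      simp
  | succ n ih =>
    obtain ⟨a, x', rfl⟩ : ∃ a x', x = (Fin.cons a x' : Fin (n + 2) → G) :=
      ⟨x 0, Fin.tail x, by simp⟩
    have e0 : r ∘ (Fin.cons a x' : Fin (n + 2) → G) = Fin.cons (r a) (r ∘ x') := by
      funext j
      refine Fin.cases ?_ (fun j => ?_) j <;> simp
    -- `d h F`
    have e1 : dd (prism r F) (Fin.cons a x' : Fin (n + 2) → G) =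
        prism r F x' - (dd (fun y => F (Fin.cons a (Fin.cons (r a) y))) (r ∘ x') -
          dd (prism r (fun y => F (Fin.cons a y))) x') := by
      rw [dd_cons]
      congr 1
      have : (fun y : Fin n → G => prism r F (Fin.cons a y : Fin (n + 1) → G)) =
          (fun y : Fin n → G => F (Fin.cons a (Fin.cons (r a) (r ∘ y)))) -
            prism r (fun y => F (Fin.cons a y)) := by
        funext y; rw [prism_cons]; rfl
      rw [this, dd_sub]
      rfl
    -- `h d F`
    have e2 : prism r (dd F) (Fin.cons a x' : Fin (n + 2) → G) =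
        (F (Fin.cons (r a) (r ∘ x')) - (F (Fin.cons a (r ∘ x')) -
          dd (fun y => F (Fin.cons a (Fin.cons (r a) y))) (r ∘ x'))) -
        (prism r F x' - prism r (dd (fun y => F (Fin.cons a y))) x') := by
      rw [prism_cons]
      congr 1
      · rw [dd_cons, dd_cons]
      · have : (fun y : Fin (n + 2) → G => dd F (Fin.cons a y : Fin (n + 3) → G)) =
            F - dd (fun y => F (Fin.cons a y)) := by
          funext y; rw [dd_cons]; rfl
        rw [this, prism_sub]
        rfl
    have e3 := ih (fun y => F (Fin.cons a y)) x'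
    rw [e1, e2, e0]
    have e4 : dd (prism r (fun y => F (Fin.cons a y))) x' =
        F (Fin.cons a (r ∘ x')) - F (Fin.cons a x') -
          prism r (dd (fun y => F (Fin.cons a y))) x' := by
      rw [← e3]; abel
    rw [e4]
    abel

end Prism

end Vale.Agent.P251.C
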