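import Mathlib

/-!
# P251, part C6 (A): groups with an `N_p`-series whose graded group algebra is polynomial

For a group `U` with a filtration `P 1 = ⊤ ≥ P 2 ≥ ...` and elements `g i` of weight `wt i`
(`NpData`), the ordered monomials in the `g i - 1` form an adapted basis of the group algebra
modulo each of the ideals `P M - 1`.
-/

namespace Vale.Agent.P251.C

open MonoidAlgebra
open scoped commutatorElement

/-- A filtration of the group `U` (an `N_p`-series), such that the associated graded restricted Lie
algebra is commutative and the `p`-powers of the classes of the elements `g i`, of weight `wt i`,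
are a basis of it. -/
structure NpData (p d : ℕ) (U : Type*) [Group U] where
  /-- the filtration -/
  P : ℕ → Subgroup U
  P_one : P 1 = ⊤
  anti : Antitone P
  comm' : ∀ a b, 1 ≤ a → 1 ≤ b → ⁅P a, P b⁆ ≤ P (a + b + 1)
  /-- the generators -/
  g : Fin d → U
  /-- their weights -/
  wt : Fin d → ℕ
  wt_pos : ∀ i, 0 < wt i
  g_mem : ∀ i j, g i ^ p ^ j ∈ P (p ^ j * wt i)
  gen : ∀ m, 1 ≤ m →
    P m ≤ Subgroup.closure {y | ∃ i j, p ^ j * wt i = m ∧ y = g i ^ p ^ j} ⊔ P (m + 1)
  index : ∀ m, 1 ≤ m → (P (m + 1)).relIndex (P m) =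
    p ^ {i : Fin d | ∃ j, p ^ j * wt i = m}.ncard

namespace NpData

variable {p d : ℕ} {U : Type*} [Group U] (D : NpData p d U)

theorem P_zero : D.P 0 = ⊤ := top_le_iff.mp (D.P_one ▸ D.anti (Nat.zero_le 1))

theorem comm (a b : ℕ) : ⁅D.P a, D.P b⁆ ≤ D.P (a + b + 1) := by
  have h1 : ∀ a, D.P a = D.P (max a 1) := by
    intro a
    rcases Nat.eq_zero_or_pos a with rfl | h
    · simp [D.P_zero, D.P_one]
    · rw [max_eq_left h]
  rw [h1 a, h1 b]
  exact (D.comm' _ _ (le_max_right _ _) (le_max_right _ _)).trans
    (D.anti (by have := le_max_left a 1; have := le_max_left b 1; omega))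

instance normal (m : ℕ) : (D.P m).Normal := by
  constructor
  intro x hx y
  have h : ⁅y, x⁆ ∈ D.P m := by
    have := D.comm 0 m (Subgroup.commutator_mem_commutator (D.P_zero ▸ Subgroup.mem_top y) hx)
    exact D.anti (show m ≤ 0 + m + 1 by omega) this
  have := (D.P m).mul_mem h hx
  simpa [commutatorElement_def] using this

/-- The group algebra. -/
abbrev A (p : ℕ) (U : Type*) : Type _ := MonoidAlgebra (ZMod p) U

/-- the element `h - 1` of the group algebra -/
noncomputable def dl (p : ℕ) {U : Type*} [Group U] (h : U) : A p U := of (ZMod p) U h - 1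

/-- product of the elements `h - 1` -/
noncomputable def word (p : ℕ) {U : Type*} [Group U] (l : List (ℕ × U)) : A p U :=
  (l.map fun x => dl p x.2).prod

/-- The filtration of the group algebra. -/
noncomputable def I (m : ℕ) : Submodule (ZMod p) (A p U) :=
  Submodule.span (ZMod p) {a | ∃ l : List (ℕ × U), (∀ x ∈ l, x.2 ∈ D.P x.1) ∧
    m ≤ (l.map Prod.fst).sum ∧ a = word p l}

theorem word_mem {l : List (ℕ × U)} (hl : ∀ x ∈ l, x.2 ∈ D.P x.1) {m : ℕ}
    (hm : m ≤ (l.map Prod.fst).sum) : word p l ∈ D.I m :=
  Submodule.subset_span ⟨l, hl, hm, rfl⟩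

theorem I_anti : Antitone D.I := by
  intro m n hmn
  apply Submodule.span_mono
  rintro a ⟨l, h1, h2, h3⟩
  exact ⟨l, h1, hmn.trans h2, h3⟩

theorem dl_mem {h : U} {m : ℕ} (hh : h ∈ D.P m) : dl p h ∈ D.I m := by
  have := D.word_mem (l := [(m, h)]) (by simpa using hh) (m := m) (by simp)
  simpa [word] using this

theorem one_mem : (1 : A p U) ∈ D.I 0 := by
  have := D.word_mem (l := []) (by simp) (m := 0) (by simp)
  simpa [word] using this

theorem I_zero : D.I 0 = ⊤ := by
  rw [eq_top_iff]
  intro a _
  induction a using MonoidAlgebra.induction_on with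
  | of h =>
    have h1 : of (ZMod p) U h = dl p h + 1 := by simp [dl]
    rw [h1]
    exact (D.I 0).add_mem (D.dl_mem (D.P_zero ▸ Subgroup.mem_top h)) D.one_mem
  | add a b ha hb => exact (D.I 0).add_mem (ha trivial) (hb trivial)
  | smul r a ha => exact (D.I 0).smul_mem r (ha trivial)

theorem mul_mem {a b : A p U} {m n : ℕ} (ha : a ∈ D.I m) (hb : b ∈ D.I n) :
    a * b ∈ D.I (m + n) := by
  induction ha using Submodule.span_induction with
  | mem a ha =>
    obtain ⟨l, h1, h2, rfl⟩ := ha
    induction hb using Submodule.span_induction with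
    | mem b hb =>
      obtain ⟨l', h1', h2', rfl⟩ := hb
      have : word p l * word p l' = word p (l ++ l') := by simp [word]
      rw [this]
      apply D.word_mem
      · intro x hx
        rcases List.mem_append.mp hx with h | h
        · exact h1 x h
        · exact h1' x h
      · simp only [List.map_append, List.sum_append]
        omega
    | zero => simp
    | add x y _ _ hx hy => rw [mul_add]; exact Submodule.add_mem _ hx hy
    | smul r x _ hx => rw [mul_smul_comm]; exact Submodule.smul_mem _ r hx
  | zero => simp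
  | add x y _ _ hx hy => rw [add_mul]; exact Submodule.add_mem _ hx hy
  | smul r x _ hx => rw [smul_mul_assoc]; exact Submodule.smul_mem _ r hx

theorem mul_mem_left {b : A p U} {n : ℕ} (a : A p U) (hb : b ∈ D.I n) : a * b ∈ D.I n := by
  have := D.mul_mem (m := 0) (by rw [D.I_zero]; trivial : a ∈ D.I 0) hb
  simpa using this

theorem mul_mem_right {a : A p U} {n : ℕ} (ha : a ∈ D.I n) (b : A p U) : a * b ∈ D.I n := by
  have := D.mul_mem (n := 0) ha (by rw [D.I_zero]; trivial : b ∈ D.I 0)
  simpa using this

theorem dl_comm {a b : ℕ} {x y : U} (hx : x ∈ D.P a) (hy : y ∈ D.P b) :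
    dl p x * dl p y - dl p y * dl p x ∈ D.I (a + b + 1) := by
  have h1 : dl p x * dl p y - dl p y * dl p x = dl p ⁅x, y⁆ * (of (ZMod p) U (y * x)) := by
    have h2 : of (ZMod p) U ⁅x, y⁆ * of (ZMod p) U (y * x) = of (ZMod p) U (x * y) := by
      rw [← map_mul]; congr 1; simp [commutatorElement_def, mul_assoc]
    simp only [dl, sub_mul, mul_sub, one_mul, mul_one, h2]
    simp only [map_mul]
    abel
  rw [h1]
  exact D.mul_mem_right (D.dl_mem (D.comm a b (Subgroup.commutator_mem_commutator hx hy))) _

/-! ### Monomials -/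

/-- the elements `X i = g i - 1` -/
noncomputable def X (i : Fin d) : A p U := dl p (D.g i)

theorem X_mem (i : Fin d) : (D.X i : A p U) ∈ D.I (D.wt i) := by
  apply D.dl_mem
  simpa using D.g_mem i 0

/-- the weight of a word in the letters `X i` -/
def lwt (l : List (Fin d)) : ℕ := (l.map D.wt).sum

/-- product of letters -/
noncomputable def gword (l : List (Fin d)) : A p U := (l.map D.X).prod

theorem gword_mem (l : List (Fin d)) : (D.gword l : A p U) ∈ D.I (D.lwt l) := by
  induction l with
  | nil => simpa [gword, lwt] using D.one_mem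
  | cons i l ih =>
    have := D.mul_mem (D.X_mem i) ih
    simpa [gword, lwt] using this

theorem gword_perm {l l' : List (Fin d)} (h : l.Perm l') :
    (D.gword l - D.gword l' : A p U) ∈ D.I (D.lwt l + 1) := by
  induction h with
  | nil => simp
  | cons x h ih =>
    have := D.mul_mem (D.X_mem x) ih
    rw [mul_sub] at this
    simpa [gword, lwt, add_assoc] using this
  | swap x y l =>
    have h1 : (dl p (D.g y) * dl p (D.g x) - dl p (D.g x) * dl p (D.g y) : A p U) ∈
        D.I (D.wt y + D.wt x + 1) :=
      D.dl_comm (by simpa using D.g_mem y 0) (by simpa using D.g_mem x 0)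
    have h2 := D.mul_mem h1 (D.gword_mem l)
    rw [sub_mul] at h2
    have h3 : D.lwt (y :: x :: l) + 1 = D.wt y + D.wt x + 1 + D.lwt l := by
      simp [lwt]; ring
    rw [h3]
    simpa [gword, X, mul_assoc] using h2
  | trans h1 h2 ih1 ih2 =>
    rename_i l₁ l₂ l₃
    have h3 : D.lwt l₁ = D.lwt l₂ := (h1.map D.wt).sum_eq
    rw [h3] at ih1 ⊢
    have := (D.I _).add_mem ih1 ih2
    simpa using this

/-- the ordered list with multiplicities `α` -/
def can (α : Fin d → ℕ) : List (Fin d) := (List.finRange d).flatMap fun i => List.replicate (α i) i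

/-- the ordered monomial -/
noncomputable def mono (α : Fin d → ℕ) : A p U := D.gword (can α)

/-- weight of an exponent vector -/
def mwt (α : Fin d → ℕ) : ℕ := ∑ i, α i * D.wt i

theorem count_can (α : Fin d → ℕ) (i : Fin d) : (can α).count i = α i := by
  unfold can
  rw [List.count_flatMap]
  have h1 : ((List.count i) ∘ fun j => List.replicate (α j) j) =
      fun j => if j = i then α i else 0 := by
    funext j
    simp only [Function.comp, List.count_replicate]
    by_cases h : j = i
    · simp [h]
    · simp [h]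
  rw [h1, ← Fin.sum_univ_def]
  simp

theorem perm_can (l : List (Fin d)) : l.Perm (can fun i => l.count i) := by
  rw [List.perm_iff_count]
  intro i
  rw [count_can]

theorem lwt_can (α : Fin d → ℕ) : D.lwt (can α) = D.mwt α := by
  unfold lwt can mwt
  rw [List.map_flatMap, List.flatMap_def, List.sum_flatten, List.map_map, Fin.sum_univ_def]
  congr 1
  apply List.map_congr_left
  intro i _
  simp

theorem mono_mem (α : Fin d → ℕ) : (D.mono α : A p U) ∈ D.I (D.mwt α) := by
  rw [← D.lwt_can]; exact D.gword_mem _

theorem mwt_add_single (α : Fin d → ℕ) (i : Fin d) :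
    D.mwt (α + Pi.single i 1) = D.mwt α + D.wt i := by
  simp only [mwt, Pi.add_apply, add_mul, Finset.sum_add_distrib]
  congr 1
  rw [Finset.sum_eq_single i]
  · simp
  · intro j _ hj; simp [Pi.single_eq_of_ne hj]
  · simp

theorem X_mul_mono (α : Fin d → ℕ) (i : Fin d) :
    (D.X i * D.mono α - D.mono (α + Pi.single i 1) : A p U) ∈ D.I (D.mwt α + D.wt i + 1) := by
  have h1 : (i :: can α).Perm (can (α + Pi.single i 1)) := by
    rw [List.perm_iff_count]
    intro j
    rw [List.count_cons, count_can, count_can]
    by_cases h : i = j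
    · subst h; simp
    · simp [h, Pi.single_eq_of_ne (Ne.symm h)]
  have h2 := D.gword_perm (p := p) h1
  have h3 : D.lwt (i :: can α) = D.mwt α + D.wt i := by
    have : D.lwt (i :: can α) = D.wt i + D.lwt (can α) := by simp [lwt]
    rw [this, D.lwt_can]; ring
  rw [h3] at h2
  simpa [gword, mono] using h2

end NpData

end Vale.Agent.P251.C
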