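import Vale.Agent.P251.I.C
import Vale.Agent.P251.C.C6A

/-!
# P251, part C6: the levels of a uniform group

From coordinates `e : U ≃ₜ ℤ_[p]^d` with `e (x * y) = e x + e y + p B(e x, e y)` we get the
subgroups `L l = {u | e u ∈ p^l ℤ_[p]^d}` and their properties.
-/

open Function

namespace Vale.Agent.P251.C

open Vale.Agent.P251.I

namespace Unif

variable {p d : ℕ} [Fact p.Prime]

/-- the submodule `p^l ℤ_[p]^d` -/
def P (p d : ℕ) [Fact p.Prime] (l : ℕ) : Submodule ℤ_[p] (Fin d → ℤ_[p]) where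
  carrier := {v | ∃ w : Fin d → ℤ_[p], v = (p : ℤ_[p]) ^ l • w}
  add_mem' := by
    rintro _ _ ⟨w, rfl⟩ ⟨w', rfl⟩
    exact ⟨w + w', by rw [smul_add]⟩
  zero_mem' := ⟨0, by simp⟩
  smul_mem' := by
    rintro c _ ⟨w, rfl⟩
    exact ⟨c • w, smul_comm _ _ _⟩

theorem mem_P {l : ℕ} {v : Fin d → ℤ_[p]} :
    v ∈ P p d l ↔ ∃ w : Fin d → ℤ_[p], v = (p : ℤ_[p]) ^ l • w := Iff.rfl

theorem P_zero (v : Fin d → ℤ_[p]) : v ∈ P p d 0 := ⟨v, by simp⟩

theorem P_anti {l m : ℕ} (h : l ≤ m) {v : Fin d → ℤ_[p]} (hv : v ∈ P p d m) : v ∈ P p d l := by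
  obtain ⟨w, rfl⟩ := hv
  exact ⟨(p : ℤ_[p]) ^ (m - l) • w, by rw [← mul_smul, ← pow_add, Nat.add_sub_cancel' h]⟩

theorem smul_P (k : ℕ) {l : ℕ} {v : Fin d → ℤ_[p]} (hv : v ∈ P p d l) :
    (p : ℤ_[p]) ^ k • v ∈ P p d (k + l) := by
  obtain ⟨w, rfl⟩ := hv
  exact ⟨w, by rw [← mul_smul, ← pow_add]⟩

theorem p_smul_P {l : ℕ} {v : Fin d → ℤ_[p]} (hv : v ∈ P p d l) :
    (p : ℤ_[p]) • v ∈ P p d (l + 1) := by
  have := smul_P 1 hv
  rwa [pow_one, add_comm 1 l] at this

theorem p_ne_zero : (p : ℤ_[p]) ≠ 0 := by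
  have := (Fact.out : p.Prime).ne_zero
  exact_mod_cast this

theorem of_p_smul_P {l : ℕ} {v : Fin d → ℤ_[p]} (hv : (p : ℤ_[p]) • v ∈ P p d (l + 1)) :
    v ∈ P p d l := by
  obtain ⟨w, hw⟩ := hv
  refine ⟨w, ?_⟩
  rw [pow_succ', mul_smul] at hw
  exact smul_right_injective _ p_ne_zero hw

theorem eq_zero_of_forall {v : Fin d → ℤ_[p]} (h : ∀ l, v ∈ P p d l) : v = 0 := by
  funext i
  by_contra hne
  have hne' : v i ≠ 0 := hne
  obtain ⟨w, hw⟩ := h ((v i).valuation + 1)
  have h1 : v i = (p : ℤ_[p]) ^ ((v i).valuation + 1) * w i := congrFun hw i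
  have h2 : (p : ℤ_[p]) ^ ((v i).valuation + 1) ∣ v i := ⟨_, h1⟩
  rw [← Ideal.mem_span_singleton] at h2
  have := (PadicInt.mem_span_pow_iff_le_valuation (v i) hne' _).1 h2
  omega

variable (B : (Fin d → ℤ_[p]) →ₗ[ℤ_[p]] (Fin d → ℤ_[p]) →ₗ[ℤ_[p]] (Fin d → ℤ_[p]))

theorem B_left {l : ℕ} {v : Fin d → ℤ_[p]} (hv : v ∈ P p d l) (w : Fin d → ℤ_[p]) :
    B v w ∈ P p d l := by
  obtain ⟨v', rfl⟩ := hv
  exact ⟨B v' w, by simp⟩

theorem B_right {l : ℕ} {v : Fin d → ℤ_[p]} (hv : v ∈ P p d l) (w : Fin d → ℤ_[p]) :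
    B w v ∈ P p d l := by
  obtain ⟨v', rfl⟩ := hv
  exact ⟨B w v', by simp⟩

theorem B_both {l m : ℕ} {v w : Fin d → ℤ_[p]} (hv : v ∈ P p d l) (hw : w ∈ P p d m) :
    B v w ∈ P p d (l + m) := by
  obtain ⟨v', rfl⟩ := hv
  obtain ⟨w', rfl⟩ := hw
  exact ⟨B v' w', by
    rw [map_smul, map_smul, LinearMap.smul_apply, ← mul_smul, pow_add, mul_comm]⟩

/-- the basic division step -/
theorem step_left {N : ℕ} {v z : Fin d → ℤ_[p]} (h : v + (p : ℤ_[p]) • B v z ∈ P p d N) :
    v ∈ P p d N := by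
  have key : ∀ k ≤ N, v ∈ P p d k := by
    intro k
    induction k with
    | zero => intro _; exact P_zero v
    | succ k ih =>
      intro hk
      have h1 := p_smul_P (B_left B (ih (by omega)) z)
      have h2 := (P p d (k + 1)).sub_mem (P_anti hk h) h1
      simpa using h2
  exact key N le_rfl

theorem step_right {N : ℕ} {v z : Fin d → ℤ_[p]} (h : v + (p : ℤ_[p]) • B z v ∈ P p d N) :
    v ∈ P p d N :=
  step_left B.flip (by simpa using h)

variable {B} {U : Type*} [Group U] [TopologicalSpace U] {e : U ≃ₜ (Fin d → ℤ_[p])}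
  (he : ∀ x y : U, e (x * y) = e x + e y + (p : ℤ_[p]) • B (e x) (e y))
include he

theorem e_one : e 1 = 0 := by
  have h1 := he 1 1
  rw [mul_one] at h1
  have h2 : e 1 + (p : ℤ_[p]) • B (e 1) (e 1) = 0 := by
    have : e 1 + 0 = e 1 + (e 1 + (p : ℤ_[p]) • B (e 1) (e 1)) := by
      rw [← add_assoc, add_zero]; exact h1
    exact (add_left_cancel this).symm
  exact eq_zero_of_forall fun l => step_left B (by rw [h2]; exact zero_mem _)

theorem e_inv (x : U) : e x⁻¹ = -(e x + (p : ℤ_[p]) • B (e x) (e x⁻¹)) := by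
  have h1 := he x x⁻¹
  rw [mul_inv_cancel, e_one he] at h1
  rw [eq_neg_iff_add_eq_zero, h1]
  abel

/-- the levels -/
def Lev (l : ℕ) : Subgroup U where
  carrier := {u | e u ∈ P p d l}
  mul_mem' := by
    intro x y hx hy
    change e (x * y) ∈ P p d l
    rw [he]
    exact (P p d l).add_mem ((P p d l).add_mem hx hy) ((P p d l).smul_mem _ (B_left B hx _))
  one_mem' := by
    change e 1 ∈ P p d l
    rw [e_one he]; exact zero_mem _
  inv_mem' := by
    intro x hx
    change e x⁻¹ ∈ P p d l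
    rw [e_inv he]
    exact (P p d l).neg_mem ((P p d l).add_mem hx ((P p d l).smul_mem _ (B_left B hx _)))

theorem mem_Lev {l : ℕ} {u : U} : u ∈ Lev he l ↔ e u ∈ P p d l := Iff.rfl

theorem lev_comm {l m : ℕ} {x y : U} (hx : x ∈ Lev he l) (hy : y ∈ Lev he m) :
    x * y * x⁻¹ * y⁻¹ ∈ Lev he (l + m + 1) := by
  set c := x * y * x⁻¹ * y⁻¹ with hc
  have h1 : c * (y * x) = x * y := by
    rw [hc]; group
  have h2 := he c (y * x)
  rw [h1, he x y, he y x] at h2
  rw [mem_Lev]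
  apply step_left B (z := e y + e x + (p : ℤ_[p]) • B (e y) (e x))
  have h3 : e c + (p : ℤ_[p]) • B (e c) (e y + e x + (p : ℤ_[p]) • B (e y) (e x)) =
      (p : ℤ_[p]) • (B (e x) (e y) - B (e y) (e x)) := by
    rw [smul_sub]
    linear_combination (exp := 1) -h2
  rw [h3]
  exact p_smul_P ((P p d _).sub_mem (B_both B hx hy) (by rw [add_comm l m]; exact B_both B hy hx))

theorem lev_anti : Antitone (Lev he) := fun _ _ h _ hx => P_anti h hx

theorem lev_zero : Lev he 0 = ⊤ := eq_top_iff.2 fun x _ => P_zero (e x)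

theorem lev_normal (l : ℕ) : (Lev he l).Normal where
  conj_mem := by
    intro y hy x
    have h1 : x * y * x⁻¹ = x * y * x⁻¹ * y⁻¹ * y := by group
    rw [h1]
    refine (Lev he l).mul_mem ?_ hy
    exact lev_anti he (by omega) (lev_comm he (l := 0) (m := l) (by rw [lev_zero]; trivial) hy)

/-- elements with close coordinates -/
theorem inv_mul_mem {k : ℕ} {u v : U} (h : e v - e u ∈ P p d k) : u⁻¹ * v ∈ Lev he k := by
  have h1 := he u (u⁻¹ * v)
  rw [mul_inv_cancel_left] at h1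
  rw [mem_Lev]
  apply step_right B (z := e u)
  have : e (u⁻¹ * v) + (p : ℤ_[p]) • B (e u) (e (u⁻¹ * v)) = e v - e u := by
    rw [h1]; abel
  rw [this]; exact h

theorem sub_mem_of_inv_mul {k : ℕ} {u v : U} (h : u⁻¹ * v ∈ Lev he k) : e v - e u ∈ P p d k := by
  have h1 := he u (u⁻¹ * v)
  rw [mul_inv_cancel_left] at h1
  have : e v - e u = e (u⁻¹ * v) + (p : ℤ_[p]) • B (e u) (e (u⁻¹ * v)) := by
    rw [h1]; abel
  rw [this]
  exact (P p d k).add_mem h ((P p d k).smul_mem _ (B_right B h _))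

theorem e_pow {l : ℕ} {x : U} (hx : x ∈ Lev he l) (n : ℕ) :
    e (x ^ n) - ((n : ℤ_[p]) • e x + ((n.choose 2 : ℕ) : ℤ_[p]) • (p : ℤ_[p]) • B (e x) (e x)) ∈
      P p d (3 * l + 2) := by
  induction n with
  | zero => simp [e_one he]
  | succ n ih =>
    set a := e x with ha
    set r := e (x ^ n) - ((n : ℤ_[p]) • a + ((n.choose 2 : ℕ) : ℤ_[p]) • (p : ℤ_[p]) • B a a)
      with hr
    have h0 : e (x ^ n) = (n : ℤ_[p]) • a + ((n.choose 2 : ℕ) : ℤ_[p]) • (p : ℤ_[p]) • B a a + r := by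
      rw [hr]; abel
    have h1 : e (x ^ (n + 1)) = e (x ^ n) + a + (p : ℤ_[p]) • B (e (x ^ n)) a := by
      rw [pow_succ, he]
    have h2 : (((n + 1).choose 2 : ℕ) : ℤ_[p]) = (n.choose 2 : ℕ) + (n : ℤ_[p]) := by
      rw [Nat.choose_succ_succ' n 1, Nat.choose_one_right]
      push_cast; ring
    have h3 : e (x ^ (n + 1)) - (((n + 1 : ℕ) : ℤ_[p]) • a +
        (((n + 1).choose 2 : ℕ) : ℤ_[p]) • (p : ℤ_[p]) • B a a) =
        r + (p : ℤ_[p]) • B r a + ((n.choose 2 : ℕ) : ℤ_[p]) • (p : ℤ_[p]) ^ 2 • B (B a a) a := by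
      rw [h1, h0, h2]
      simp only [map_add, map_smul, LinearMap.add_apply, LinearMap.smul_apply]
      push_cast
      module
    rw [h3]
    refine (P p d _).add_mem ((P p d _).add_mem ih ((P p d _).smul_mem _ (B_left B ih _)))
      ((P p d _).smul_mem _ ?_)
    have h4 := smul_P 2 (B_both B (B_both B hx hx) hx)
    convert h4 using 2
    ring

theorem e_pow_p (hp : p ≠ 2) {l : ℕ} {x : U} (hx : x ∈ Lev he l) :
    e (x ^ p) - (p : ℤ_[p]) • e x ∈ P p d (l + 2) := by
  have h1 := P_anti (show l + 2 ≤ 3 * l + 2 by omega) (e_pow he hx p)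
  have hodd : ∃ k, p.choose 2 = p * k := by
    have := (Fact.out : p.Prime).dvd_choose_self (k := 2) (by norm_num)
      (lt_of_le_of_ne (Fact.out : p.Prime).two_le (Ne.symm hp))
    exact this
  obtain ⟨k, hk⟩ := hodd
  have h2 : ((p.choose 2 : ℕ) : ℤ_[p]) • (p : ℤ_[p]) • B (e x) (e x) ∈ P p d (l + 2) := by
    rw [hk]
    push_cast
    have h3 := (P p d (2 + l)).smul_mem (k : ℤ_[p]) (smul_P 2 (B_left B hx (e x)))
    have h4 : ((p : ℤ_[p]) * (k : ℤ_[p])) • (p : ℤ_[p]) • B (e x) (e x) =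
        (k : ℤ_[p]) • (p : ℤ_[p]) ^ 2 • B (e x) (e x) := by
      module
    rw [h4, add_comm l 2]; exact h3
  have h5 := (P p d (l + 2)).add_mem h1 h2
  convert h5 using 1
  abel

theorem lev_pow (hp : p ≠ 2) {l : ℕ} {x : U} (hx : x ∈ Lev he l) : x ^ p ∈ Lev he (l + 1) := by
  have h1 := P_anti (show l + 1 ≤ l + 2 by omega) (e_pow_p he hp hx)
  have h2 := (P p d (l + 1)).add_mem h1 (p_smul_P hx)
  rw [sub_add_cancel] at h2
  exact h2

/-- `p^j`-th powers, at the first order -/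
theorem e_pow_pow (hp : p ≠ 2) (x : U) (j : ℕ) :
    e (x ^ p ^ j) - (p : ℤ_[p]) ^ j • e x ∈ P p d (j + 1) := by
  induction j with
  | zero => simp
  | succ j ih =>
    have hx : x ^ p ^ j ∈ Lev he j := by
      rw [mem_Lev]
      have h2 := (P p d j).add_mem (P_anti (Nat.le_succ j) ih)
        (show (p : ℤ_[p]) ^ j • e x ∈ P p d j from ⟨e x, rfl⟩)
      rwa [sub_add_cancel] at h2
    have h1 := e_pow_p he hp hx
    rw [← pow_mul, ← pow_succ] at h1
    have h2 := (P p d (j + 2)).add_mem h1 (p_smul_P ih)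
    convert h2 using 1
    rw [smul_sub, ← mul_smul, ← pow_succ']
    abel

theorem pow_pow_mem (hp : p ≠ 2) (x : U) (j : ℕ) : x ^ p ^ j ∈ Lev he j := by
  rw [mem_Lev]
  have h2 := (P p d j).add_mem (P_anti (Nat.le_succ j) (e_pow_pow he hp x j))
    (show (p : ℤ_[p]) ^ j • e x ∈ P p d j from ⟨e x, rfl⟩)
  rwa [sub_add_cancel] at h2

theorem e_mul_sub {j : ℕ} {x y : U} (hx : x ∈ Lev he j) :
    e (x * y) - (e x + e y) ∈ P p d (j + 1) := by
  rw [he]
  have : e x + e y + (p : ℤ_[p]) • B (e x) (e y) - (e x + e y) = (p : ℤ_[p]) • B (e x) (e y) := by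
    abel
  rw [this]
  exact p_smul_P (B_left B hx _)

theorem e_pow_sub {j : ℕ} {x : U} (hx : x ∈ Lev he j) (n : ℕ) :
    e (x ^ n) - (n : ℤ_[p]) • e x ∈ P p d (j + 1) := by
  induction n with
  | zero => simp [e_one he]
  | succ n ih =>
    have h1 := e_mul_sub he (y := x) ((Lev he j).pow_mem hx n)
    rw [← pow_succ] at h1
    have h2 := (P p d (j + 1)).add_mem h1 ih
    convert h2 using 1
    push_cast
    module

/-- products, at the first order -/
theorem e_prod_sub {ι : Type*} {j : ℕ} (l : List ι) (f : ι → U) (hf : ∀ i, f i ∈ Lev he j) :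
    (l.map f).prod ∈ Lev he j ∧
      e (l.map f).prod - (l.map fun i => e (f i)).sum ∈ P p d (j + 1) := by
  induction l with
  | nil => exact ⟨one_mem _, by simp [e_one he]⟩
  | cons a l ih =>
    simp only [List.map_cons, List.prod_cons, List.sum_cons]
    refine ⟨(Lev he j).mul_mem (hf a) ih.1, ?_⟩
    have h1 := e_mul_sub he (y := (l.map f).prod) (hf a)
    have h2 := (P p d (j + 1)).add_mem h1 ih.2
    convert h2 using 1
    abel

/-- the residue of an element of `Lev j` -/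
noncomputable def res (j : ℕ) (x : Lev he j) : Fin d → ℤ_[p] := (show ∃ w : Fin d → ℤ_[p],
    e (x : U) = (p : ℤ_[p]) ^ j • w from x.2).choose

theorem res_spec (j : ℕ) (x : Lev he j) : e (x : U) = (p : ℤ_[p]) ^ j • res he j x :=
  (show ∃ w : Fin d → ℤ_[p], e (x : U) = (p : ℤ_[p]) ^ j • w from x.2).choose_spec

omit he in
theorem pow_smul_inj {j : ℕ} {v w : Fin d → ℤ_[p]}
    (h : (p : ℤ_[p]) ^ j • v = (p : ℤ_[p]) ^ j • w) : v = w :=
  smul_right_injective _ (pow_ne_zero j p_ne_zero) h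

/-- the residue homomorphism -/
noncomputable def resHom (j : ℕ) : Lev he j →* Multiplicative (Fin d → ZMod p) where
  toFun x := Multiplicative.ofAdd fun i => PadicInt.toZMod (res he j x i)
  map_one' := by
    have h : res he j 1 = 0 := by
      apply pow_smul_inj (j := j)
      rw [← res_spec, smul_zero]
      exact e_one he
    apply Multiplicative.toAdd.injective
    funext i
    simp [h]
  map_mul' x y := by
    have h : res he j (x * y) = res he j x + res he j y +
        (p : ℤ_[p]) ^ (j + 1) • B (res he j x) (res he j y) := by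
      apply pow_smul_inj (j := j)
      rw [← res_spec]
      have h1 := he x y
      rw [res_spec he j x, res_spec he j y] at h1
      rw [Subgroup.coe_mul, h1]
      simp only [map_smul, LinearMap.smul_apply]
      module
    apply Multiplicative.toAdd.injective
    funext i
    simp [h, pow_succ]

theorem resHom_ker (j : ℕ) : (resHom he j).ker = (Lev he (j + 1)).subgroupOf (Lev he j) := by
  ext x
  rw [MonoidHom.mem_ker, Subgroup.mem_subgroupOf, mem_Lev]
  constructor
  · intro h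
    have h1 : ∀ i, PadicInt.toZMod (res he j x i) = 0 := fun i =>
      congrFun (Multiplicative.ofAdd.injective h) i
    have h2 : ∀ i, ∃ c, res he j x i = p * c := by
      intro i
      have h3 : res he j x i ∈ RingHom.ker (PadicInt.toZMod (p := p)) := h1 i
      rw [PadicInt.ker_toZMod, PadicInt.maximalIdeal_eq_span_p, Ideal.mem_span_singleton] at h3
      exact h3
    choose c hc using h2
    refine ⟨c, ?_⟩
    rw [res_spec he j x, pow_succ, mul_smul]
    congr 1
    funext i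
    exact hc i
  · rintro ⟨w, hw⟩
    rw [res_spec he j x, pow_succ, mul_smul] at hw
    have h1 := pow_smul_inj hw
    apply Multiplicative.toAdd.injective
    funext i
    change PadicInt.toZMod (res he j x i) = 0
    rw [h1]
    simp

theorem resHom_surjective (j : ℕ) : Function.Surjective (resHom he j) := by
  intro t
  choose c hc using fun i => ZMod.ringHom_surjective (PadicInt.toZMod (p := p)) (t.toAdd i)
  refine ⟨⟨e.symm ((p : ℤ_[p]) ^ j • c), ?_⟩, ?_⟩
  · rw [mem_Lev]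
    exact ⟨c, by simp⟩
  · set x : Lev he j := ⟨e.symm ((p : ℤ_[p]) ^ j • c), by rw [mem_Lev]; exact ⟨c, by simp⟩⟩
      with hx
    have h1 : res he j x = c := by
      apply pow_smul_inj (j := j)
      rw [← res_spec, hx]
      simp
    apply Multiplicative.toAdd.injective
    funext i
    change PadicInt.toZMod (res he j x i) = t.toAdd i
    rw [h1, hc]

theorem relIndex_lev (j : ℕ) : (Lev he (j + 1)).relIndex (Lev he j) = p ^ d := by
  rw [Subgroup.relIndex, ← resHom_ker, Subgroup.index_ker,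
    MonoidHom.range_eq_top.2 (resHom_surjective he j)]
  simp

/-- generation of the levels -/
theorem gen_lev (hp : p ≠ 2) (j : ℕ) : Lev he j ≤
    Subgroup.closure {y | ∃ i : Fin d, y = (e.symm (Pi.single i 1)) ^ p ^ j} ⊔ Lev he (j + 1) := by
  classical
  intro x hx
  obtain ⟨v, hv⟩ := hx
  -- natural number representatives
  have h1 : ∀ i, ∃ a : ℕ, ∃ c : ℤ_[p], v i = a + p * c := by
    intro i
    refine ⟨(PadicInt.toZMod (v i)).val, ?_⟩
    have h2 : v i - ((PadicInt.toZMod (v i)).val : ℤ_[p]) ∈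
        RingHom.ker (PadicInt.toZMod (p := p)) := by
      rw [RingHom.mem_ker, map_sub, map_natCast, ZMod.natCast_zmod_val, sub_self]
    rw [PadicInt.ker_toZMod, PadicInt.maximalIdeal_eq_span_p, Ideal.mem_span_singleton] at h2
    obtain ⟨c, hc⟩ := h2
    exact ⟨c, by rw [← hc]; ring⟩
  choose a c hac using h1
  let f : Fin d → U := fun i => ((e.symm (Pi.single i 1)) ^ p ^ j) ^ a i
  have hf : ∀ i, f i ∈ Lev he j := fun i =>
    (Lev he j).pow_mem (pow_pow_mem he hp _ j) _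
  have h3 := e_prod_sub he (List.finRange d) f hf
  have h4 : ∀ i, e (f i) - (p : ℤ_[p]) ^ j • (a i : ℤ_[p]) • (Pi.single i 1 : Fin d → ℤ_[p]) ∈
      P p d (j + 1) := by
    intro i
    have h5 := e_pow_sub he (pow_pow_mem he hp (e.symm (Pi.single i 1)) j) (a i)
    have h6 := e_pow_pow he hp (e.symm (Pi.single i 1)) j
    have h7 := (P p d (j + 1)).add_mem h5 ((P p d (j + 1)).smul_mem (a i : ℤ_[p]) h6)
    convert h7 using 1
    simp only [Homeomorph.apply_symm_apply, f]
    module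
  have h8 : ((List.finRange d).map fun i => e (f i)).sum - (p : ℤ_[p]) ^ j • v ∈
      P p d (j + 1) := by
    have h9 : ((List.finRange d).map fun i => e (f i)).sum = ∑ i, e (f i) := by
      rw [← List.sum_ofFn, List.ofFn_eq_map]
    have h10 : v = ∑ i, (a i : ℤ_[p]) • (Pi.single i 1 : Fin d → ℤ_[p]) +
        (p : ℤ_[p]) • c := by
      funext k
      simp [hac, Finset.sum_apply, Pi.single_apply]
    rw [h9]
    have h11 : ∑ i, e (f i) - (p : ℤ_[p]) ^ j • v = ∑ i, (e (f i) -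
        (p : ℤ_[p]) ^ j • (a i : ℤ_[p]) • (Pi.single i 1 : Fin d → ℤ_[p])) -
        (p : ℤ_[p]) ^ (j + 1) • c := by
      rw [Finset.sum_sub_distrib, ← Finset.smul_sum]
      conv_lhs => rw [h10]
      module
    rw [h11]
    exact (P p d (j + 1)).sub_mem ((P p d (j + 1)).sum_mem fun i _ => h4 i)
      (mem_P.2 ⟨c, rfl⟩)
  set y := ((List.finRange d).map f).prod with hy
  have h12 : e x - e y ∈ P p d (j + 1) := by
    have h13 := (P p d (j + 1)).add_mem h3.2 h8
    have h14 := (P p d (j + 1)).neg_mem h13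
    convert h14 using 1
    rw [hv]
    abel
  have h15 : y⁻¹ * x ∈ Lev he (j + 1) := inv_mul_mem he h12
  have h16 : y ∈ Subgroup.closure {y | ∃ i : Fin d, y = (e.symm (Pi.single i 1)) ^ p ^ j} := by
    apply Subgroup.list_prod_mem
    intro z hz
    obtain ⟨i, _, rfl⟩ := List.mem_map.1 hz
    have h18 : (e.symm (Pi.single i 1)) ^ p ^ j ∈
        Subgroup.closure {y | ∃ i : Fin d, y = (e.symm (Pi.single i 1)) ^ p ^ j} :=
      Subgroup.subset_closure ⟨i, rfl⟩
    exact Subgroup.pow_mem _ h18 _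
  have h17 : x = y * (y⁻¹ * x) := by group
  rw [h17]
  exact Subgroup.mul_mem_sup h16 h15

/-! ### Topology -/

omit he in
theorem mem_P_iff_norm {l : ℕ} {v : Fin d → ℤ_[p]} :
    v ∈ P p d l ↔ ∀ i, ‖v i‖ ≤ (p : ℝ) ^ (-(l : ℤ)) := by
  constructor
  · rintro ⟨w, rfl⟩ i
    rw [PadicInt.norm_le_pow_iff_mem_span_pow, Ideal.mem_span_singleton]
    exact ⟨w i, rfl⟩
  · intro h
    have h1 : ∀ i, ∃ c, v i = (p : ℤ_[p]) ^ l * c := by
      intro i
      have h2 := (PadicInt.norm_le_pow_iff_mem_span_pow _ _).1 (h i)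
      rw [Ideal.mem_span_singleton] at h2
      exact h2
    choose c hc using h1
    exact ⟨c, funext hc⟩

omit he in
theorem isOpen_P (l : ℕ) : IsOpen (P p d l : Set (Fin d → ℤ_[p])) := by
  have h1 : (P p d l : Set (Fin d → ℤ_[p])) =
      ⋂ i, {v | ‖v i‖ < (p : ℝ) ^ (-(l : ℤ) + 1)} := by
    ext v
    rw [SetLike.mem_coe, mem_P_iff_norm, Set.mem_iInter]
    exact forall_congr' fun i => PadicInt.norm_le_pow_iff_norm_lt_pow_add_one _ _
  rw [h1]
  exact isOpen_iInter_of_finite fun i => isOpen_lt (by fun_prop) continuous_const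

theorem isOpen_lev (l : ℕ) : IsOpen (Lev he l : Set U) :=
  (isOpen_P l).preimage e.continuous

theorem exists_lev_subset {V : Set U} (hV : V ∈ nhds (1 : U)) :
    ∃ l, (Lev he l : Set U) ⊆ V := by
  have h1 : e '' V ∈ nhds (0 : Fin d → ℤ_[p]) := by
    have := e.isOpenMap.image_mem_nhds hV
    rwa [e_one he] at this
  obtain ⟨ε, hε, hball⟩ := Metric.mem_nhds_iff.1 h1
  have hp1 : 1 < (p : ℝ) := by exact_mod_cast (Fact.out : p.Prime).one_lt
  obtain ⟨l, hl⟩ := exists_pow_lt_of_lt_one hε (inv_lt_one_of_one_lt₀ hp1)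
  refine ⟨l, fun x hx => ?_⟩
  have h2 : e x ∈ Metric.ball (0 : Fin d → ℤ_[p]) ε := by
    rw [mem_ball_zero_iff]
    refine lt_of_le_of_lt ?_ hl
    rw [pi_norm_le_iff_of_nonneg (by positivity)]
    intro i
    have := mem_P_iff_norm.1 hx i
    simpa [zpow_neg, inv_pow] using this
  obtain ⟨y, hy, hyx⟩ := hball h2
  exact e.injective hyx ▸ hy

end Unif

/-- The weighted filtration of a uniform group. -/
theorem exists_npData {p d : ℕ} [Fact p.Prime] (hp : p ≠ 2) {U : Type*} [Group U]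
    [TopologicalSpace U] (h : IsUnif p d U) : ∃ D : NpData p d U,
      (∀ M, IsOpen (D.P M : Set U)) ∧ ∀ V ∈ nhds (1 : U), ∃ M, (D.P M : Set U) ⊆ V := by
  obtain ⟨B, e, he⟩ := h
  have hp1 : 1 < p := (Fact.out : p.Prime).one_lt
  have hp3 : 3 ≤ p := by
    have := (Fact.out : p.Prime).two_le
    omega
  have hsucc : ∀ m, 1 ≤ m → (¬ ∃ j, p ^ j = m) → Nat.clog p (m + 1) = Nat.clog p m := by
    intro m hm hne
    apply le_antisymm
    · apply (Nat.clog_le_iff_le_pow hp1).2
      have h1 : m ≤ p ^ Nat.clog p m := Nat.le_pow_clog hp1 m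
      have h2 : m ≠ p ^ Nat.clog p m := fun h => hne ⟨_, h.symm⟩
      omega
    · exact Nat.clog_mono_right _ (Nat.le_succ m)
  have hsuccp : ∀ j, Nat.clog p (p ^ j + 1) = j + 1 := by
    intro j
    apply le_antisymm
    · apply (Nat.clog_le_iff_le_pow hp1).2
      rw [pow_succ]
      have : 1 ≤ p ^ j := Nat.one_le_pow _ _ (by omega)
      nlinarith
    · apply Nat.succ_le_of_lt
      rw [Nat.lt_clog_iff_pow_lt hp1]
      omega
  refine ⟨{
    P := fun m => Unif.Lev he (Nat.clog p m)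
    P_one := by simp [Unif.lev_zero]
    anti := fun a b hab => Unif.lev_anti he (Nat.clog_mono_right p hab)
    comm' := ?_
    g := fun i => e.symm (Pi.single i 1)
    wt := fun _ => 1
    wt_pos := fun _ => one_pos
    g_mem := fun i j => ?_
    gen := fun m hm => ?_
    index := fun m hm => ?_ }, ?_, ?_⟩
  · intro a b ha hb
    rw [Subgroup.commutator_le]
    intro x hx y hy
    rw [commutatorElement_def]
    refine Unif.lev_anti he ?_ (Unif.lev_comm he hx hy)
    apply (Nat.clog_le_iff_le_pow hp1).2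
    have h1 : a ≤ p ^ Nat.clog p a := Nat.le_pow_clog hp1 a
    have h2 : b ≤ p ^ Nat.clog p b := Nat.le_pow_clog hp1 b
    rw [pow_succ, pow_add]
    set A := p ^ Nat.clog p a
    set C := p ^ Nat.clog p b
    have hA : 1 ≤ A := ha.trans h1
    have hC : 1 ≤ C := hb.trans h2
    nlinarith [Nat.mul_le_mul hA hC, Nat.mul_le_mul_left (A * C) hp3]
  · have := Unif.pow_pow_mem he hp (e.symm (Pi.single i 1)) j
    rw [mul_one, Nat.clog_pow p j hp1]
    exact this
  · by_cases hex : ∃ j, p ^ j = m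
    · obtain ⟨j, rfl⟩ := hex
      rw [hsuccp, Nat.clog_pow p j hp1]
      refine (Unif.gen_lev he hp j).trans (sup_le_sup_right (Subgroup.closure_mono ?_) _)
      rintro y ⟨i, rfl⟩
      exact ⟨i, j, by ring, rfl⟩
    · rw [hsucc m hm hex]
      exact le_sup_right
  · by_cases hex : ∃ j, p ^ j = m
    · obtain ⟨j, rfl⟩ := hex
      have h1 : {i : Fin d | ∃ j', p ^ j' * 1 = p ^ j} = Set.univ :=
        Set.eq_univ_of_forall fun i => ⟨j, mul_one _⟩
      rw [hsuccp, Nat.clog_pow p j hp1, Unif.relIndex_lev, h1, Set.ncard_univ, Nat.card_fin]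
    · have h1 : {i : Fin d | ∃ j', p ^ j' * 1 = m} = ∅ := by
        apply Set.eq_empty_of_forall_notMem
        rintro i ⟨j, hj⟩
        exact hex ⟨j, by rw [← hj, mul_one]⟩
      rw [hsucc m hm hex, h1, Set.ncard_empty, pow_zero, Subgroup.relIndex_self]
  · intro M
    exact Unif.isOpen_lev he _
  · intro V hV
    obtain ⟨l, hl⟩ := Unif.exists_lev_subset he hV
    refine ⟨p ^ l, ?_⟩
    change (Unif.Lev he (Nat.clog p (p ^ l)) : Set U) ⊆ V
    rw [Nat.clog_pow p l hp1]
    exact hl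

end Vale.Agent.P251.C
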