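import Vale.Agent.P251.C.C6F
import Vale.Agent.P251.C.UnifLevels

/-!
# P251, part C6: the finite cofree coresolution of the trivial module of a uniform group
-/

namespace Vale.Agent.P251.C

open NpData

universe u

/-- A uniform pro-`p` group `U` (`p` odd) of dimension `d` has a resolution of `𝔽_p` of length `d`
by modules of locally constant functions on finite disjoint unions of copies of `U`. -/
theorem exists_resData {p d : ℕ} [Fact p.Prime] (hp : p ≠ 2) {U : Type u} [Group U]
    [TopologicalSpace U] [IsTopologicalGroup U] [CompactSpace U] (h : I.IsUnif p d U) :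
    ∃ ρ : ResData (ZMod p) (KX d U), Equi ρ U ∧ ∀ x, ρ.deg x ≤ d := by
  obtain ⟨D, h1, h2⟩ := exists_npData hp h
  have hD : D.IsTop := ⟨h1, h2⟩
  obtain ⟨ρ, hρ, hdeg⟩ := hD.exists_resData
  refine ⟨ρ, hρ, fun x => ?_⟩
  rw [hdeg]
  have := Finset.card_le_univ x.1
  rwa [Fintype.card_fin] at this

end Vale.Agent.P251.C
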