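import Vale.Agent.P251.C.C6A

/-!
# P251, part C6 (B): counting

The augmentation ideal of the group algebra of a finite `p`-group is nilpotent; the ordered
monomials are a basis of the group algebra of `U ⧸ P M`; functionals with prescribed values on
the monomials.
-/

namespace Vale.Agent.P251.C

open MonoidAlgebra
open scoped commutatorElement

universe u

/-- In a finite module over the group algebra of a finite `p`-group, long products of elements
`h - 1` act as zero. -/
theorem exists_prod_smul_eq_zero (p : ℕ) [hp : Fact p.Prime] (G : Type u) [Group G]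
    (hG : IsPGroup p G) :
    ∀ (n : ℕ) (M : Type u) [AddCommGroup M] [Module (MonoidAlgebra (ZMod p) G) M] [Finite M],
      Nat.card M ≤ n → ∃ r, ∀ l : List G, r ≤ l.length →
        ∀ m : M, ((l.map fun h => of (ZMod p) G h - 1).prod) • m = 0 := by
  intro n
  induction n with
  | zero =>
    intro M _ _ _ h
    exact absurd (Nat.card_pos (α := M)) (by omega)
  | succ n ih =>
    intro M _ _ _ h
    classical
    by_cases hM : Nontrivial M
    · -- the fixed vectors
      let F : Submodule (MonoidAlgebra (ZMod p) G) M :=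
        { carrier := {m | ∀ g : G, of (ZMod p) G g • m = m}
          add_mem' := by
            intro a b ha hb g
            rw [smul_add, ha g, hb g]
          zero_mem' := by intro g; simp
          smul_mem' := by
            intro c x hx
            have key : ∀ c : MonoidAlgebra (ZMod p) G, ∃ r : ZMod p,
                c • x = (algebraMap (ZMod p) (MonoidAlgebra (ZMod p) G) r) • x := by
              intro c
              induction c using MonoidAlgebra.induction_on with
              | of h => exact ⟨1, by rw [map_one, one_smul]; exact hx h⟩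
              | add a b ha hb =>
                obtain ⟨r, hr⟩ := ha
                obtain ⟨s, hs⟩ := hb
                exact ⟨r + s, by rw [add_smul, hr, hs, map_add, add_smul]⟩
              | smul r a ha =>
                obtain ⟨s, hs⟩ := ha
                refine ⟨r * s, ?_⟩
                rw [Algebra.smul_def, mul_smul, hs, map_mul, mul_smul]
            obtain ⟨r, hr⟩ := key c
            intro g
            rw [hr, ← mul_smul, ← Algebra.commutes, mul_smul, hx g] }
      let _ : MulAction G M := MulAction.compHom M (of (ZMod p) G)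
      have hsm : ∀ (g : G) (m : M), g • m = of (ZMod p) G g • m := fun _ _ => rfl
      have h0 : (0 : M) ∈ MulAction.fixedPoints G M := by
        intro g; rw [hsm, smul_zero]
      have hdvd : p ∣ Nat.card M := by
        obtain ⟨m, hm⟩ := exists_ne (0 : M)
        have h1 : p • m = 0 := by
          have : ((p : MonoidAlgebra (ZMod p) G)) • m = 0 := by
            have h2 : ((p : MonoidAlgebra (ZMod p) G)) = 0 := by
              rw [← map_natCast (algebraMap (ZMod p) (MonoidAlgebra (ZMod p) G)) p]; simp
            rw [h2, zero_smul]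
          rwa [Nat.cast_smul_eq_nsmul] at this
        have h2 : addOrderOf m = p := addOrderOf_eq_prime h1 hm
        exact h2 ▸ addOrderOf_dvd_natCard m
      obtain ⟨b, hb, hb0⟩ := hG.exists_fixed_point_of_prime_dvd_card_of_fixed_point M hdvd h0
      have hbF : b ∈ F := fun g => hb g
      have hfin : Finite (M ⧸ F) := Finite.of_surjective _ (Submodule.Quotient.mk_surjective F)
      have hcard : Nat.card (M ⧸ F) < Nat.card M := by
        have h1 : Nat.card M = Nat.card F * Nat.card (M ⧸ F) :=
          Submodule.card_eq_card_quotient_mul_card F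
        have h2 : 1 < Nat.card F := by
          rw [Finite.one_lt_card_iff_nontrivial]
          exact ⟨⟨⟨0, F.zero_mem⟩, ⟨b, hbF⟩, fun h => hb0 (congrArg Subtype.val h)⟩⟩
        have h3 : 0 < Nat.card (M ⧸ F) := Nat.card_pos
        rw [h1]
        nlinarith
      obtain ⟨r, hr⟩ := ih (M ⧸ F) (by omega)
      refine ⟨r + 1, ?_⟩
      intro l hl m
      match l, hl with
      | h :: l, hl =>
        have h1 := hr l (by simpa using hl) (Submodule.Quotient.mk m)
        rw [← Submodule.Quotient.mk_smul, Submodule.Quotient.mk_eq_zero] at h1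
        rw [List.map_cons, List.prod_cons, mul_smul, sub_smul, one_smul, h1 h, sub_self]
    · rw [not_nontrivial_iff_subsingleton] at hM
      exact ⟨0, fun l _ m => Subsingleton.elim _ _⟩

/-- The functional on the group algebra given by a function: `of x ↦ f x⁻¹`. -/
noncomputable def pair {k G : Type*} [CommRing k] [Group G] (f : G → k) :
    MonoidAlgebra k G →ₗ[k] k :=
  (Finsupp.lsum k fun g => LinearMap.toSpanSingleton k k (f g⁻¹)) ∘ₗ
    (MonoidAlgebra.coeffLinearEquiv k).toLinearMap

@[simp]
theorem pair_of {k G : Type*} [CommRing k] [Group G] (f : G → k) (g : G) :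
    pair f (of k G g) = f g⁻¹ := by
  simp [pair, MonoidAlgebra.of]

theorem linearMap_ext' {k G M : Type*} [CommRing k] [Group G] [AddCommGroup M] [Module k M]
    {f g : MonoidAlgebra k G →ₗ[k] M} (h : ∀ x, f (of k G x) = g (of k G x)) : f = g := by
  ext a
  simpa using h a

namespace NpData

variable {p d : ℕ} {U : Type u} [Group U] (D : NpData p d U)

section prime

variable [hp : Fact p.Prime]

theorem exists_le_pow_mul (i : Fin d) (M : ℕ) : ∃ j, M ≤ p ^ j * D.wt i := by
  refine ⟨M, ?_⟩
  have h1 : M < p ^ M := Nat.lt_pow_self hp.out.one_lt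
  have h2 := D.wt_pos i
  nlinarith

open Classical in
/-- The least `j` with `M ≤ p ^ j * wt i`. -/
noncomputable def J (i : Fin d) (M : ℕ) : ℕ := Nat.find (D.exists_le_pow_mul i M)

theorem J_spec (i : Fin d) (M : ℕ) : M ≤ p ^ D.J i M * D.wt i := by
  classical
  exact Nat.find_spec (D.exists_le_pow_mul i M)

theorem J_min (i : Fin d) (M : ℕ) {j : ℕ} (h : M ≤ p ^ j * D.wt i) : D.J i M ≤ j := by
  classical
  exact Nat.find_min' (D.exists_le_pow_mul i M) h

theorem J_unique (i : Fin d) (M : ℕ) {j : ℕ} (h : M ≤ p ^ j * D.wt i)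
    (h' : ∀ k < j, p ^ k * D.wt i < M) : D.J i M = j := by
  apply le_antisymm (D.J_min i M h)
  by_contra hlt
  rw [not_le] at hlt
  exact absurd (D.J_spec i M) (not_le.mpr (h' _ hlt))

theorem lt_of_lt_J (i : Fin d) (M : ℕ) {k : ℕ} (h : k < D.J i M) : p ^ k * D.wt i < M := by
  by_contra hlt
  exact absurd (D.J_min i M (not_lt.mp hlt)) (not_le.mpr h)

theorem pow_wt_lt (i : Fin d) {j k : ℕ} (h : j < k) : p ^ j * D.wt i < p ^ k * D.wt i :=
  Nat.mul_lt_mul_of_pos_right (Nat.pow_lt_pow_right hp.out.one_lt h) (D.wt_pos i)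

open Classical in
theorem J_succ (i : Fin d) (M : ℕ) :
    p ^ D.J i (M + 1) = p ^ D.J i M * (if ∃ j, p ^ j * D.wt i = M then p else 1) := by
  by_cases h : ∃ j, p ^ j * D.wt i = M
  · rw [if_pos h, ← pow_succ]
    congr 1
    obtain ⟨j, hj⟩ := h
    have h1 : D.J i M = j := D.J_unique i M hj.ge fun k hk => hj ▸ D.pow_wt_lt i hk
    rw [h1]
    apply D.J_unique
    · have := D.pow_wt_lt i (Nat.lt_succ_self j)
      rw [Nat.succ_eq_add_one] at this
      omega
    · intro k hk
      have : p ^ k * D.wt i ≤ p ^ j * D.wt i :=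
        Nat.mul_le_mul_right _ (Nat.pow_le_pow_right hp.out.pos (by omega))
      omega
  · rw [if_neg h, mul_one]
    congr 1
    apply D.J_unique
    · have h1 := D.J_spec i M
      have h2 : p ^ D.J i M * D.wt i ≠ M := fun h' => h ⟨_, h'⟩
      omega
    · intro k hk
      have := D.lt_of_lt_J i M hk
      omega

theorem J_one (i : Fin d) : D.J i 1 = 0 :=
  D.J_unique i 1 (by have := D.wt_pos i; simp; omega) (by simp)

theorem index_P (M : ℕ) (hM : 1 ≤ M) : (D.P M).index = ∏ i, p ^ D.J i M := by
  classical
  induction M, hM using Nat.le_induction with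
  | base => simp [D.P_one, D.J_one]
  | succ M hM ih =>
    have h1 := Subgroup.relIndex_mul_index (D.anti (Nat.le_succ M))
    rw [Nat.succ_eq_add_one] at h1
    rw [← h1, ih, D.index M hM, Finset.prod_congr rfl fun i _ => D.J_succ i M,
      Finset.prod_mul_distrib, mul_comm]
    congr 1
    rw [Finset.prod_ite, Finset.prod_const_one, mul_one, Finset.prod_const]
    congr 1
    rw [Set.ncard_eq_toFinset_card']
    congr 1
    ext i
    simp

instance finiteIndex (M : ℕ) : (D.P M).FiniteIndex := by
  constructor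
  rcases Nat.eq_zero_or_pos M with rfl | hM
  · simp [D.P_zero]
  · rw [D.index_P M hM]
    exact Finset.prod_ne_zero_iff.mpr fun i _ => pow_ne_zero _ hp.out.ne_zero

theorem charP_A : CharP (A p U) p :=
  charP_of_injective_algebraMap (algebraMap (ZMod p) (A p U)).injective p

theorem X_pow (i : Fin d) (j : ℕ) : (D.X i : A p U) ^ p ^ j = dl p (D.g i ^ p ^ j) := by
  have := charP_A (p := p) (U := U)
  unfold X dl
  rw [sub_pow_char_pow_of_commute _ _ (Commute.one_right _), one_pow, map_pow]

end prime

theorem mono_eq (α : Fin d → ℕ) :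
    (D.mono α : A p U) = ((List.finRange d).map fun i => D.X i ^ α i).prod := by
  unfold mono gword can
  rw [List.map_flatMap, List.flatMap_def, List.prod_flatten, List.map_map]
  congr 1
  apply List.map_congr_left
  intro i _
  simp

/-- The projection to the group algebra of `U ⧸ P M`. -/
noncomputable def q (M : ℕ) : A p U →ₐ[ZMod p] MonoidAlgebra (ZMod p) (U ⧸ D.P M) :=
  MonoidAlgebra.mapDomainAlgHom (ZMod p) (ZMod p) (QuotientGroup.mk' (D.P M))

theorem q_of (M : ℕ) (x : U) : D.q M (of (ZMod p) U x) = of (ZMod p) (U ⧸ D.P M) x := by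
  simp [q, MonoidAlgebra.of]

theorem q_dl (M : ℕ) {x : U} (hx : x ∈ D.P M) : D.q M (dl p x) = 0 := by
  unfold dl
  rw [map_sub, D.q_of, map_one, (QuotientGroup.eq_one_iff x).mpr hx, map_one, sub_self]

theorem q_mono [Fact p.Prime] (M : ℕ) {α : Fin d → ℕ} {i : Fin d} (h : p ^ D.J i M ≤ α i) :
    D.q M (D.mono α) = 0 := by
  rw [D.mono_eq, map_list_prod, List.map_map]
  apply List.prod_eq_zero
  rw [List.mem_map]
  refine ⟨i, List.mem_finRange i, ?_⟩
  have h1 : α i = p ^ D.J i M + (α i - p ^ D.J i M) := by omega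
  simp only [Function.comp]
  rw [h1, pow_add, map_mul, D.X_pow, D.q_dl M, zero_mul]
  exact D.anti (D.J_spec i M) (D.g_mem i _)

/-! ### the graded pieces are spanned by the monomials -/

/-- span of the words of weight `m` plus the next step of the filtration -/
noncomputable def S (m : ℕ) : Submodule (ZMod p) (A p U) :=
  Submodule.span (ZMod p) {a | ∃ l : List (Fin d), D.lwt l = m ∧ a = D.gword l} ⊔ D.I (m + 1)

theorem I_le_S (m : ℕ) : D.I (m + 1) ≤ D.S m := le_sup_right

theorem gword_mem_S (l : List (Fin d)) : (D.gword l : A p U) ∈ D.S (D.lwt l) :=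
  Submodule.mem_sup_left (Submodule.subset_span ⟨l, rfl, rfl⟩)

theorem S_le_I (m : ℕ) : D.S m ≤ (D.I m : Submodule (ZMod p) (A p U)) := by
  apply sup_le
  · rw [Submodule.span_le]
    rintro a ⟨l, rfl, rfl⟩
    exact D.gword_mem l
  · exact D.I_anti (Nat.le_succ m)

theorem S_mul {a b : A p U} {m n : ℕ} (ha : a ∈ D.S m) (hb : b ∈ D.S n) :
    a * b ∈ D.S (m + n) := by
  obtain ⟨a₁, ha₁, a₂, ha₂, rfl⟩ := Submodule.mem_sup.mp ha
  obtain ⟨b₁, hb₁, b₂, hb₂, rfl⟩ := Submodule.mem_sup.mp hb
  have h1 : a₁ * b₁ ∈ D.S (m + n) := by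
    clear ha hb
    induction ha₁ using Submodule.span_induction with
    | mem a ha =>
      obtain ⟨l, hl, rfl⟩ := ha
      induction hb₁ using Submodule.span_induction with
      | mem b hb =>
        obtain ⟨l', hl', rfl⟩ := hb
        apply Submodule.mem_sup_left
        apply Submodule.subset_span
        refine ⟨l ++ l', ?_, ?_⟩
        · simp only [lwt, List.map_append, List.sum_append] at hl hl' ⊢
          omega
        · simp [gword]
      | zero => simp
      | add x y _ _ hx hy => rw [mul_add]; exact Submodule.add_mem _ hx hy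
      | smul r x _ hx => rw [mul_smul_comm]; exact Submodule.smul_mem _ r hx
    | zero => simp
    | add x y _ _ hx hy => rw [add_mul]; exact Submodule.add_mem _ hx hy
    | smul r x _ hx => rw [smul_mul_assoc]; exact Submodule.smul_mem _ r hx
  have hb₁' : b₁ ∈ D.I n := D.S_le_I n (Submodule.mem_sup_left hb₁)
  have ha₁' : a₁ ∈ D.I m := D.S_le_I m (Submodule.mem_sup_left ha₁)
  have h2 : a₁ * b₂ ∈ D.S (m + n) := by
    apply D.I_le_S
    have := D.mul_mem ha₁' hb₂
    rwa [← add_assoc] at this
  have h3 : a₂ * b₁ ∈ D.S (m + n) := by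
    apply D.I_le_S
    have := D.mul_mem ha₂ hb₁'
    rwa [add_right_comm] at this
  have h4 : a₂ * b₂ ∈ D.S (m + n) := by
    apply D.I_le_S
    exact D.I_anti (by omega) (D.mul_mem ha₂ hb₂)
  have h5 : (a₁ + a₂) * (b₁ + b₂) = a₁ * b₁ + a₁ * b₂ + (a₂ * b₁ + a₂ * b₂) := by
    simp only [add_mul, mul_add]; abel
  rw [h5]
  exact add_mem (add_mem h1 h2) (add_mem h3 h4)

theorem one_mem_S : (1 : A p U) ∈ D.S 0 := by
  have := D.gword_mem_S (p := p) []
  simpa [gword, lwt] using this

theorem S_pow {a : A p U} {m : ℕ} (ha : a ∈ D.S m) (n : ℕ) : a ^ n ∈ D.S (n * m) := by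
  induction n with
  | zero => simpa using D.one_mem_S
  | succ n ih =>
    rw [pow_succ, add_mul, one_mul]
    exact D.S_mul ih ha

variable [hp : Fact p.Prime]

theorem dl_mem_S {x : U} {m : ℕ} (hx : x ∈ D.P m) : dl p x ∈ D.S m := by
  rcases Nat.eq_zero_or_pos m with rfl | hm
  · exact D.I_le_S 0 (D.dl_mem (by rw [zero_add, D.P_one]; exact Subgroup.mem_top x))
  -- the subgroup of the elements for which the claim holds
  let T : Subgroup U :=
    { carrier := {x | x ∈ D.P m ∧ dl p x ∈ D.S m}
      mul_mem' := by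
        rintro x y ⟨hx, hx'⟩ ⟨hy, hy'⟩
        refine ⟨(D.P m).mul_mem hx hy, ?_⟩
        have h1 : dl p (x * y) = dl p x + dl p y + dl p x * dl p y := by
          simp only [dl, map_mul, sub_mul, mul_sub, one_mul, mul_one]; abel
        rw [h1]
        refine add_mem (add_mem hx' hy') (D.I_le_S _ ?_)
        exact D.I_anti (by omega) (D.mul_mem (D.dl_mem hx) (D.dl_mem hy))
      one_mem' := ⟨(D.P m).one_mem, by
        have : dl p (1 : U) = 0 := by unfold dl; rw [map_one, sub_self]
        rw [this]; exact zero_mem _⟩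
      inv_mem' := by
        rintro x ⟨hx, hx'⟩
        refine ⟨(D.P m).inv_mem hx, ?_⟩
        have h1 : dl p x⁻¹ = -dl p x - dl p x⁻¹ * dl p x := by
          have : of (ZMod p) U x⁻¹ * of (ZMod p) U x = 1 := by
            rw [← map_mul, inv_mul_cancel, map_one]
          simp only [dl, sub_mul, mul_sub, one_mul, mul_one, this]; abel
        rw [h1]
        refine sub_mem (neg_mem hx') (D.I_le_S _ ?_)
        exact D.I_anti (by omega) (D.mul_mem (D.dl_mem ((D.P m).inv_mem hx)) (D.dl_mem hx)) }
  have hT : D.P m ≤ T := by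
    refine (D.gen m hm).trans (sup_le ?_ ?_)
    · rw [Subgroup.closure_le]
      rintro y ⟨i, j, hij, rfl⟩
      refine ⟨hij ▸ D.g_mem i j, ?_⟩
      rw [← D.X_pow, ← hij]
      apply D.S_pow
      have := D.gword_mem_S (p := p) [i]
      simpa [gword, lwt] using this
    · intro y hy
      exact ⟨D.anti (Nat.le_succ m) hy, D.I_le_S _ (D.dl_mem hy)⟩
  exact (hT hx).2

theorem word_mem_S {l : List (ℕ × U)} (hl : ∀ x ∈ l, x.2 ∈ D.P x.1) :
    word p l ∈ D.S ((l.map Prod.fst).sum) := by
  induction l with
  | nil => simpa [word] using D.one_mem_S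
  | cons x l ih =>
    have h1 := D.dl_mem_S (hl x (by simp))
    have h2 := ih fun y hy => hl y (by simp [hy])
    have := D.S_mul h1 h2
    simpa [word] using this

theorem I_le_S' (m : ℕ) : D.I m ≤ (D.S m : Submodule (ZMod p) (A p U)) := by
  unfold I
  rw [Submodule.span_le]
  rintro a ⟨l, hl, hm, rfl⟩
  rcases hm.eq_or_lt with h | h
  · rw [h]; exact D.word_mem_S hl
  · exact D.I_le_S m (D.word_mem hl h)

/-- The monomials of weight `m` span `I m` modulo `I (m + 1)`. -/
theorem I_le (m : ℕ) : D.I m ≤
    Submodule.span (ZMod p) {a | ∃ α : Fin d → ℕ, D.mwt α = m ∧ a = D.mono α} ⊔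
      (D.I (m + 1) : Submodule (ZMod p) (A p U)) := by
  refine (D.I_le_S' m).trans (sup_le ?_ le_sup_right)
  rw [Submodule.span_le]
  rintro a ⟨l, rfl, rfl⟩
  have h1 := D.gword_perm (p := p) (perm_can l)
  have h2 : D.mwt (fun i => l.count i) = D.lwt l := by
    rw [← D.lwt_can]
    exact ((perm_can l).map D.wt).sum_eq.symm
  have h3 : (D.gword l : A p U) =
      D.mono (fun i => l.count i) + (D.gword l - D.gword (can fun i => l.count i)) := by
    simp [mono]
  rw [SetLike.mem_coe, h3]
  exact Submodule.add_mem_sup (Submodule.subset_span ⟨_, h2, rfl⟩) h1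

theorem I_le_add (m k : ℕ) : D.I m ≤
    Submodule.span (ZMod p) {a | ∃ α : Fin d → ℕ, m ≤ D.mwt α ∧ a = D.mono α} ⊔
      (D.I (m + k) : Submodule (ZMod p) (A p U)) := by
  induction k with
  | zero => exact le_sup_right
  | succ k ih =>
    refine ih.trans (sup_le le_sup_left ((D.I_le (m + k)).trans (sup_le_sup ?_ le_rfl)))
    apply Submodule.span_mono
    rintro a ⟨α, h, rfl⟩
    exact ⟨α, by omega, rfl⟩

theorem isPGroup (M : ℕ) : IsPGroup p (U ⧸ D.P M) := by
  rcases Nat.eq_zero_or_pos M with rfl | hM
  · intro x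
    refine ⟨0, ?_⟩
    obtain ⟨x, rfl⟩ := QuotientGroup.mk_surjective x
    rw [pow_zero, pow_one, QuotientGroup.eq_one_iff, D.P_zero]
    exact Subgroup.mem_top x
  · apply IsPGroup.of_card (n := ∑ i, D.J i M)
    rw [← Subgroup.index, D.index_P M hM, Finset.prod_pow_eq_pow_sum]

instance (M : ℕ) : Finite (U ⧸ D.P M) := Subgroup.finite_quotient_of_finiteIndex

/-- The filtration is zero in the group algebra of `U ⧸ P M` from some point on. -/
theorem exists_q_eq_zero (M : ℕ) : ∃ N, ∀ a ∈ (D.I N : Submodule (ZMod p) (A p U)),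
    D.q M a = 0 := by
  have hfin : Finite (MonoidAlgebra (ZMod p) (U ⧸ D.P M)) :=
    Finite.of_injective (fun a (x : U ⧸ D.P M) => a.coeff x)
      (by intro a b h; ext x; exact congrFun h x)
  obtain ⟨r, hr⟩ := exists_prod_smul_eq_zero p (U ⧸ D.P M) (D.isPGroup M)
    (Nat.card (MonoidAlgebra (ZMod p) (U ⧸ D.P M))) (MonoidAlgebra (ZMod p) (U ⧸ D.P M)) le_rfl
  refine ⟨r * M + 1, ?_⟩
  intro a ha
  unfold I at ha
  induction ha using Submodule.span_induction with
  | mem a ha =>
    obtain ⟨l, hl, hm, rfl⟩ := ha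
    unfold word
    rw [map_list_prod, List.map_map]
    by_cases h : ∃ x ∈ l, M ≤ x.1
    · obtain ⟨x, hx, hxM⟩ := h
      apply List.prod_eq_zero
      rw [List.mem_map]
      exact ⟨x, hx, D.q_dl M (D.anti hxM (hl x hx))⟩
    · push Not at h
      have h1 : (l.map Prod.fst).sum ≤ l.length * M := by
        clear hm hl
        induction l with
        | nil => simp
        | cons y l ih =>
          have := ih fun x hx => h x (by simp [hx])
          have := h y (by simp)
          simp only [List.map_cons, List.sum_cons, List.length_cons]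
          nlinarith
      have h2 : r ≤ l.length := by
        by_contra hlt
        rw [not_le] at hlt
        have : l.length * M ≤ r * M := Nat.mul_le_mul_right _ hlt.le
        omega
      have h3 := hr (l.map fun x => (x.2 : U ⧸ D.P M)) (by simpa using h2) 1
      rw [smul_eq_mul, mul_one, List.map_map] at h3
      rw [← h3]
      congr 1
      apply List.map_congr_left
      intro x _
      simp only [Function.comp, dl, map_sub, D.q_of, map_one]
  | zero => simp
  | add x y _ _ hx hy => rw [map_add, hx, hy, add_zero]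
  | smul r x _ hx => rw [map_smul, hx, smul_zero]

/-- Modulo the kernel of `q M`, the ideal `I m` is spanned by the monomials of weight at least
`m`. -/
theorem exists_sub_mem (M m : ℕ) {a : A p U} (ha : a ∈ D.I m) :
    ∃ b ∈ Submodule.span (ZMod p) {a : A p U | ∃ α : Fin d → ℕ, m ≤ D.mwt α ∧ a = D.mono α},
      D.q M a = D.q M b := by
  obtain ⟨N, hN⟩ := D.exists_q_eq_zero M
  obtain ⟨b, hb, c, hc, rfl⟩ := Submodule.mem_sup.mp (D.I_le_add m N ha)
  exact ⟨b, hb, by rw [map_add, hN c (D.I_anti (by omega) hc), add_zero]⟩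

end NpData

end Vale.Agent.P251.C
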