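import Vale.Agent.P251.C.C6B

/-!
# P251, part C6 (C): the monomials as coordinates on the locally constant functions

For functions `f : U → 𝔽_p` invariant under some `P M` the numbers `pair f (mono α)` determine `f`,
vanish for almost all `α`, and are otherwise arbitrary.
-/

namespace Vale.Agent.P251.C

open MonoidAlgebra

universe u

namespace NpData

variable {p d : ℕ} {U : Type u} [Group U] (D : NpData p d U) [hp : Fact p.Prime]

/-- Invariance under (left) translations by elements of `P M`. -/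
def Inv (M : ℕ) (f : U → ZMod p) : Prop := ∀ u ∈ D.P M, ∀ x, f (u * x) = f x

omit hp in
theorem Inv.right {M : ℕ} {f : U → ZMod p} (hf : D.Inv M f) {u : U} (hu : u ∈ D.P M) (x : U) :
    f (x * u) = f x := by
  have h1 : x * u * x⁻¹ ∈ D.P M := (D.normal M).conj_mem u hu x
  have := hf _ h1 x
  simpa [mul_assoc] using this

theorem exists_factor {M : ℕ} {f : U → ZMod p} (hf : D.Inv M f) :
    ∃ F : MonoidAlgebra (ZMod p) (U ⧸ D.P M) →ₗ[ZMod p] ZMod p,
      ∀ a : A p U, pair f a = F (D.q M a) := by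
  let fb : U ⧸ D.P M → ZMod p := Quotient.lift f (by
    intro x y hxy
    have h1 : x⁻¹ * y ∈ D.P M := QuotientGroup.leftRel_apply.mp hxy
    have := Inv.right D hf h1 x
    simpa using this.symm)
  have hfb : ∀ x : U, fb (x : U ⧸ D.P M) = f x := fun x => rfl
  refine ⟨pair fb, ?_⟩
  have h : pair f = (pair fb) ∘ₗ (D.q M).toLinearMap := by
    apply linearMap_ext'
    intro x
    rw [pair_of, LinearMap.comp_apply, AlgHom.toLinearMap_apply, D.q_of, pair_of,
      ← QuotientGroup.mk_inv, hfb]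
  intro a
  rw [h]
  rfl

/-- Almost all coordinates vanish. -/
theorem pair_mono_eq_zero {M : ℕ} {f : U → ZMod p} (hf : D.Inv M f) {α : Fin d → ℕ} {i : Fin d}
    (h : p ^ D.J i M ≤ α i) : pair f (D.mono α) = 0 := by
  obtain ⟨F, hF⟩ := D.exists_factor hf
  rw [hF, D.q_mono M h, map_zero]

/-- If the coordinates of weight at least `m` vanish, then `f` kills `I m`. -/
theorem pair_eq_zero {M m : ℕ} {f : U → ZMod p} (hf : D.Inv M f)
    (h : ∀ α, m ≤ D.mwt α → pair f (D.mono α) = 0) {a : A p U} (ha : a ∈ D.I m) :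
    pair f a = 0 := by
  obtain ⟨F, hF⟩ := D.exists_factor hf
  obtain ⟨b, hb, hab⟩ := D.exists_sub_mem M m ha
  rw [hF, hab, ← hF]
  clear hab
  induction hb using Submodule.span_induction with
  | mem b hb =>
    obtain ⟨α, hα, rfl⟩ := hb
    exact h α hα
  | zero => exact map_zero _
  | add x y _ _ hx hy => rw [map_add, hx, hy, add_zero]
  | smul r x _ hx => rw [map_smul, hx, smul_zero]

theorem q_surjective (M : ℕ) : Function.Surjective (D.q M : A p U → _) := by
  intro b
  induction b using MonoidAlgebra.induction_on with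
  | of x =>
    obtain ⟨x, rfl⟩ := QuotientGroup.mk_surjective x
    exact ⟨_, D.q_of M x⟩
  | add a b ha hb =>
    obtain ⟨a, rfl⟩ := ha
    obtain ⟨b, rfl⟩ := hb
    exact ⟨a + b, map_add _ _ _⟩
  | smul r a ha =>
    obtain ⟨a, rfl⟩ := ha
    exact ⟨r • a, map_smul _ _ _⟩

/-- exponents bounded by the exponents of the generators modulo `P M` -/
abbrev Box (M : ℕ) : Type := ∀ i : Fin d, Fin (p ^ D.J i M)

/-- the monomials in the box -/
noncomputable def bx (M : ℕ) (α : D.Box M) : MonoidAlgebra (ZMod p) (U ⧸ D.P M) :=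
  D.q M (D.mono fun i => (α i : ℕ))

theorem span_bx (M : ℕ) : ⊤ ≤ Submodule.span (ZMod p) (Set.range (D.bx M)) := by
  intro x _
  obtain ⟨a, rfl⟩ := D.q_surjective M x
  have ha : a ∈ D.I 0 := by rw [D.I_zero]; trivial
  obtain ⟨b, hb, hab⟩ := D.exists_sub_mem M 0 ha
  rw [hab]
  clear hab
  induction hb using Submodule.span_induction with
  | mem b hb =>
    obtain ⟨α, -, rfl⟩ := hb
    by_cases h : ∃ i, p ^ D.J i M ≤ α i
    · obtain ⟨i, hi⟩ := h
      rw [D.q_mono M hi]
      exact zero_mem _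
    · push Not at h
      exact Submodule.subset_span ⟨fun i => ⟨α i, h i⟩, rfl⟩
  | zero => rw [map_zero]; exact zero_mem _
  | add x y _ _ hx hy => rw [map_add]; exact add_mem hx hy
  | smul r x _ hx => rw [map_smul]; exact Submodule.smul_mem _ r hx

theorem card_box {M : ℕ} (hM : 1 ≤ M) : Fintype.card (D.Box M) =
    Module.finrank (ZMod p) (MonoidAlgebra (ZMod p) (U ⧸ D.P M)) := by
  have := Fintype.ofFinite (U ⧸ D.P M)
  have e : MonoidAlgebra (ZMod p) (U ⧸ D.P M) ≃ₗ[ZMod p] (U ⧸ D.P M) →₀ ZMod p :=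
    MonoidAlgebra.coeffLinearEquiv (ZMod p)
  rw [e.finrank_eq, Module.finrank_finsupp_self, ← Nat.card_eq_fintype_card (α := U ⧸ D.P M),
    ← Subgroup.index, D.index_P M hM]
  simp

/-- The coordinates can be prescribed. -/
theorem exists_pair_mono {M : ℕ} (hM : 1 ≤ M) {c : (Fin d → ℕ) → ZMod p}
    (hc : ∀ α i, p ^ D.J i M ≤ α i → c α = 0) :
    ∃ f : U → ZMod p, D.Inv M f ∧ ∀ α, pair f (D.mono α) = c α := by
  let b := basisOfTopLeSpanOfCardEqFinrank (D.bx M) (D.span_bx M) (D.card_box hM)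
  let F : MonoidAlgebra (ZMod p) (U ⧸ D.P M) →ₗ[ZMod p] ZMod p :=
    b.constr (ZMod p) fun α => c fun i => (α i : ℕ)
  have hb : ∀ α, F (D.bx M α) = c fun i => (α i : ℕ) := by
    intro α
    have h1 : b α = D.bx M α := by
      simp [b]
    rw [← h1]
    exact b.constr_basis _ _ _
  let f : U → ZMod p := fun x => F (of (ZMod p) _ ((x⁻¹ : U) : U ⧸ D.P M))
  have hf : ∀ a : A p U, pair f a = F (D.q M a) := by
    have h : pair f = F ∘ₗ (D.q M).toLinearMap := by
      apply linearMap_ext'
      intro x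
      rw [pair_of, LinearMap.comp_apply, AlgHom.toLinearMap_apply, D.q_of]
      simp only [f, inv_inv]
    intro a
    rw [h]
    rfl
  refine ⟨f, ?_, ?_⟩
  · intro u hu x
    simp only [f]
    congr 2
    rw [mul_inv_rev, QuotientGroup.mk_mul, (QuotientGroup.eq_one_iff u⁻¹).mpr (inv_mem hu), mul_one]
  · intro α
    rw [hf]
    by_cases h : ∃ i, p ^ D.J i M ≤ α i
    · obtain ⟨i, hi⟩ := h
      rw [D.q_mono M hi, map_zero, hc α i hi]
    · push Not at h
      exact hb fun i => ⟨α i, h i⟩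

/-- The coordinates determine the function. -/
theorem eq_zero_of_pair {M : ℕ} {f : U → ZMod p} (hf : D.Inv M f)
    (h : ∀ α, pair f (D.mono α) = 0) : f = 0 := by
  funext x
  have h1 := D.pair_eq_zero hf (m := 0) (fun α _ => h α) (a := of (ZMod p) U x⁻¹)
    (by rw [D.I_zero]; trivial)
  rw [pair_of, inv_inv] at h1
  exact h1

end NpData

end Vale.Agent.P251.C
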