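import Mathlib

/-!
# P251, part C6 (K): the dual Koszul complex with an explicit contraction

Functions `s α T` of an exponent vector `α : Fin d → ℕ` and a finite set `T` of indices.
-/

namespace Vale.Agent.P251.C

open Finset

variable {d : ℕ} {k : Type*} [CommRing k]

/-- the Koszul sign -/
def sg (k : Type*) [CommRing k] (i : Fin d) (T : Finset (Fin d)) : k :=
  (-1) ^ (T.filter (· < i)).card

/-- the unit vector -/
abbrev eps (i : Fin d) : Fin d → ℕ := Pi.single i 1

/-- the differential of the dual Koszul complex -/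
def del (s : (Fin d → ℕ) → Finset (Fin d) → k) (α : Fin d → ℕ) (T : Finset (Fin d)) : k :=
  ∑ i ∈ T, sg k i T * s (α + eps i) (T.erase i)

/-- the support of `α` together with `T` -/
def sup (α : Fin d → ℕ) (T : Finset (Fin d)) : Finset (Fin d) :=
  univ.filter fun i => α i ≠ 0 ∨ i ∈ T

/-- the contraction -/
def eta (s : (Fin d → ℕ) → Finset (Fin d) → k) (α : Fin d → ℕ) (T : Finset (Fin d)) : k :=
  if h : (sup α T).Nonempty then
    if (sup α T).min' h ∈ T then 0
    else s (α - eps ((sup α T).min' h)) (insert ((sup α T).min' h) T)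
  else 0

theorem min'_eq {α : Fin d → ℕ} {T : Finset (Fin d)} {i : Fin d} (hi : α i ≠ 0 ∨ i ∈ T)
    (hlt : ∀ j < i, α j = 0 ∧ j ∉ T) (h : (sup α T).Nonempty) : (sup α T).min' h = i := by
  apply le_antisymm
  · exact Finset.min'_le _ _ (by simpa [sup] using hi)
  · apply Finset.le_min'
    intro j hj
    by_contra hji
    rw [not_le] at hji
    have h1 := hlt j hji
    simp only [sup, mem_filter, mem_univ, true_and] at hj
    rcases hj with h2 | h2
    · exact h2 h1.1
    · exact h1.2 h2

theorem eta_of_mem (s : (Fin d → ℕ) → Finset (Fin d) → k) {α : Fin d → ℕ}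
    {T : Finset (Fin d)} {i : Fin d} (hi : i ∈ T) (hlt : ∀ j < i, α j = 0 ∧ j ∉ T) :
    eta s α T = 0 := by
  unfold eta
  split_ifs with h h'
  · rfl
  · rw [min'_eq (Or.inr hi) hlt h] at h'
    exact absurd hi h'
  · rfl

theorem eta_of_not_mem (s : (Fin d → ℕ) → Finset (Fin d) → k) {α : Fin d → ℕ}
    {T : Finset (Fin d)} {i : Fin d} (hi : i ∉ T) (hα : α i ≠ 0)
    (hlt : ∀ j < i, α j = 0 ∧ j ∉ T) :
    eta s α T = s (α - eps i) (insert i T) := by
  unfold eta
  have h : (sup α T).Nonempty := ⟨i, by simp [sup, hα]⟩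
  rw [dif_pos h, min'_eq (Or.inl hα) hlt h, if_neg hi]

theorem sg_insert {i j : Fin d} {T : Finset (Fin d)} (hi : i ∉ T) (hij : i < j) :
    sg k j (insert i T) = -sg k j T := by
  unfold sg
  rw [filter_insert, if_pos hij, card_insert_of_notMem (by simp [hi]), pow_succ]
  ring

theorem sg_min {i : Fin d} {T : Finset (Fin d)} (h : ∀ j < i, j ∉ T) : sg k i T = 1 := by
  unfold sg
  have : T.filter (· < i) = ∅ := by
    rw [filter_eq_empty_iff]
    intro j hj hji
    exact h j hji hj
  rw [this]
  simp

/-- The contraction identity. -/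
theorem del_eta_add (s : (Fin d → ℕ) → Finset (Fin d) → k) {α : Fin d → ℕ}
    {T : Finset (Fin d)} (h : (sup α T).Nonempty) :
    del (eta s) α T + eta (del s) α T = s α T := by
  set i := (sup α T).min' h with hi
  have hmem : i ∈ sup α T := Finset.min'_mem _ h
  have hlt : ∀ j < i, α j = 0 ∧ j ∉ T := by
    intro j hj
    by_contra hcon
    have h1 : j ∈ sup α T := by
      simp only [sup, mem_filter, mem_univ, true_and]
      by_contra h2
      exact hcon (by tauto)
    exact absurd (Finset.min'_le _ _ h1) (not_le.mpr hj)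
  have hltε : ∀ j, j ∈ T → ∀ l < i, (α + eps j) l = 0 ∧ l ∉ T.erase j := by
    intro j hj l hl
    have h1 := hlt l hl
    have h2 : l ≠ j := fun h => h1.2 (h ▸ hj)
    refine ⟨?_, fun h => h1.2 (mem_of_mem_erase h)⟩
    simp [h1.1, Pi.single_eq_of_ne h2]
  by_cases hiT : i ∈ T
  · rw [eta_of_mem _ hiT hlt, add_zero]
    unfold del
    rw [sum_eq_single i]
    · rw [sg_min (fun j hj => (hlt j hj).2), one_mul,
        eta_of_not_mem s (notMem_erase i T) (by simp) (hltε i hiT), insert_erase hiT]
      congr 1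
      ext l; simp
    · intro j hj hji
      rw [eta_of_mem s (i := i) (mem_erase.mpr ⟨Ne.symm hji, hiT⟩) (hltε j hj), mul_zero]
    · intro h1; exact absurd hiT h1
  · have hαi : α i ≠ 0 := by
      simp only [sup, mem_filter, mem_univ, true_and] at hmem
      tauto
    rw [eta_of_not_mem _ hiT hαi hlt]
    unfold del
    rw [sum_insert hiT, ← add_assoc, add_comm (∑ i ∈ T, _), add_assoc]
    have h1 : α - eps i + eps i = α := by
      ext l
      by_cases hl : l = i
      · subst hl; simp; omega
      · simp [Pi.single_eq_of_ne hl]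
    rw [erase_insert hiT, h1, sg_min, one_mul]
    · rw [add_eq_left, ← sum_add_distrib]
      apply sum_eq_zero
      intro j hj
      have hij : i < j := by
        rcases lt_trichotomy i j with h2 | h2 | h2
        · exact h2
        · exact absurd (h2 ▸ hj) hiT
        · exact absurd hj (hlt j h2).2
      rw [eta_of_not_mem s (i := i) (fun h => hiT (mem_of_mem_erase h)) (by simp [hαi])
        (hltε j hj), sg_insert hiT hij]
      have h2 : α + eps j - eps i = α - eps i + eps j := by
        ext l
        simp only [Pi.sub_apply, Pi.add_apply]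
        by_cases hl : l = i
        · subst hl
          simp [Pi.single_eq_of_ne (Ne.symm hij.ne')]
        · simp [Pi.single_eq_of_ne hl]
      have h3 : insert i (T.erase j) = (insert i T).erase j := by
        rw [erase_insert_of_ne hij.ne]
      rw [h2, h3]
      ring
    · intro j hj hj'
      rw [mem_insert] at hj'
      rcases hj' with h2 | h2
      · exact absurd h2 hj.ne
      · exact (hlt j hj).2 h2

theorem sg_mul_sg {i j : Fin d} {T : Finset (Fin d)} (hi : i ∈ T) (hj : j ∈ T) (hij : i < j) :
    sg k i T * sg k j (T.erase i) + sg k j T * sg k i (T.erase j) = 0 := by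
  have h1 : sg k j T = -sg k j (T.erase i) := by
    conv_lhs => rw [← insert_erase hi]
    rw [sg_insert (notMem_erase i T) hij]
  have h2 : sg k i (T.erase j) = sg k i T := by
    unfold sg
    congr 2
    ext l
    simp only [mem_filter, mem_erase]
    constructor
    · rintro ⟨⟨-, h⟩, h'⟩; exact ⟨h, h'⟩
    · rintro ⟨h, h'⟩; exact ⟨⟨(h'.trans hij).ne, h⟩, h'⟩
  rw [h1, h2]
  ring

theorem del_del (s : (Fin d → ℕ) → Finset (Fin d) → k) (α : Fin d → ℕ) (T : Finset (Fin d)) :
    del (del s) α T = 0 := by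
  unfold del
  simp only [mul_sum]
  rw [sum_sigma']
  refine sum_involution (fun x _ => ⟨x.2, x.1⟩) ?_ ?_ ?_ ?_
  · rintro ⟨i, j⟩ hx
    simp only [mem_sigma, mem_erase] at hx
    obtain ⟨hi, hji, hj⟩ := hx
    simp only
    have h1 : α + eps i + eps j = α + eps j + eps i := by abel
    rw [h1, erase_right_comm (a := j) (b := i), ← mul_assoc, ← mul_assoc, ← add_mul]
    rcases lt_or_gt_of_ne hji with h | h
    · rw [add_comm, sg_mul_sg hj hi h, zero_mul]
    · rw [sg_mul_sg hi hj h, zero_mul]
  · rintro ⟨i, j⟩ hx _ h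
    simp only [mem_sigma, mem_erase] at hx
    simp only [Sigma.mk.injEq, heq_eq_eq] at h
    exact hx.2.1 h.1
  · rintro ⟨i, j⟩ hx
    simp only [mem_sigma, mem_erase] at hx ⊢
    exact ⟨hx.2.2, Ne.symm hx.2.1, hx.1⟩
  · rintro ⟨i, j⟩ hx
    rfl

end Vale.Agent.P251.C
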