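import Vale.Agent.P251.C.C6C
import Vale.Agent.P251.C.C6K

/-!
# P251, part C6 (D): lifting the dual Koszul complex

Families `F : Finset (Fin d) → U → 𝔽_p` of locally constant functions. Equivariant operators `op Φ`
are given by families of functionals; we choose the functionals step by step so that the symbol
of `op Φ` is the differential of the dual Koszul complex.
-/

namespace Vale.Agent.P251.C

open MonoidAlgebra

universe u

/-- families of functions -/
abbrev VV (p d : ℕ) (U : Type u) : Type u := Finset (Fin d) → U → ZMod p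

/-- the action of `U` by translations -/
def tau (p d : ℕ) (U : Type u) [Group U] : U →* Module.End (ZMod p) (VV p d U) where
  toFun g :=
    { toFun := fun F S y => F S (g⁻¹ * y)
      map_add' := fun _ _ => rfl
      map_smul' := fun _ _ => rfl }
  map_one' := by ext F S y; simp
  map_mul' g h := by ext F S y; simp [mul_assoc]

section
variable {p d : ℕ} {U : Type u} [Group U]

@[simp]
theorem tau_apply (g : U) (F : VV p d U) (S : Finset (Fin d)) (y : U) :
    tau p d U g F S y = F S (g⁻¹ * y) := rfl

/-- the action of the group algebra -/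
noncomputable def act (a : MonoidAlgebra (ZMod p) U) : Module.End (ZMod p) (VV p d U) :=
  MonoidAlgebra.lift (ZMod p) (Module.End (ZMod p) (VV p d U)) U (tau p d U) a

theorem act_of (g : U) : act (of (ZMod p) U g) = tau p d U g := by
  unfold act
  rw [MonoidAlgebra.lift_of]

theorem act_add (a b : MonoidAlgebra (ZMod p) U) (F : VV p d U) :
    act (a + b) F = act a F + act b F := by
  unfold act; rw [map_add]; rfl

theorem act_smul (r : ZMod p) (a : MonoidAlgebra (ZMod p) U) (F : VV p d U) :
    act (r • a) F = r • act a F := by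
  unfold act; rw [map_smul]; rfl

theorem pair_add (f g : U → ZMod p) (a : MonoidAlgebra (ZMod p) U) :
    pair (f + g) a = pair f a + pair g a := by
  have : pair (f + g) = pair f + pair g := by
    apply linearMap_ext'
    intro x
    rw [LinearMap.add_apply, pair_of, pair_of, pair_of, Pi.add_apply]
  rw [this]; rfl

theorem pair_smul (r : ZMod p) (f : U → ZMod p) (a : MonoidAlgebra (ZMod p) U) :
    pair (r • f) a = r * pair f a := by
  have : pair (r • f) = r • pair f := by
    apply linearMap_ext'
    intro x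
    rw [LinearMap.smul_apply, pair_of, pair_of, Pi.smul_apply]
  rw [this]; rfl

theorem pair_zero_left (a : MonoidAlgebra (ZMod p) U) : pair (0 : U → ZMod p) a = 0 := by
  have := pair_smul (0 : ZMod p) (0 : U → ZMod p) a
  simpa using this

/-- `pair` as a linear map in the function -/
noncomputable def pairₗ (a : MonoidAlgebra (ZMod p) U) : (U → ZMod p) →ₗ[ZMod p] ZMod p where
  toFun f := pair f a
  map_add' f g := pair_add f g a
  map_smul' r f := pair_smul r f a

@[simp] theorem pairₗ_apply (a : MonoidAlgebra (ZMod p) U) (f : U → ZMod p) :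
    pairₗ a f = pair f a := rfl

theorem pair_tau (g : U) (F : VV p d U) (T : Finset (Fin d)) (b : MonoidAlgebra (ZMod p) U) :
    pair (tau p d U g F T) b = pair (F T) (b * of (ZMod p) U g) := by
  have : pair (tau p d U g F T) =
      (pair (F T)) ∘ₗ (LinearMap.mulRight (ZMod p) (of (ZMod p) U g)) := by
    apply linearMap_ext'
    intro h
    rw [pair_of, LinearMap.comp_apply, LinearMap.mulRight_apply, ← map_mul, pair_of, tau_apply,
      mul_inv_rev]
  rw [this]; rfl

theorem pair_act (a b : MonoidAlgebra (ZMod p) U) (F : VV p d U) (T : Finset (Fin d)) :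
    pair (act a F T) b = pair (F T) (b * a) := by
  induction a using MonoidAlgebra.induction_on with
  | of g => rw [act_of]; exact pair_tau g F T b
  | add a b ha hb =>
    rw [act_add, Pi.add_apply, pair_add, ha, hb, mul_add, map_add]
  | smul r a ha =>
    rw [act_smul, Pi.smul_apply, pair_smul, ha, mul_smul_comm, map_smul, smul_eq_mul]

/-- the equivariant operator given by a family of functionals -/
def op (Φ : Finset (Fin d) → VV p d U →ₗ[ZMod p] ZMod p) : VV p d U →ₗ[ZMod p] VV p d U where
  toFun F T x := Φ T (tau p d U x⁻¹ F)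
  map_add' F G := by
    funext T x
    rw [map_add, map_add]; rfl
  map_smul' r F := by
    funext T x
    rw [map_smul, map_smul]; rfl

theorem op_apply (Φ : Finset (Fin d) → VV p d U →ₗ[ZMod p] ZMod p) (F : VV p d U)
    (T : Finset (Fin d)) (x : U) : op Φ F T x = Φ T (tau p d U x⁻¹ F) := rfl

theorem op_tau (Φ : Finset (Fin d) → VV p d U →ₗ[ZMod p] ZMod p) (F : VV p d U) (g : U) :
    op Φ (tau p d U g F) = tau p d U g (op Φ F) := by
  funext T x
  rw [op_apply, tau_apply, op_apply, ← Module.End.mul_apply, ← map_mul]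
  congr 3
  simp

theorem pair_op (Φ : Finset (Fin d) → VV p d U →ₗ[ZMod p] ZMod p) (F : VV p d U)
    (T : Finset (Fin d)) (a : MonoidAlgebra (ZMod p) U) :
    pair (op Φ F T) a = Φ T (act a F) := by
  induction a using MonoidAlgebra.induction_on with
  | of g => rw [pair_of, op_apply, act_of, inv_inv]
  | add a b ha hb => rw [map_add, ha, hb, act_add, map_add]
  | smul r a ha => rw [map_smul, ha, act_smul, map_smul]

end

namespace NpData

variable {p d : ℕ} {U : Type u} [Group U] (D : NpData p d U) [hp : Fact p.Prime]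

omit hp in
theorem Inv.mono {D : NpData p d U} {M M' : ℕ} (h : M ≤ M') {f : U → ZMod p} (hf : D.Inv M f) :
    D.Inv M' f := fun u hu x => hf u (D.anti h hu) x

/-- families of (uniformly) locally constant functions -/
def NN : Submodule (ZMod p) (VV p d U) where
  carrier := {F | ∃ M, ∀ T, D.Inv M (F T)}
  add_mem' := by
    rintro F G ⟨M, hF⟩ ⟨M', hG⟩
    refine ⟨max M M', fun T u hu x => ?_⟩
    have h1 := (hF T).mono (le_max_left M M') u hu x
    have h2 := (hG T).mono (le_max_right M M') u hu x
    simp only [Pi.add_apply, h1, h2]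
  zero_mem' := ⟨0, fun T u _ x => rfl⟩
  smul_mem' := by
    rintro r F ⟨M, hF⟩
    refine ⟨M, fun T u hu x => ?_⟩
    simp only [Pi.smul_apply, hF T u hu x]

omit hp in
theorem tau_mem {F : VV p d U} {M : ℕ} (hF : ∀ T, D.Inv M (F T)) (g : U) (T : Finset (Fin d)) :
    D.Inv M (tau p d U g F T) := by
  intro u hu x
  rw [tau_apply, tau_apply]
  have h1 : g⁻¹ * u * g ∈ D.P M := by
    have := (D.normal M).conj_mem u hu g⁻¹
    simpa using this
  have := hF T _ h1 (g⁻¹ * x)
  rw [← this]
  congr 1
  group

omit hp in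
theorem tau_eq {F : VV p d U} {M : ℕ} (hF : ∀ T, D.Inv M (F T)) {u : U} (hu : u ∈ D.P M) :
    tau p d U u F = F := by
  funext T x
  rw [tau_apply]
  exact hF T _ (inv_mem hu) x

theorem act_mem {F : VV p d U} (hF : F ∈ D.NN) (a : A p U) : act a F ∈ D.NN := by
  induction a using MonoidAlgebra.induction_on with
  | of g =>
    obtain ⟨M, hM⟩ := hF
    rw [act_of]
    exact ⟨M, D.tau_mem hM g⟩
  | add a b ha hb => rw [act_add]; exact add_mem ha hb
  | smul r a ha => rw [act_smul]; exact D.NN.smul_mem r ha

theorem op_inv (Φ : Finset (Fin d) → VV p d U →ₗ[ZMod p] ZMod p) {F : VV p d U} {M : ℕ}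
    (hF : ∀ T, D.Inv M (F T)) (T : Finset (Fin d)) : D.Inv M (op Φ F T) := by
  intro u hu x
  rw [op_apply, op_apply, mul_inv_rev, map_mul, Module.End.mul_apply,
    D.tau_eq hF (inv_mem hu)]

theorem op_mem (Φ : Finset (Fin d) → VV p d U →ₗ[ZMod p] ZMod p) {F : VV p d U}
    (hF : F ∈ D.NN) : op Φ F ∈ D.NN := by
  obtain ⟨M, hM⟩ := hF
  exact ⟨M, D.op_inv Φ hM⟩

/-- the weight of a set of indices -/
def swt (T : Finset (Fin d)) : ℕ := ∑ i ∈ T, D.wt i

/-- the filtration of the families of functions -/
def Fil (m : ℕ) : Submodule (ZMod p) (VV p d U) where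
  carrier := {F | F ∈ D.NN ∧ ∀ T α, m < D.mwt α + D.swt T → pair (F T) (D.mono α) = 0}
  add_mem' := by
    rintro F G ⟨hF, hF'⟩ ⟨hG, hG'⟩
    refine ⟨add_mem hF hG, fun T α h => ?_⟩
    rw [Pi.add_apply, pair_add, hF' T α h, hG' T α h, add_zero]
  zero_mem' := ⟨zero_mem _, fun T α _ => pair_zero_left _⟩
  smul_mem' := by
    rintro r F ⟨hF, hF'⟩
    refine ⟨D.NN.smul_mem r hF, fun T α h => ?_⟩
    rw [Pi.smul_apply, pair_smul, hF' T α h, mul_zero]

theorem pair_eq_zero_of_Fil {m n : ℕ} {F : VV p d U} (hF : F ∈ D.Fil m) {T : Finset (Fin d)}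
    (h : m < n + D.swt T) {a : A p U} (ha : a ∈ D.I n) : pair (F T) a = 0 := by
  obtain ⟨⟨M, hM⟩, h2⟩ := hF
  exact D.pair_eq_zero (hM T) (fun α hα => h2 T α (by omega)) ha

/-- The monomial of weight `mwt α` lowers the filtration by `mwt α`. -/
theorem act_mono_Fil {m w : ℕ} {F : VV p d U} (hF : F ∈ D.Fil m) {α : Fin d → ℕ}
    (hw : m ≤ w + D.mwt α) : act (D.mono α) F ∈ D.Fil w := by
  refine ⟨D.act_mem hF.1 _, fun T β h => ?_⟩
  rw [pair_act]
  exact D.pair_eq_zero_of_Fil hF (n := D.mwt β + D.mwt α) (by omega)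
    (D.mul_mem (D.mono_mem β) (D.mono_mem α))

end NpData

end Vale.Agent.P251.C
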