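import Vale.Agent.P251.C.C6D

/-!
# P251, part C6 (E): the differential

Existence of a family of functionals `Φ` such that `op Φ` is a differential whose symbol is the
differential of the dual Koszul complex, and exactness of the resulting complex.
-/

namespace Vale.Agent.P251.C

open MonoidAlgebra

universe u

set_option linter.unusedSectionVars false

section
variable {p d : ℕ} {U : Type u} [Group U]

/-- the component of degree `n - 1` -/
def pr (p : ℕ) (d : ℕ) (U : Type u) (n : ℕ) : VV p d U →ₗ[ZMod p] VV p d U where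
  toFun F S := if S.card + 1 = n then F S else 0
  map_add' F G := by
    funext S
    by_cases h : S.card + 1 = n <;> simp [h]
  map_smul' r F := by
    funext S
    by_cases h : S.card + 1 = n <;> simp [h]

theorem pr_apply (n : ℕ) (F : VV p d U) (S : Finset (Fin d)) :
    pr p d U n F S = if S.card + 1 = n then F S else 0 := rfl

theorem pr_of_eq {n : ℕ} {F : VV p d U} {S : Finset (Fin d)} (h : S.card + 1 = n) :
    pr p d U n F S = F S := if_pos h

theorem pr_tau (n : ℕ) (g : U) (F : VV p d U) :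
    pr p d U n (tau p d U g F) = tau p d U g (pr p d U n F) := by
  funext S y
  rw [pr_apply, tau_apply, pr_apply]
  split_ifs <;> rfl

/-- `F` is concentrated in degree `n - 1` -/
def Hom (n : ℕ) (F : VV p d U) : Prop := ∀ S : Finset (Fin d), S.card + 1 ≠ n → F S = 0

theorem pr_of_hom {n : ℕ} {F : VV p d U} (h : Hom n F) : pr p d U n F = F := by
  funext S
  rw [pr_apply]
  split_ifs with h1
  · rfl
  · exact (h S h1).symm

theorem pr_hom (n : ℕ) (F : VV p d U) : Hom n (pr p d U n F) := by
  intro S h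
  rw [pr_apply, if_neg h]

/-- the coordinates -/
noncomputable def co (D : NpData p d U) (F : VV p d U) (α : Fin d → ℕ) (T : Finset (Fin d)) :
    ZMod p := pair (F T) (D.mono α)

/-- the principal part of the functionals -/
noncomputable def theta (D : NpData p d U) (T : Finset (Fin d)) : VV p d U →ₗ[ZMod p] ZMod p :=
  ∑ i ∈ T, sg (ZMod p) i T • (pairₗ (D.mono (eps i)) ∘ₗ LinearMap.proj (T.erase i))

theorem theta_apply (D : NpData p d U) (T : Finset (Fin d)) (F : VV p d U) :
    theta D T F = ∑ i ∈ T, sg (ZMod p) i T * pair (F (T.erase i)) (D.mono (eps i)) := by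
  unfold theta
  rw [LinearMap.sum_apply]
  rfl

theorem theta_pr (D : NpData p d U) (T : Finset (Fin d)) (F : VV p d U) :
    theta D T (pr p d U T.card F) = theta D T F := by
  rw [theta_apply, theta_apply]
  apply Finset.sum_congr rfl
  intro i hi
  rw [pr_of_eq (Finset.card_erase_add_one hi)]

end

namespace NpData

variable {p d : ℕ} {U : Type u} [Group U] (D : NpData p d U) [hp : Fact p.Prime]

/-- `Φ` defines the differential in degrees `≤ j`. -/
structure Good (j : ℕ) (Φ : Finset (Fin d) → VV p d U →ₗ[ZMod p] ZMod p) : Prop where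
  zero : ∀ T, j < T.card → Φ T = 0
  loc : ∀ T F, Φ T (pr p d U T.card F) = Φ T F
  symb : ∀ T, T.card ≤ j → ∀ F ∈ D.Fil (D.swt T), Φ T F = theta D T F
  sq : ∀ T, ∀ F ∈ D.NN, Φ T (op Φ F) = 0

theorem theta_of_lt {T : Finset (Fin d)} {w : ℕ} (h : w < D.swt T) {F : VV p d U}
    (hF : F ∈ D.Fil w) : theta D T F = 0 := by
  rw [theta_apply]
  apply Finset.sum_eq_zero
  intro i hi
  rw [hF.2 (T.erase i) (eps i), mul_zero]
  have h1 : D.mwt (eps i) = D.wt i := by
    have := D.mwt_add_single 0 i
    simpa [mwt, eps] using this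
  have h2 : D.swt (T.erase i) + D.wt i = D.swt T := Finset.sum_erase_add _ _ hi
  omega

theorem mwt_eps (i : Fin d) : D.mwt (eps i) = D.wt i := by
  have := D.mwt_add_single 0 i
  simpa [mwt, eps] using this

theorem swt_erase {T : Finset (Fin d)} {i : Fin d} (hi : i ∈ T) :
    D.swt (T.erase i) + D.wt i = D.swt T := Finset.sum_erase_add _ _ hi

theorem Fil_anti {m n : ℕ} (h : m ≤ n) : D.Fil m ≤ D.Fil n :=
  fun _ hF => ⟨hF.1, fun T α h' => hF.2 T α (by omega)⟩

/-- The coordinates of `mono α • F` near the top. -/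
theorem theta_act {m : ℕ} {F : VV p d U} (hF : F ∈ D.Fil m) {α : Fin d → ℕ}
    {T : Finset (Fin d)} (h : D.mwt α + D.swt T = m) :
    theta D T (act (D.mono α) F) = del (co D F) α T := by
  rw [theta_apply]
  unfold del co
  apply Finset.sum_congr rfl
  intro i hi
  rw [pair_act, ← sub_eq_zero, ← mul_sub, ← map_sub]
  have h1 : (D.mono (eps i) * D.mono α - D.mono (α + eps i) : A p U) ∈
      D.I (D.mwt α + D.wt i + 1) := by
    have h3 : (D.mono (eps i) : A p U) = D.X i := by
      have h4 : can (eps i) = [i] := by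
        rw [← List.perm_singleton, List.perm_iff_count]
        intro j
        rw [count_can, List.count_singleton]
        by_cases h : i = j
        · subst h; simp
        · simp [h, Pi.single_eq_of_ne (Ne.symm h)]
      unfold mono gword
      rw [h4]
      simp
    rw [h3]
    exact D.X_mul_mono α i
  rw [D.pair_eq_zero_of_Fil hF _ h1, mul_zero]
  have := D.swt_erase hi
  omega

theorem exists_card {M : ℕ} (m : ℕ) (hM : M = (m + 1) * ∑ i, D.wt i + 1) (i : Fin d) :
    m < p ^ D.J i M := by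
  have h1 := D.J_spec i M
  have h2 : D.wt i ≤ ∑ i, D.wt i := Finset.single_le_sum (fun _ _ => Nat.zero_le _) (Finset.mem_univ i)
  have h3 := D.wt_pos i
  by_contra h
  rw [not_lt] at h
  have h4 : p ^ D.J i M * D.wt i ≤ m * D.wt i := Nat.mul_le_mul_right _ h
  have h5 : m * D.wt i ≤ (m + 1) * ∑ i, D.wt i := by nlinarith
  omega

theorem le_mwt (α : Fin d → ℕ) (i : Fin d) : α i ≤ D.mwt α := by
  have h1 : α i * D.wt i ≤ D.mwt α :=
    Finset.single_le_sum (f := fun i => α i * D.wt i) (fun _ _ => Nat.zero_le _)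
      (Finset.mem_univ i)
  have := D.wt_pos i
  nlinarith

/-- Coordinates concentrated in weight `m` can be realised. -/
theorem exists_co {m : ℕ} (c : (Fin d → ℕ) → Finset (Fin d) → ZMod p)
    (hc : ∀ α T, D.mwt α + D.swt T ≠ m → c α T = 0) :
    ∃ G ∈ D.Fil m, ∀ α T, co D G α T = c α T := by
  have h1 : ∀ T, ∃ f : U → ZMod p, D.Inv ((m + 1) * ∑ i, D.wt i + 1) f ∧
      ∀ α, pair f (D.mono α) = c α T := by
    intro T
    apply D.exists_pair_mono (by omega)
    intro α i h
    apply hc
    have := D.exists_card m rfl i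
    have := D.le_mwt α i
    omega
  choose G hG hG' using h1
  refine ⟨G, ⟨⟨_, hG⟩, fun T α h => ?_⟩, fun α T => hG' T α⟩
  rw [hG' T α]
  exact hc _ _ (by omega)

/-- A family all of whose coordinates vanish is zero. -/
theorem eq_zero_of_co {F : VV p d U} (hF : F ∈ D.NN) {T : Finset (Fin d)}
    (h : ∀ α, co D F α T = 0) : F T = 0 := by
  obtain ⟨M, hM⟩ := hF
  exact D.eq_zero_of_pair (hM T) h

theorem exists_Fil {F : VV p d U} (hF : F ∈ D.NN) : ∃ m, F ∈ D.Fil m := by
  have hF' := hF
  obtain ⟨M, hM⟩ := hF'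
  refine ⟨∑ i, p ^ D.J i M * D.wt i + ∑ i, D.wt i, hF, fun T α h => ?_⟩
  by_cases h1 : ∃ i, p ^ D.J i M ≤ α i
  · obtain ⟨i, hi⟩ := h1
    exact D.pair_mono_eq_zero (hM T) hi
  · push Not at h1
    exfalso
    have h2 : D.mwt α ≤ ∑ i, p ^ D.J i M * D.wt i :=
      Finset.sum_le_sum fun i _ => Nat.mul_le_mul_right _ (h1 i).le
    have h3 : D.swt T ≤ ∑ i, D.wt i :=
      Finset.sum_le_sum_of_subset (Finset.subset_univ T)
    omega

theorem pr_NN {F : VV p d U} (hF : F ∈ D.NN) (n : ℕ) : pr p d U n F ∈ D.NN := by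
  obtain ⟨M, hM⟩ := hF
  refine ⟨M, fun T u hu x => ?_⟩
  rw [pr_apply]
  split_ifs
  · exact hM T u hu x
  · rfl

theorem pr_Fil {m : ℕ} {F : VV p d U} (hF : F ∈ D.Fil m) (n : ℕ) : pr p d U n F ∈ D.Fil m := by
  refine ⟨D.pr_NN hF.1 n, fun T α h => ?_⟩
  rw [pr_apply]
  split_ifs
  · exact hF.2 T α h
  · exact pair_zero_left _

section good

variable {D}
variable {j : ℕ} {Φ : Finset (Fin d) → VV p d U →ₗ[ZMod p] ZMod p}

theorem Good.op_Fil (hΦ : D.Good j Φ) {m : ℕ} {F : VV p d U} (hF : F ∈ D.Fil m) :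
    op Φ F ∈ D.Fil m := by
  refine ⟨D.op_mem Φ hF.1, fun T α h => ?_⟩
  rw [pair_op]
  by_cases hT : j < T.card
  · rw [hΦ.zero T hT]; rfl
  rw [hΦ.symb T (not_lt.mp hT) _ (D.act_mono_Fil hF (by omega))]
  by_cases h0 : D.swt T = 0
  · have h1 : T = ∅ := by
      rw [Finset.eq_empty_iff_forall_notMem]
      intro i hi
      have h2 := D.swt_erase hi
      have h3 := D.wt_pos i
      omega
    rw [theta_apply, h1, Finset.sum_empty]
  · exact D.theta_of_lt (w := D.swt T - 1) (by omega) (D.act_mono_Fil hF (by omega))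

theorem Good.co_op (hΦ : D.Good j Φ) {m : ℕ} {F : VV p d U} (hF : F ∈ D.Fil m)
    {T : Finset (Fin d)} (hT : T.card ≤ j) {α : Fin d → ℕ} (h : D.mwt α + D.swt T = m) :
    co D (op Φ F) α T = del (co D F) α T := by
  unfold co
  rw [pair_op, hΦ.symb T hT _ (D.act_mono_Fil hF (by omega))]
  exact D.theta_act hF h

theorem Good.op_hom (hΦ : D.Good j Φ) {n : ℕ} {F : VV p d U} (hF : Hom n F) :
    Hom (n + 1) (op Φ F) := by
  intro S hS
  funext x
  rw [op_apply, ← hΦ.loc, pr_tau]
  have : pr p d U S.card F = 0 := by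
    funext T
    rw [pr_apply]
    split_ifs with h
    · exact hF T (by omega)
    · rfl
  rw [this, map_zero, map_zero]
  rfl

theorem Good.op_pr (hΦ : D.Good j Φ) (n : ℕ) (F : VV p d U) :
    op Φ (pr p d U n F) = pr p d U (n + 1) (op Φ F) := by
  funext S
  by_cases h : S.card + 1 = n + 1
  · rw [pr_of_eq h]
    funext x
    have h' : S.card = n := by omega
    rw [op_apply, op_apply, ← pr_tau, ← h', hΦ.loc]
  · rw [hΦ.op_hom (pr_hom n F) S h, pr_apply, if_neg h]

theorem Good.op_op (hΦ : D.Good j Φ) {F : VV p d U} (hF : F ∈ D.NN) : op Φ (op Φ F) = 0 := by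
  funext T x
  rw [op_apply, ← op_tau, hΦ.sq]
  · rfl
  · obtain ⟨M, hM⟩ := hF
    exact ⟨M, D.tau_mem hM x⁻¹⟩

theorem Good.step (hΦ : D.Good j Φ) {m n : ℕ} (hn : n ≤ j) {F : VV p d U}
    (hF : F ∈ D.Fil (m + 1)) (hom : Hom (n + 1) F)
    (hs : ∀ T α, T.card = n + 1 → D.mwt α + D.swt T = m + 1 → del (co D F) α T = 0) :
    ∃ G ∈ D.Fil (m + 1), Hom n G ∧ F - op Φ G ∈ D.Fil m := by
  classical
  let s : (Fin d → ℕ) → Finset (Fin d) → ZMod p := fun α T =>
    if D.mwt α + D.swt T = m + 1 then co D F α T else 0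
  have hwt : ∀ (α : Fin d → ℕ) (T : Finset (Fin d)) (i : Fin d), i ∈ T →
      D.mwt (α + eps i) + D.swt (T.erase i) = D.mwt α + D.swt T := by
    intro α T i hi
    rw [D.mwt_add_single, ← D.swt_erase hi]
    ring
  have hds : del s = 0 := by
    funext α T
    have h1 : del s α T = 0 := by
      by_cases h : D.mwt α + D.swt T = m + 1
      · have h2 : del s α T = del (co D F) α T := by
          unfold del
          apply Finset.sum_congr rfl
          intro i hi
          simp only [s]
          rw [if_pos (by rw [hwt α T i hi]; exact h)]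
        rw [h2]
        by_cases hT : T.card = n + 1
        · exact hs T α hT h
        · unfold del
          apply Finset.sum_eq_zero
          intro i hi
          unfold co
          rw [hom (T.erase i) (by rw [Finset.card_erase_add_one hi]; exact hT), pair_zero_left,
            mul_zero]
      · unfold del
        apply Finset.sum_eq_zero
        intro i hi
        simp only [s]
        rw [if_neg (by rw [hwt α T i hi]; exact h), mul_zero]
    exact h1
  have heta : ∀ (s' : (Fin d → ℕ) → Finset (Fin d) → ZMod p) α T, (∀ i, i ∉ T → α i ≠ 0 →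
      s' (α - eps i) (insert i T) = 0) → eta s' α T = 0 := by
    intro s' α T h
    unfold eta
    split_ifs with h1 h2
    · rfl
    · apply h _ h2
      have := Finset.min'_mem _ h1
      simp only [sup, Finset.mem_filter, Finset.mem_univ, true_and] at this
      tauto
    · rfl
  obtain ⟨G, hG, hG'⟩ := D.exists_co (m := m + 1) (eta s) (by
    intro α T h
    apply heta
    intro i hi hαi
    simp only [s]
    rw [if_neg]
    have h1 := hwt (α - eps i) (insert i T) i (Finset.mem_insert_self i T)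
    have h2 : α - eps i + eps i = α := by
      ext l
      by_cases hl : l = i
      · subst hl; simp; omega
      · simp [Pi.single_eq_of_ne hl]
    rw [h2, Finset.erase_insert hi] at h1
    omega)
  have hGhom : Hom n G := by
    intro S hS
    apply D.eq_zero_of_co hG.1
    intro α
    rw [hG']
    apply heta
    intro i hi _
    simp only [s]
    split_ifs
    · unfold co
      rw [hom, pair_zero_left]
      rw [Finset.card_insert_of_notMem hi]
      omega
    · rfl
  refine ⟨G, hG, hGhom, sub_mem hF.1 (D.op_mem Φ hG.1), fun T α h => ?_⟩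
  have h1 : pair ((F - op Φ G) T) (D.mono α) = co D F α T - co D (op Φ G) α T := by
    exact (pairₗ (D.mono α)).map_sub (F T) (op Φ G T)
  rw [h1]
  by_cases hm : D.mwt α + D.swt T = m + 1
  · by_cases hT : T.card ≤ j
    · rw [hΦ.co_op hG hT hm]
      have h2 : co D G = eta s := by
        funext α T
        exact hG' α T
      rw [h2]
      have h3 : (sup α T).Nonempty := by
        rw [Finset.nonempty_iff_ne_empty]
        intro h4
        have h5 : ∀ i, α i = 0 ∧ i ∉ T := by
          intro i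
          by_contra h6
          have : i ∈ sup α T := by
            simp only [sup, Finset.mem_filter, Finset.mem_univ, true_and]
            tauto
          rw [h4] at this
          exact absurd this (Finset.notMem_empty i)
        have h6 : D.mwt α = 0 := by
          unfold mwt
          exact Finset.sum_eq_zero fun i _ => by rw [(h5 i).1, zero_mul]
        have h7 : D.swt T = 0 := by
          unfold swt
          exact Finset.sum_eq_zero fun i hi => absurd hi (h5 i).2
        omega
      have h4 := del_eta_add s h3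
      rw [hds] at h4
      have h5 : eta (0 : (Fin d → ℕ) → Finset (Fin d) → ZMod p) α T = 0 :=
        heta 0 α T fun _ _ _ => rfl
      rw [h5, add_zero] at h4
      rw [h4]
      simp only [s]
      rw [if_pos hm, sub_self]
    · unfold co
      rw [hom T (by omega), hΦ.op_hom hGhom T (by omega), sub_self]
  · have h2 : co D F α T = 0 := hF.2 T α (by omega)
    have h3 : co D (op Φ G) α T = 0 := (hΦ.op_Fil hG).2 T α (by omega)
    rw [h2, h3, sub_self]

theorem Good.strict (hΦ : D.Good j Φ) {n w : ℕ} (hn : n + 1 ≤ j) (m : ℕ) :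
    ∀ F : VV p d U, F ∈ D.Fil (w + m) → Hom (n + 1) F → op Φ F ∈ D.Fil w →
      ∃ F' ∈ D.Fil w, Hom (n + 1) F' ∧ op Φ F' = op Φ F := by
  induction m with
  | zero => intro F hF hom _; exact ⟨F, hF, hom, rfl⟩
  | succ m ih =>
    intro F hF hom hD
    obtain ⟨G, hG, hGhom, hG'⟩ := hΦ.step (m := w + m) (by omega) hF hom (by
      intro T α hT h
      rw [← hΦ.co_op hF (by omega) h]
      exact hD.2 T α (by omega))
    have h1 : op Φ (F - op Φ G) = op Φ F := by
      rw [map_sub, hΦ.op_op hG.1, sub_zero]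
    have h2 : Hom (n + 1) (F - op Φ G) := by
      intro S hS
      rw [Pi.sub_apply, hom S hS, hΦ.op_hom hGhom S hS, sub_self]
    obtain ⟨F', hF', h3, h4⟩ := ih _ hG' h2 (by rw [h1]; exact hD)
    exact ⟨F', hF', h3, h4.trans h1⟩

theorem exists_functional {k V : Type*} [Field k] [AddCommGroup V] [Module k V]
    (R W : Submodule k V) (θ : V →ₗ[k] k) (h : ∀ x ∈ R, x ∈ W → θ x = 0) :
    ∃ χ : V →ₗ[k] k, (∀ x ∈ W, χ x = 0) ∧ ∀ x ∈ R, χ x = θ x := by
  let f : R →ₗ[k] V ⧸ W := W.mkQ ∘ₗ R.subtype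
  have hker : LinearMap.ker f ≤ LinearMap.ker (θ ∘ₗ R.subtype) := by
    intro x hx
    rw [LinearMap.mem_ker] at hx ⊢
    apply h _ x.2
    simpa [f] using hx
  let g : LinearMap.range f →ₗ[k] k :=
    ((LinearMap.ker f).liftQ (θ ∘ₗ R.subtype) hker) ∘ₗ f.quotKerEquivRange.symm.toLinearMap
  obtain ⟨g', hg'⟩ := g.exists_extend
  refine ⟨g' ∘ₗ W.mkQ, ?_, ?_⟩
  · intro x hx
    rw [LinearMap.comp_apply, Submodule.mkQ_apply, (Submodule.Quotient.mk_eq_zero W).mpr hx,
      map_zero]
  · intro x hx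
    have h1 : f ⟨x, hx⟩ = W.mkQ x := rfl
    have h2 : g' (f ⟨x, hx⟩) = g ⟨f ⟨x, hx⟩, LinearMap.mem_range_self _ _⟩ := by
      rw [← hg']; rfl
    rw [LinearMap.comp_apply, ← h1, h2]
    have h3 : f.quotKerEquivRange.symm ⟨f ⟨x, hx⟩, LinearMap.mem_range_self _ _⟩ =
        Submodule.Quotient.mk ⟨x, hx⟩ := by
      rw [LinearEquiv.symm_apply_eq]
      rfl
    simp only [g, LinearMap.comp_apply, LinearEquiv.coe_coe, h3]
    rfl

theorem Good.exists_psi (hΦ : D.Good j Φ) (T : Finset (Fin d)) (hT : T.card = j + 1) :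
    ∃ ψ : VV p d U →ₗ[ZMod p] ZMod p, (∀ F, ψ (pr p d U (j + 1) F) = ψ F) ∧
      (∀ F ∈ D.Fil (D.swt T), ψ F = theta D T F) ∧ ∀ F ∈ D.NN, ψ (op Φ F) = 0 := by
  obtain ⟨χ, h1, h2⟩ := exists_functional (D.NN.map (pr p d U (j + 1) ∘ₗ op Φ)) (D.Fil (D.swt T))
    (theta D T) (by
      rintro _ ⟨F, hF, rfl⟩ hG
      rw [LinearMap.comp_apply] at hG ⊢
      match j, hΦ, hT, hG with
      | 0, hΦ, hT, hG =>
        have h3 : pr p d U (0 + 1) (op Φ F) = 0 := by
          rw [← hΦ.op_pr]
          have : pr p d U 0 F = 0 := by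
            funext S
            rw [pr_apply, if_neg (Nat.succ_ne_zero _)]
            rfl
          rw [this, map_zero]
        rw [h3, map_zero]
      | n + 1, hΦ, hT, hG =>
        rw [← hΦ.op_pr] at hG ⊢
        obtain ⟨m, hm⟩ := D.exists_Fil (D.pr_NN hF (n + 1))
        obtain ⟨F', hF', h3, h4⟩ := hΦ.strict le_rfl m _
          (D.Fil_anti (show m ≤ D.swt T + m by omega) hm) (pr_hom _ _) hG
        rw [← h4, theta_apply, ← del_del (co D F') 0 T]
        unfold del
        apply Finset.sum_congr rfl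
        intro i hi
        have h5 : D.mwt (eps i) + D.swt (T.erase i) = D.swt T := by
          rw [D.mwt_eps, add_comm]
          exact D.swt_erase hi
        have h6 := Finset.card_erase_add_one hi
        have := hΦ.co_op hF' (T := T.erase i) (by omega) h5
        unfold co del at this
        rw [this, zero_add]
        rfl)
  refine ⟨(theta D T - χ) ∘ₗ pr p d U (j + 1), ?_, ?_, ?_⟩
  · intro F
    rw [LinearMap.comp_apply, LinearMap.comp_apply, pr_of_hom (pr_hom _ _)]
  · intro F hF
    rw [LinearMap.comp_apply, LinearMap.sub_apply, h1 _ (D.pr_Fil hF _), sub_zero, ← hT, theta_pr]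
  · intro F hF
    rw [LinearMap.comp_apply, LinearMap.sub_apply, sub_eq_zero]
    exact (h2 _ ⟨F, hF, rfl⟩).symm

theorem Good.exists_succ (hΦ : D.Good j Φ) : ∃ Φ', D.Good (j + 1) Φ' := by
  classical
  choose ψ hψ using fun T : {T : Finset (Fin d) // T.card = j + 1} => hΦ.exists_psi T.1 T.2
  let Φ' : Finset (Fin d) → VV p d U →ₗ[ZMod p] ZMod p := fun T =>
    if h : T.card = j + 1 then ψ ⟨T, h⟩ else Φ T
  have e1 : ∀ T (h : T.card = j + 1), Φ' T = ψ ⟨T, h⟩ := fun T h => dif_pos h
  have e2 : ∀ T, T.card ≠ j + 1 → Φ' T = Φ T := fun T h => dif_neg h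
  have e3 : ∀ n F, n ≤ j + 1 → pr p d U n (op Φ' F) = pr p d U n (op Φ F) := by
    intro n F hn
    funext S
    rw [pr_apply, pr_apply]
    split_ifs with h
    · funext x
      rw [op_apply, op_apply, e2 S (by omega)]
    · rfl
  refine ⟨Φ', ?_, ?_, ?_, ?_⟩
  · intro T h
    rw [e2 T (by omega)]
    exact hΦ.zero T (by omega)
  · intro T F
    by_cases h : T.card = j + 1
    · rw [e1 T h, h]
      exact (hψ ⟨T, h⟩).1 F
    · rw [e2 T h]
      exact hΦ.loc T F
  · intro T h F hF
    by_cases h' : T.card = j + 1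
    · rw [e1 T h']
      exact (hψ ⟨T, h'⟩).2.1 F hF
    · rw [e2 T h']
      exact hΦ.symb T (by omega) F hF
  · intro T F hF
    by_cases h : T.card = j + 1
    · rw [e1 T h, ← (hψ ⟨T, h⟩).1, e3 _ _ le_rfl, (hψ ⟨T, h⟩).1]
      exact (hψ ⟨T, h⟩).2.2 F hF
    · rw [e2 T h]
      by_cases h1 : j < T.card
      · rw [hΦ.zero T h1]; rfl
      · rw [← hΦ.loc, e3 _ _ (by omega), hΦ.loc]
        exact hΦ.sq T F hF

variable (D) in
theorem exists_good (j : ℕ) : ∃ Φ, D.Good j Φ := by
  induction j with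
  | zero =>
    refine ⟨0, fun _ _ => rfl, fun _ _ => rfl, ?_, fun _ _ _ => rfl⟩
    intro T hT F _
    have : T = ∅ := Finset.card_eq_zero.mp (Nat.le_zero.mp hT)
    rw [this, theta_apply, Finset.sum_empty]
    rfl
  | succ j ih =>
    obtain ⟨Φ, hΦ⟩ := ih
    exact hΦ.exists_succ

/-- Exactness. -/
theorem Good.exact (hΦ : D.Good j Φ) {n : ℕ} (hn : n ≤ j) (m : ℕ)
    (hj : n < j ∨ d ≤ j) :
    ∀ F : VV p d U, F ∈ D.Fil m → Hom (n + 1) F → op Φ F = 0 →
      ∃ G ∈ D.NN, Hom n G ∧ F - op Φ G ∈ D.Fil 0 := by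
  induction m with
  | zero =>
    intro F hF _ _
    exact ⟨0, zero_mem _, fun _ _ => rfl, by rw [map_zero, sub_zero]; exact hF⟩
  | succ m ih =>
    intro F hF hom hD
    obtain ⟨G, hG, hGhom, hG'⟩ := hΦ.step hn hF hom (by
      intro T α hT h
      have hTj : T.card ≤ j := by
        rcases hj with h1 | h1
        · omega
        · exact (Finset.card_le_univ T).trans (by simpa using h1)
      rw [← hΦ.co_op hF hTj h, hD]
      exact pair_zero_left _)
    have h1 : op Φ (F - op Φ G) = 0 := by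
      rw [map_sub, hΦ.op_op hG.1, sub_zero, hD]
    have h2 : Hom (n + 1) (F - op Φ G) := by
      intro S hS
      rw [Pi.sub_apply, hom S hS, hΦ.op_hom hGhom S hS, sub_self]
    obtain ⟨G', h3, h4, h5⟩ := ih _ hG' h2 h1
    refine ⟨G + G', add_mem hG.1 h3, fun S hS => ?_, ?_⟩
    · rw [Pi.add_apply, hGhom S hS, h4 S hS, add_zero]
    · rw [map_add, ← sub_sub]
      exact h5

end good

end NpData

end Vale.Agent.P251.C
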