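import Vale.Agent.P251.C.TensorInd
import Vale.Agent.P251.C.Basic

/-!
P251, part C3: tensor induction, group action.

`IndSp U X` is the tensor induced space of a `U`-space `X`: the functions `S ⧸ U → X` with the
action of `S` given by coset representatives. `JMod` are the terms of the tensor induced
resolution, as `S`-modules.
-/

open Topology Function

set_option linter.unusedSectionVars false

namespace Vale.Agent.P251.C

/-! ### invariant tournaments -/

section tournament
variable (S : Type*) [Group S] (Q : Type*) [MulAction S Q]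

/-- the tournament given by a well-ordering of the orbits of pairs -/
def orbTour (c e : Q) : Prop :=
  WellOrderingRel (Quotient.mk (MulAction.orbitRel S (Q × Q)) (c, e))
    (Quotient.mk (MulAction.orbitRel S (Q × Q)) (e, c))

theorem orbTour_smul (g : S) (c e : Q) : orbTour S Q c e ↔ orbTour S Q (g • c) (g • e) := by
  have h : ∀ a b : Q, (Quotient.mk (MulAction.orbitRel S (Q × Q)) (g • a, g • b)) =
      Quotient.mk (MulAction.orbitRel S (Q × Q)) (a, b) := fun a b =>
    Quotient.sound ⟨g, rfl⟩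
  unfold orbTour
  rw [h, h]

theorem orbTour_isTournament (hns : ∀ (g : S) (c e : Q), g • c = e → g • e = c → c = e) :
    IsTournament (orbTour S Q) := by
  have hne : ∀ c e : Q, c ≠ e → Quotient.mk (MulAction.orbitRel S (Q × Q)) (c, e) ≠
      Quotient.mk (MulAction.orbitRel S (Q × Q)) (e, c) := by
    intro c e hce h
    obtain ⟨g, hg⟩ := Quotient.exact h
    have h1 : g • e = c := congrArg Prod.fst hg
    have h2 : g • c = e := congrArg Prod.snd hg
    exact hce (hns g c e h2 h1)
  refine ⟨fun c => ?_, fun c e hce => ?_⟩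
  · exact irrefl_of (WellOrderingRel) _
  · constructor
    · intro h h'
      exact asymm_of WellOrderingRel h h'
    · intro h
      rcases trichotomous_of WellOrderingRel
        (Quotient.mk (MulAction.orbitRel S (Q × Q)) (c, e))
        (Quotient.mk (MulAction.orbitRel S (Q × Q)) (e, c)) with h1 | h1 | h1
      · exact h1
      · exact absurd h1 (hne c e hce)
      · exact absurd h1 h

end tournament

/-- a normal subgroup of odd index has no swaps on the cosets -/
theorem noSwap {S : Type*} [Group S] (U : Subgroup S) [U.Normal] (hodd : Odd (Nat.card (S ⧸ U)))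
    (g : S) (c e : S ⧸ U) (h1 : g • c = e) (h2 : g • e = c) : c = e := by
  obtain ⟨a, rfl⟩ := QuotientGroup.mk_surjective c
  have h3 : ((g : S) : S ⧸ U) * (g : S ⧸ U) = 1 := by
    have h4 : g • g • (a : S ⧸ U) = a := by rw [h1, h2]
    have h5 : ((g * (g * a) : S) : S ⧸ U) = a := h4
    have h6 : ((g : S) : S ⧸ U) * ((g : S ⧸ U) * (a : S ⧸ U)) = a := h5
    rw [← mul_assoc] at h6
    exact mul_eq_right.1 h6
  have h7 : ((g : S) : S ⧸ U) = 1 := by
    have h8 : orderOf ((g : S) : S ⧸ U) ∣ 2 := orderOf_dvd_of_pow_eq_one (by rw [pow_two]; exact h3)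
    have h9 : orderOf ((g : S) : S ⧸ U) ∣ Nat.card (S ⧸ U) := orderOf_dvd_natCard _
    have h10 : orderOf ((g : S) : S ⧸ U) ∣ Nat.gcd 2 (Nat.card (S ⧸ U)) := Nat.dvd_gcd h8 h9
    have h11 : Nat.gcd 2 (Nat.card (S ⧸ U)) = 1 := by
      rw [Nat.Coprime.gcd_eq_one]
      exact (Nat.coprime_two_left).2 hodd
    rw [h11, Nat.dvd_one] at h10
    exact orderOf_eq_one_iff.1 h10
  rw [← h1]
  show (a : S ⧸ U) = ((g * a : S) : S ⧸ U)
  have h12 : ((g * a : S) : S ⧸ U) = (g : S ⧸ U) * (a : S ⧸ U) := rfl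
  rw [h12, h7, one_mul]

/-! ### the induced space -/

/-- The tensor induced space. -/
def IndSp {S : Type*} [Group S] (U : Subgroup S) (X : Type*) : Type _ := S ⧸ U → X

/-- the underlying function -/
def IndSp.fn {S : Type*} [Group S] {U : Subgroup S} {X : Type*} (x : IndSp U X) : S ⧸ U → X := x

/-- constructor -/
def IndSp.mk {S : Type*} [Group S] {U : Subgroup S} {X : Type*} (x : S ⧸ U → X) : IndSp U X := x

section indsp
variable {S : Type*} [Group S] {U : Subgroup S} {X : Type*}

theorem IndSp.fn_mk (x : S ⧸ U → X) : (IndSp.mk x : IndSp U X).fn = x := rfl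

theorem IndSp.mk_fn (x : IndSp U X) : IndSp.mk x.fn = x := rfl

theorem IndSp.ext {x y : IndSp U X} (h : ∀ c, x.fn c = y.fn c) : x = y := funext h

instance [TopologicalSpace X] : TopologicalSpace (IndSp U X) :=
  inferInstanceAs (TopologicalSpace (S ⧸ U → X))

theorem IndSp.continuous_fn [TopologicalSpace X] :
    Continuous (IndSp.fn : IndSp U X → (S ⧸ U → X)) := continuous_id

theorem IndSp.continuous_mk [TopologicalSpace X] :
    Continuous (IndSp.mk : (S ⧸ U → X) → IndSp U X) := continuous_id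

instance [TopologicalSpace X] [CompactSpace X] : CompactSpace (IndSp U X) :=
  inferInstanceAs (CompactSpace (S ⧸ U → X))

instance [TopologicalSpace X] [T2Space X] : T2Space (IndSp U X) :=
  inferInstanceAs (T2Space (S ⧸ U → X))

instance [TopologicalSpace X] [TotallyDisconnectedSpace X] :
    TotallyDisconnectedSpace (IndSp U X) :=
  inferInstanceAs (TotallyDisconnectedSpace (S ⧸ U → X))

variable (U) in
/-- the cocycle of coset representatives -/
noncomputable def cos (g : S) (c : S ⧸ U) : U :=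
  ⟨(Quotient.out c)⁻¹ * (g * Quotient.out (g⁻¹ • c)), by
    rw [← QuotientGroup.eq]
    have h1 : (((Quotient.out c : S)) : S ⧸ U) = c := QuotientGroup.out_eq' c
    have h2 : ((g * Quotient.out (g⁻¹ • c) : S) : S ⧸ U) = g • (g⁻¹ • c) := by
      conv_rhs => rw [← QuotientGroup.out_eq' (g⁻¹ • c)]
      rfl
    rw [h1, h2, smul_inv_smul]⟩

theorem cos_one (c : S ⧸ U) : cos U 1 c = 1 := by
  apply Subtype.ext
  show (Quotient.out c)⁻¹ * (1 * Quotient.out ((1 : S)⁻¹ • c)) = 1
  rw [inv_one, one_smul, one_mul, inv_mul_cancel]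

theorem cos_mul (g h : S) (c : S ⧸ U) : cos U (g * h) c = cos U g c * cos U h (g⁻¹ • c) := by
  apply Subtype.ext
  show (Quotient.out c)⁻¹ * (g * h * Quotient.out ((g * h)⁻¹ • c)) =
    (Quotient.out c)⁻¹ * (g * Quotient.out (g⁻¹ • c)) *
      ((Quotient.out (g⁻¹ • c))⁻¹ * (h * Quotient.out (h⁻¹ • g⁻¹ • c)))
  rw [mul_inv_rev, mul_smul]
  group

variable [MulAction U X]

noncomputable instance : SMul S (IndSp U X) where
  smul g x := IndSp.mk fun c => cos U g c • x.fn (g⁻¹ • c)

theorem IndSp.smul_fn (g : S) (x : IndSp U X) (c : S ⧸ U) :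
    (g • x).fn c = cos U g c • x.fn (g⁻¹ • c) := rfl

noncomputable instance : MulAction S (IndSp U X) where
  one_smul x := by
    refine IndSp.ext fun c => ?_
    rw [IndSp.smul_fn, cos_one, one_smul, inv_one, one_smul]
  mul_smul g h x := by
    refine IndSp.ext fun c => ?_
    rw [IndSp.smul_fn, IndSp.smul_fn, IndSp.smul_fn, cos_mul, mul_smul, mul_inv_rev, mul_smul]

theorem IndSp.smul_update [DecidableEq (S ⧸ U)] (g : S) (x : S ⧸ U → X) (c : S ⧸ U) (z : X) :
    (g • (IndSp.mk (Function.update x c z) : IndSp U X)).fn =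
      Function.update (g • (IndSp.mk x : IndSp U X)).fn (g • c) (cos U g (g • c) • z) := by
  funext e
  rw [IndSp.smul_fn, IndSp.fn_mk]
  by_cases h : e = g • c
  · subst h
    rw [Function.update_self, inv_smul_smul, Function.update_self]
  · rw [Function.update_of_ne h, IndSp.smul_fn, IndSp.fn_mk, Function.update_of_ne]
    intro h'
    apply h
    rw [← h', smul_inv_smul]

theorem continuousSMul_indSp [TopologicalSpace S] [IsTopologicalGroup S] [TopologicalSpace X]
    [ContinuousSMul U X] (hU : IsOpen (U : Set S)) : ContinuousSMul S (IndSp U X) := by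
  refine ⟨?_⟩
  refine IndSp.continuous_mk.comp (continuous_pi fun c => ?_)
  show Continuous fun z : S × IndSp U X => cos U z.1 c • z.2.fn (z.1⁻¹ • c)
  have hlc : IsLocallyConstant fun g : S => g⁻¹ • c := by
    have : DiscreteTopology (S ⧸ U) := QuotientGroup.discreteTopology hU
    rw [IsLocallyConstant.iff_continuous]
    obtain ⟨a, rfl⟩ := QuotientGroup.mk_surjective c
    have h1 : (fun g : S => g⁻¹ • (a : S ⧸ U)) = fun g : S => ((g⁻¹ * a : S) : S ⧸ U) := rfl
    rw [h1]
    exact QuotientGroup.continuous_mk.comp (by fun_prop)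
  have h1 : Continuous fun z : S × IndSp U X => cos U z.1 c := by
    refine Continuous.comp (g := fun g : S => cos U g c) ?_ continuous_fst
    refine continuous_induced_rng.2 ?_
    show Continuous fun g : S => (Quotient.out c)⁻¹ * (g * Quotient.out (g⁻¹ • c))
    have h2 : IsLocallyConstant fun g : S => (Quotient.out (g⁻¹ • c) : S) := hlc.comp Quotient.out
    exact continuous_const.mul (continuous_id.mul h2.continuous)
  have h2 : Continuous fun z : S × IndSp U X => z.2.fn (z.1⁻¹ • c) := by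
    rw [continuous_iff_continuousAt]
    rintro ⟨g, x⟩
    have h3 : ∀ᶠ z : S × IndSp U X in 𝓝 (g, x), z.1⁻¹ • c = g⁻¹ • c :=
      (continuous_fst.tendsto (g, x)).eventually
        ((IsLocallyConstant.iff_eventually_eq _).1 hlc g)
    have h4 : ContinuousAt (fun z : S × IndSp U X => z.2.fn (g⁻¹ • c)) (g, x) := by
      refine Continuous.continuousAt ?_
      exact ((continuous_apply (g⁻¹ • c)).comp IndSp.continuous_fn).comp continuous_snd
    refine h4.congr ?_
    filter_upwards [h3] with z hz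
    rw [hz]
  exact h1.smul h2

/-- if `U` is normal and acts freely, then the stabilizers meet `U` trivially -/
theorem stab_inf [U.Normal] (hfree : ∀ (u : U) (z : X), u • z = z → u = 1) (x : IndSp U X)
    {g : S} (hg : g ∈ U) (hx : g • x = x) : g = 1 := by
  have h0 : g⁻¹ • ((1 : S) : S ⧸ U) = ((1 : S) : S ⧸ U) := by
    show ((g⁻¹ * 1 : S) : S ⧸ U) = ((1 : S) : S ⧸ U)
    rw [QuotientGroup.eq]
    simpa using hg
  have h1 : (g • x).fn ((1 : S) : S ⧸ U) = x.fn ((1 : S) : S ⧸ U) := by rw [hx]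
  rw [IndSp.smul_fn, h0] at h1
  have h3 := congrArg Subtype.val (hfree _ _ h1)
  have h4 : (Quotient.out ((1 : S) : S ⧸ U))⁻¹ *
      (g * Quotient.out (g⁻¹ • ((1 : S) : S ⧸ U))) = 1 := h3
  rw [h0, inv_mul_eq_one] at h4
  exact mul_eq_right.1 h4.symm

theorem finite_stab [U.Normal] [Finite (S ⧸ U)]
    (hfree : ∀ (u : U) (z : X), u • z = z → u = 1) (x : IndSp U X) :
    Finite (MulAction.stabilizer S x) := by
  refine Finite.of_injective (fun g : MulAction.stabilizer S x => ((g : S) : S ⧸ U)) ?_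
  intro g h hgh
  have h1 : (g : S)⁻¹ * h ∈ U := QuotientGroup.eq.1 hgh
  have h2 : ((g : S)⁻¹ * h) • x = x := by
    rw [mul_smul, h.2, inv_smul_eq_iff, g.2]
  have h3 := stab_inf hfree x h1 h2
  apply Subtype.ext
  exact inv_mul_eq_one.1 h3

end indsp

/-! ### the terms of the tensor induced resolution -/

section jmod
variable {R : Type*} [CommRing R] {S : Type*} [Group S] (U : Subgroup S) [Fintype (S ⧸ U)]
  {X : Type*} [TopologicalSpace X] [CompactSpace X] (ρ : ResData R X)
  (M : Type*) [AddCommGroup M]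

/-- the total degree -/
def ideg (x : IndSp U X) : ℕ := tdeg ρ x.fn

theorem ideg_isLocallyConstant : IsLocallyConstant (ideg U ρ) :=
  (tdeg_isLocallyConstant (Q := S ⧸ U) ρ).comp_continuous IndSp.continuous_fn

/-- the terms of the tensor induced resolution -/
def JMod (j : ℕ) : AddSubgroup (LC (IndSp U X) M) where
  carrier := {F | ∀ x, ideg U ρ x ≠ j → F x = 0}
  add_mem' := by
    intro F G hF hG x hx
    rw [LC.add_apply, hF x hx, hG x hx, add_zero]
  zero_mem' := fun _ _ => rfl
  neg_mem' := by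
    intro F hF x hx
    rw [LC.neg_apply, hF x hx, neg_zero]

variable {U M}

theorem mem_JMod {j : ℕ} {F : LC (IndSp U X) M} :
    F ∈ JMod U ρ M j ↔ ∀ x, ideg U ρ x ≠ j → F x = 0 := Iff.rfl

/-- the projection to the functions of total degree `j` -/
def cmpJ (U : Subgroup S) [Fintype (S ⧸ U)] (M : Type*) [AddCommGroup M]
    (j : ℕ) : LC (IndSp U X) M →+ LC (IndSp U X) M where
  toFun F := LC.mk (fun x => if ideg U ρ x = j then F x else 0)
    (IsLocallyConstant.comp₂ (ideg_isLocallyConstant U ρ) F.isLocallyConstant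
      fun n a => if n = j then a else 0)
  map_zero' := by ext x; simp
  map_add' F G := by
    ext x
    simp only [LC.mk_apply, LC.add_apply]
    split_ifs <;> simp

theorem cmpJ_apply (j : ℕ) (F : LC (IndSp U X) M) (x : IndSp U X) :
    cmpJ ρ U M j F x = if ideg U ρ x = j then F x else 0 := rfl

theorem cmpJ_mem (j : ℕ) (F : LC (IndSp U X) M) : cmpJ ρ U M j F ∈ JMod U ρ M j :=
  fun x hx => by rw [cmpJ_apply, if_neg hx]

theorem cmpJ_of_mem {j : ℕ} {F : LC (IndSp U X) M} (hF : F ∈ JMod U ρ M j) :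
    cmpJ ρ U M j F = F := by
  ext x
  rw [cmpJ_apply]
  split_ifs with h
  · rfl
  · exact (hF x h).symm

/-! #### comparison with functions on `S ⧸ U → X` -/

/-- a function on the induced space as a function on `S ⧸ U → X` -/
def toPi (F : LC (IndSp U X) M) : LocallyConstant (S ⧸ U → X) M :=
  ⟨fun x => F (IndSp.mk x), F.isLocallyConstant.comp_continuous IndSp.continuous_mk⟩

/-- a function on `S ⧸ U → X` as a function on the induced space -/
def ofPi (F : LocallyConstant (S ⧸ U → X) M) : LC (IndSp U X) M :=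
  LC.mk (fun x => F x.fn) (F.isLocallyConstant.comp_continuous IndSp.continuous_fn)

theorem toPi_apply (F : LC (IndSp U X) M) (x : S ⧸ U → X) : toPi F x = F (IndSp.mk x) := rfl

theorem ofPi_apply (F : LocallyConstant (S ⧸ U → X) M) (x : IndSp U X) :
    ofPi F x = F x.fn := rfl

theorem ofPi_toPi (F : LC (IndSp U X) M) : ofPi (toPi F) = F := rfl

theorem toPi_ofPi (F : LocallyConstant (S ⧸ U → X) M) : toPi (ofPi (U := U) F) = F := rfl

theorem toPi_add (F G : LC (IndSp U X) M) : toPi (F + G) = toPi F + toPi G := rfl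

theorem toPi_zero : toPi (0 : LC (IndSp U X) M) = 0 := rfl

theorem toPi_mem [Module R M] {j : ℕ} {F : LC (IndSp U X) M} :
    toPi F ∈ JJ M ρ (S ⧸ U) j ↔ F ∈ JMod U ρ M j := Iff.rfl

theorem ofPi_mem [Module R M] {j : ℕ} {F : LocallyConstant (S ⧸ U → X) M} :
    ofPi F ∈ JMod U ρ M j ↔ F ∈ JJ M ρ (S ⧸ U) j := Iff.rfl

/-- the augmentation of the tensor induced resolution -/
noncomputable def augJ (U : Subgroup S) [Fintype (S ⧸ U)] (M : Type*) [AddCommGroup M] :
    M →+ LC (IndSp U X) M where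
  toFun m := LC.mk (fun x => if ideg U ρ x = 0 then m else 0)
    ((ideg_isLocallyConstant U ρ).comp fun n => if n = 0 then m else 0)
  map_zero' := by ext x; simp
  map_add' m m' := by
    ext x
    simp only [LC.mk_apply, LC.add_apply]
    split_ifs <;> simp

theorem augJ_apply (m : M) (x : IndSp U X) :
    augJ ρ U M m x = if ideg U ρ x = 0 then m else 0 := rfl

theorem augJ_mem (m : M) : augJ ρ U M m ∈ JMod U ρ M 0 := fun x hx => by
  rw [augJ_apply, if_neg hx]

theorem map_augJ {N : Type*} [AddCommGroup N] (u : M →+ N) (m : M) :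
    LC.map (IndSp U X) u (augJ ρ U M m) = augJ ρ U N (u m) := by
  ext x
  rw [LC.map_apply, augJ_apply, augJ_apply]
  split_ifs
  · rfl
  · rw [map_zero]

theorem map_mem_JMod {N : Type*} [AddCommGroup N] (u : M →+ N) {j : ℕ} {F : LC (IndSp U X) M}
    (hF : F ∈ JMod U ρ M j) : LC.map (IndSp U X) u F ∈ JMod U ρ N j := fun x hx => by
  rw [LC.map_apply, hF x hx, map_zero]

/-- the degrees are bounded -/
theorem JMod_eq_bot {d : ℕ} (hd : ∀ x, ρ.deg x ≤ d) {j : ℕ} (hj : d * Fintype.card (S ⧸ U) < j)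
    {F : LC (IndSp U X) M} (hF : F ∈ JMod U ρ M j) : F = 0 := by
  ext x
  refine hF x ?_
  have h1 : ideg U ρ x ≤ d * Fintype.card (S ⧸ U) := by
    unfold ideg tdeg
    calc ∑ c, ρ.deg (x.fn c) ≤ ∑ _c : S ⧸ U, d := Finset.sum_le_sum fun c _ => hd _
      _ = _ := by rw [Finset.sum_const, Finset.card_univ, smul_eq_mul, mul_comm]
  omega

section dJ

variable [Module R M]

/-- the differential of the tensor induced resolution -/
noncomputable def dJ (U : Subgroup S) [Fintype (S ⧸ U)] (M : Type*) [AddCommGroup M]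
    [Module R M] : LC (IndSp U X) M →+ LC (IndSp U X) M :=
  letI := Classical.decEq (S ⧸ U)
  { toFun := fun F => ofPi (DD ρ (orbTour S (S ⧸ U)) (toPi F))
    map_zero' := by
      rw [toPi_zero, map_zero]
      rfl
    map_add' := fun F G => by
      rw [toPi_add, map_add]
      rfl }

theorem dJ_apply (F : LC (IndSp U X) M) : dJ ρ U M F =
    letI := Classical.decEq (S ⧸ U)
    ofPi (DD ρ (orbTour S (S ⧸ U)) (toPi F)) := rfl

theorem dJ_mem {j : ℕ} {F : LC (IndSp U X) M} (hF : F ∈ JMod U ρ M j) :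
    dJ ρ U M F ∈ JMod U ρ M (j + 1) := by
  let _ := Classical.decEq (S ⧸ U)
  exact (ofPi_mem ρ).2 (DD_mem ρ ((toPi_mem ρ).2 hF))

theorem dJ_augJ (m : M) : dJ ρ U M (augJ ρ U M m) = 0 := by
  let _ := Classical.decEq (S ⧸ U)
  have h1 : toPi (augJ ρ U M m) = aug ρ m := rfl
  rw [dJ_apply, h1, DD_aug]
  rfl

theorem dJ_map {N : Type*} [AddCommGroup N] [Module R N] (u : M →ₗ[R] N) (F : LC (IndSp U X) M) :
    dJ ρ U N (LC.map (IndSp U X) u.toAddMonoidHom F) =
      LC.map (IndSp U X) u.toAddMonoidHom (dJ ρ U M F) := by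
  let _ := Classical.decEq (S ⧸ U)
  have h1 : toPi (LC.map (IndSp U X) u.toAddMonoidHom F) = (toPi F).map u := rfl
  rw [dJ_apply, dJ_apply, h1, DD_map]
  rfl

theorem augJ_injective (R : Type*) [CommRing R] [Module R M] (ρ : ResData R X) :
    Function.Injective (augJ ρ U M) := by
  let _ := Classical.decEq (S ⧸ U)
  intro a b hab
  refine aug_injective (Q := S ⧸ U) ρ ?_
  exact congrArg toPi hab

variable (hns : ∀ (g : S) (c e : S ⧸ U), g • c = e → g • e = c → c = e)
include hns

theorem dJ_dJ (F : LC (IndSp U X) M) : dJ ρ U M (dJ ρ U M F) = 0 := by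
  let _ := Classical.decEq (S ⧸ U)
  rw [dJ_apply, dJ_apply, toPi_ofPi, DD_DD ρ (orbTour_isTournament S (S ⧸ U) hns)]
  rfl

theorem exactJ_pos {j : ℕ} {F : LC (IndSp U X) M} (hF : F ∈ JMod U ρ M (j + 1))
    (hD : dJ ρ U M F = 0) : ∃ G ∈ JMod U ρ M j, dJ ρ U M G = F := by
  let _ := Classical.decEq (S ⧸ U)
  have h0 : DD ρ (orbTour S (S ⧸ U)) (toPi F) = 0 := by
    have := congrArg toPi hD
    rw [dJ_apply, toPi_ofPi] at this
    exact this
  obtain ⟨G, hG, hGF⟩ := exact_pos ρ (orbTour_isTournament S (S ⧸ U) hns)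
    ((toPi_mem ρ).2 hF) h0
  refine ⟨ofPi G, (ofPi_mem ρ).2 hG, ?_⟩
  rw [dJ_apply, toPi_ofPi, hGF, ofPi_toPi]

theorem exactJ_zero {F : LC (IndSp U X) M} (hF : F ∈ JMod U ρ M 0)
    (hD : dJ ρ U M F = 0) : ∃ m, augJ ρ U M m = F := by
  let _ := Classical.decEq (S ⧸ U)
  have h0 : DD ρ (orbTour S (S ⧸ U)) (toPi F) = 0 := by
    have := congrArg toPi hD
    rw [dJ_apply, toPi_ofPi] at this
    exact this
  obtain ⟨m, hm⟩ := exact_zero ρ (orbTour_isTournament S (S ⧸ U) hns)
    ((toPi_mem ρ).2 hF) h0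
  refine ⟨m, ?_⟩
  have h1 : toPi (augJ ρ U M m) = aug ρ m := rfl
  rw [← ofPi_toPi (augJ ρ U M m), h1, hm, ofPi_toPi]

end dJ

/-- compatibility of the resolution data with an action of a group on the space -/
structure Equi (U : Type*) [Group U] [MulAction U X] [ContinuousConstSMul U X] : Prop where
  deg : ∀ (u : U) z, ρ.deg (u • z) = ρ.deg z
  d : ∀ (u : U) (f : LocallyConstant X R), ρ.d (f.comap ⟨fun z => u • z, continuous_const_smul u⟩) =
    (ρ.d f).comap ⟨fun z => u • z, continuous_const_smul u⟩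

variable [MulAction U X] [ContinuousConstSMul U X]

theorem ideg_smul (hρ : Equi ρ U) (g : S) (x : IndSp U X) : ideg U ρ (g • x) = ideg U ρ x := by
  unfold ideg tdeg
  rw [← Equiv.sum_comp (MulAction.toPerm g : Equiv.Perm (S ⧸ U))]
  refine Finset.sum_congr rfl fun c _ => ?_
  show ρ.deg ((g • x).fn (g • c)) = _
  rw [IndSp.smul_fn, hρ.deg, inv_smul_smul]

variable [TopologicalSpace S] [ContinuousConstSMul S (IndSp U X)] [DistribMulAction S M]

theorem smul_mem_JMod (hρ : Equi ρ U) {j : ℕ} (g : S) {F : LC (IndSp U X) M}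
    (hF : F ∈ JMod U ρ M j) : g • F ∈ JMod U ρ M j := by
  intro x hx
  rw [LC.smul_apply, hF, smul_zero]
  rwa [ideg_smul ρ hρ]

theorem cmpJ_smul (hρ : Equi ρ U) (j : ℕ) (g : S) (F : LC (IndSp U X) M) :
    cmpJ ρ U M j (g • F) = g • cmpJ ρ U M j F := by
  ext x
  rw [cmpJ_apply, LC.smul_apply, LC.smul_apply, cmpJ_apply, ideg_smul ρ hρ]
  split_ifs
  · rfl
  · rw [smul_zero]

theorem augJ_smul (hρ : Equi ρ U) (g : S) (m : M) : augJ ρ U M (g • m) = g • augJ ρ U M m := by
  ext x
  rw [augJ_apply, LC.smul_apply, augJ_apply, ideg_smul ρ hρ]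
  split_ifs
  · rfl
  · rw [smul_zero]

variable [Module R M] [SMulCommClass S R M]

theorem dJ_smul (hρ : Equi ρ U) (g : S) (F : LC (IndSp U X) M) :
    dJ ρ U M (g • F) = g • dJ ρ U M F := by
  let _ := Classical.decEq (S ⧸ U)
  -- the action on the coefficients
  let L : M →ₗ[R] M :=
    { toFun := fun m => g • m
      map_add' := smul_add g
      map_smul' := fun r m => smul_comm g r m }
  -- the action on the space
  let a : C(S ⧸ U → X, S ⧸ U → X) := ⟨fun x => (g⁻¹ • (IndSp.mk x : IndSp U X)).fn,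
    IndSp.continuous_fn.comp ((continuous_const_smul g⁻¹).comp IndSp.continuous_mk)⟩
  have h1 : toPi (g • F) = ((toPi F).comap a).map L := rfl
  have h2 := DD_comap ρ (r := orbTour S (S ⧸ U)) (MulAction.toPerm g⁻¹ : Equiv.Perm (S ⧸ U))
    (fun c e => orbTour_smul S (S ⧸ U) g⁻¹ c e) a
    (fun c => ⟨fun z => cos U g⁻¹ (g⁻¹ • c) • z, continuous_const_smul _⟩)
    (fun c x z => IndSp.smul_update g⁻¹ x c z) (fun c z => hρ.deg _ z)
    (fun c f => hρ.d _ f) (toPi F)
  rw [dJ_apply, dJ_apply, h1, DD_map, h2]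
  rfl

end jmod

end Vale.Agent.P251.C
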