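import Vale.Agent.P251.C.C6E
import Vale.Agent.P251.C.IndSpace

/-!
# P251, part C6 (F): resolution data

An abstract contraction lemma, and the transfer from families of uniformly locally constant
functions to locally constant functions on a disjoint union of copies of `U`.
-/

namespace Vale.Agent.P251.C

open MonoidAlgebra Topology

universe u

theorem exists_pseudo_inverse {k V : Type*} [Field k] [AddCommGroup V] [Module k V]
    (f : V →ₗ[k] V) : ∃ g : V →ₗ[k] V, ∀ x, f (g (f x)) = f x := by
  obtain ⟨s, hs⟩ := LinearMap.exists_rightInverse_of_surjective f.rangeRestrict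
    (LinearMap.range_rangeRestrict f)
  obtain ⟨g, hg⟩ := s.exists_extend
  refine ⟨g, fun x => ?_⟩
  have h1 : g (f x) = s (f.rangeRestrict x) := by
    rw [← hg]; rfl
  rw [h1]
  have h2 := LinearMap.congr_fun hs (f.rangeRestrict x)
  exact congrArg Subtype.val h2

/-- A contraction of an exact complex of vector spaces, in total form. -/
theorem exists_contraction {k V : Type*} [Field k] [AddCommGroup V] [Module k V] (N : ℕ)
    (π : ℕ → V →ₗ[k] V) (D : V →ₗ[k] V) (ε : V →ₗ[k] k) (one : V)
    (h1 : ∀ m n f, π m (π n f) = if m = n then π n f else 0)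
    (h2 : ∀ f, ∑ n ∈ Finset.range N, π n f = f)
    (h3 : ∀ n f, π (n + 1) (D f) = D (π n f)) (h3' : ∀ f, π 0 (D f) = 0)
    (h4 : ∀ f, ε (π 0 f) = ε f) (h5 : π 0 one = one) (h6 : D one = 0) (h7 : ε one = 1)
    (h8 : ∀ f, D (D f) = 0) (h9 : ∀ f, D f = 0 → ∃ (g : V) (c : k), f = D g + c • one) :
    ∃ h : V →ₗ[k] V, (∀ f, h (D f) + D (h f) + ε f • one = f) ∧
      (∀ n f, π n (h f) = h (π (n + 1) f)) ∧ ∀ f, h (π 0 f) = 0 := by
  obtain ⟨g0, hg0⟩ := exists_pseudo_inverse D
  -- the component of degree -1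
  let g1 : V →ₗ[k] V := ∑ n ∈ Finset.range N, π n ∘ₗ g0 ∘ₗ π (n + 1)
  have g1_apply : ∀ f, g1 f = ∑ n ∈ Finset.range N, π n (g0 (π (n + 1) f)) := by
    intro f
    simp only [g1, LinearMap.sum_apply, LinearMap.comp_apply]
  have hπN : ∀ n f, N ≤ n → π n f = 0 := by
    intro n f hn
    rw [← h2 (π n f)]
    apply Finset.sum_eq_zero
    intro m hm
    rw [Finset.mem_range] at hm
    rw [h1, if_neg (by omega)]
  have hg1 : ∀ f, D (g1 (D f)) = D f := by
    intro f
    rw [g1_apply, map_sum]
    have h10 : ∀ n ∈ Finset.range N, D (π n (g0 (π (n + 1) (D f)))) = D (π n f) := by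
      intro n _
      rw [h3, ← h3 n (g0 (D (π n f))), hg0, h3, h1, if_pos rfl]
    rw [Finset.sum_congr rfl h10, ← map_sum, h2]
  have hg1π : ∀ n f, π n (g1 f) = g1 (π (n + 1) f) := by
    intro n f
    rw [g1_apply, g1_apply, map_sum]
    by_cases hn : n < N
    · rw [Finset.sum_eq_single n, Finset.sum_eq_single n]
      · rw [h1, if_pos rfl, h1, if_pos rfl]
      · intro m _ hm
        rw [h1, if_neg (by omega), map_zero, map_zero]
      · intro h; exact absurd (Finset.mem_range.mpr hn) h
      · intro m _ hm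
        rw [h1, if_neg (Ne.symm hm)]
      · intro h; exact absurd (Finset.mem_range.mpr hn) h
    · rw [Finset.sum_eq_zero, Finset.sum_eq_zero]
      · intro m hm
        rw [Finset.mem_range] at hm
        rw [h1, if_neg (by omega), map_zero, map_zero]
      · intro m hm
        rw [Finset.mem_range] at hm
        rw [h1, if_neg (by omega)]
  have hg1π0 : ∀ f, g1 (π 0 f) = 0 := by
    intro f
    rw [g1_apply]
    apply Finset.sum_eq_zero
    intro m _
    rw [h1, if_neg (by omega), map_zero, map_zero]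
  let e : V →ₗ[k] V := (LinearMap.toSpanSingleton k V one) ∘ₗ ε
  have e_apply : ∀ f, e f = ε f • one := fun f => rfl
  have heπ : ∀ n f, π n (e f) = e (π n f) := by
    intro n f
    rw [e_apply, e_apply, map_smul, ← h5, h1]
    by_cases hn : n = 0
    · subst hn
      rw [if_pos rfl, h4]
    · rw [if_neg hn, smul_zero, ← h4, h1, if_neg (Ne.symm hn), map_zero, zero_smul]
  have heD : ∀ f, ε (D f) = 0 := by
    intro f
    rw [← h4, h3', map_zero]
  -- kill the constants
  let g2 : V →ₗ[k] V := g1 - e ∘ₗ g1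
  have g2_apply : ∀ f, g2 f = g1 f - e (g1 f) := fun f => rfl
  have hg2 : ∀ f, D (g2 (D f)) = D f := by
    intro f
    rw [g2_apply, map_sub, hg1, e_apply, map_smul, h6, smul_zero, sub_zero]
  have heg2 : ∀ f, ε (g2 f) = 0 := by
    intro f
    rw [g2_apply, map_sub, e_apply, map_smul, h7, smul_eq_mul, mul_one, sub_self]
  have hg2π : ∀ n f, π n (g2 f) = g2 (π (n + 1) f) := by
    intro n f
    rw [g2_apply, g2_apply, map_sub, heπ, hg1π]
  have hg2π0 : ∀ f, g2 (π 0 f) = 0 := by
    intro f
    rw [g2_apply, hg1π0, map_zero, sub_zero]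
  let h : V →ₗ[k] V := g2 ∘ₗ (LinearMap.id - e) ∘ₗ (LinearMap.id - g2 ∘ₗ D)
  have h_apply : ∀ f, h f = g2 (f - g2 (D f) - e (f - g2 (D f))) := fun f => rfl
  refine ⟨h, ?_, ?_, ?_⟩
  · intro f
    have h10 : h (D f) = g2 (D f) := by
      rw [h_apply, h8, map_zero, sub_zero, e_apply, heD, zero_smul, sub_zero]
    have h11 : D (f - g2 (D f)) = 0 := by
      rw [map_sub, hg2, sub_self]
    obtain ⟨y, c, hy⟩ := h9 _ h11
    have h12 : f - g2 (D f) - e (f - g2 (D f)) = D y := by
      rw [hy, e_apply, map_add, heD, zero_add, map_smul, h7, smul_eq_mul, mul_one, add_sub_cancel_right]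
    have h13 : D (h f) = f - g2 (D f) - e (f - g2 (D f)) := by
      rw [h_apply, h12, hg2]
    have h14 : e (f - g2 (D f)) = e f := by
      rw [map_sub, e_apply (g2 _), heg2, zero_smul, sub_zero]
    rw [h10, h13, h14, e_apply]
    abel
  · intro n f
    rw [h_apply, h_apply, hg2π]
    congr 1
    rw [map_sub, heπ, map_sub, hg2π, h3]
  · intro f
    rw [h_apply]
    have h16 : π 0 (f - g2 (D f) - e (f - g2 (D f))) =
        π 0 f - g2 (D (π 0 f)) - e (π 0 f - g2 (D (π 0 f))) := by
      rw [map_sub, heπ, map_sub, hg2π, h3]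
    rw [← h16, hg2π0]

/-! ### Transfer to locally constant functions -/

namespace NpData

variable {p d : ℕ} {U : Type u} [Group U] [TopologicalSpace U]

/-- The filtration defines the topology. -/
structure IsTop (D : NpData p d U) : Prop where
  isOpen : ∀ M, IsOpen (D.P M : Set U)
  basis : ∀ V ∈ 𝓝 (1 : U), ∃ M, (D.P M : Set U) ⊆ V

variable [IsTopologicalGroup U] [CompactSpace U] {D : NpData p d U} (hD : D.IsTop)

include hD in
omit [CompactSpace U] in
theorem IsTop.isOpen_coset (M : ℕ) {s : Set U} (hs : ∀ u ∈ D.P M, ∀ x ∈ s, u * x ∈ s) :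
    IsOpen s := by
  rw [isOpen_iff_mem_nhds]
  intro x hx
  have h1 : (fun y => y * x⁻¹) ⁻¹' (D.P M : Set U) ∈ 𝓝 x := by
    apply ((hD.isOpen M).preimage (continuous_mul_const x⁻¹)).mem_nhds
    simp only [Set.mem_preimage, mul_inv_cancel]
    exact (D.P M).one_mem
  apply Filter.mem_of_superset h1
  intro y hy
  have := hs _ hy x hx
  simpa using this

include hD in
theorem IsTop.exists_inv {f : U → ZMod p} (hf : IsLocallyConstant f) : ∃ M, D.Inv M f := by
  -- the set where `f` is invariant under `P M`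
  let E : ℕ → Set U := fun M => {x | ∀ u ∈ D.P M, f (u * x) = f x}
  have hE : ∀ M, IsOpen (E M) := by
    intro M
    apply hD.isOpen_coset M
    intro u hu x hx v hv
    have h1 := hx (v * u) ((D.P M).mul_mem hv hu)
    rw [← mul_assoc, h1, hx u hu]
  have hcov : Set.univ ⊆ ⋃ M, E M := by
    intro x _
    have h1 : {u : U | f (u * x) = f x} ∈ 𝓝 (1 : U) := by
      have h2 : IsOpen {u : U | f (u * x) = f x} :=
        (hf.isOpen_fiber (f x)).preimage (continuous_mul_const x)
      apply h2.mem_nhds
      simp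
    obtain ⟨M, hM⟩ := hD.basis _ h1
    exact Set.mem_iUnion.mpr ⟨M, fun u hu => hM hu⟩
  have hdir : Directed (· ⊆ ·) E := by
    apply directed_of_isDirected_le
    intro M M' h x hx u hu
    exact hx u (D.anti h hu)
  obtain ⟨M, hM⟩ := isCompact_univ.elim_directed_cover E hE hcov hdir
  exact ⟨M, fun u hu x => hM (Set.mem_univ x) u hu⟩

include hD in
omit [CompactSpace U] in
theorem IsTop.isLocallyConstant {f : U → ZMod p} {M : ℕ} (hf : D.Inv M f) :
    IsLocallyConstant f := by
  intro s
  apply hD.isOpen_coset M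
  intro u hu x hx
  rw [Set.mem_preimage, hf u hu x]
  exact hx

/-! ### Constants -/

omit [TopologicalSpace U] [IsTopologicalGroup U] [CompactSpace U] in
theorem pair_const [Fact p.Prime] (D : NpData p d U) (c : ZMod p) (α : Fin d → ℕ) :
    pair (fun _ : U => c) (D.mono α) = if α = 0 then c else 0 := by
  split_ifs with h
  · subst h
    have h1 : (D.mono 0 : A p U) = of (ZMod p) U 1 := by
      rw [D.mono_eq, map_one]
      apply List.prod_eq_one
      intro x hx
      obtain ⟨i, -, rfl⟩ := List.mem_map.mp hx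
      simp
    rw [h1, pair_of]
  · obtain ⟨i, hi⟩ : ∃ i, α i ≠ 0 := by
      by_contra hcon
      push Not at hcon
      exact h (funext hcon)
    apply D.pair_mono_eq_zero (M := 0) (i := i) (fun _ _ _ => rfl)
    have : D.J i 0 = 0 := D.J_unique i 0 (Nat.zero_le _) (by simp)
    rw [this, pow_zero]
    omega

/-- the constants in degree `0` -/
def cst (p d : ℕ) (U : Type u) (c : ZMod p) : VV p d U := fun T _ => if T.card = 0 then c else 0

omit [TopologicalSpace U] [IsTopologicalGroup U] [CompactSpace U] in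
theorem cst_mem [Fact p.Prime] (D : NpData p d U) (c : ZMod p) : cst p d U c ∈ D.Fil 0 := by
  refine ⟨⟨0, fun T u _ x => rfl⟩, fun T α h => ?_⟩
  have h1 : cst p d U c T = fun _ => if T.card = 0 then c else 0 := rfl
  rw [h1, pair_const]
  split_ifs with h2 h3
  · exfalso
    rw [Finset.card_eq_zero] at h3
    subst h2 h3
    simp [mwt, swt] at h
  · rfl
  · rfl

omit [TopologicalSpace U] [IsTopologicalGroup U] [CompactSpace U] in
theorem eq_zero_of_Fil_zero [Fact p.Prime] {D : NpData p d U} {F : VV p d U} (hF : F ∈ D.Fil 0)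
    {T : Finset (Fin d)} (hT : T.card ≠ 0) : F T = 0 := by
  apply D.eq_zero_of_co hF.1
  intro α
  apply hF.2
  obtain ⟨i, hi⟩ := Finset.card_ne_zero.mp hT
  have h1 := D.swt_erase hi
  have h2 := D.wt_pos i
  omega

omit [TopologicalSpace U] [IsTopologicalGroup U] [CompactSpace U] in
theorem eq_cst_of_Fil_zero [Fact p.Prime] {D : NpData p d U} {F : VV p d U}
    (hF : F ∈ D.Fil 0) : F = cst p d U (F ∅ 1) := by
  funext T
  by_cases hT : T.card = 0
  · rw [Finset.card_eq_zero] at hT
    subst hT
    have h1 : F - cst p d U (F ∅ 1) ∈ D.Fil 0 := sub_mem hF (D.cst_mem _)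
    have h2 : (F - cst p d U (F ∅ 1)) ∅ = 0 := by
      apply D.eq_zero_of_co h1.1
      intro α
      by_cases hα : α = 0
      · have h3 : co D (F - cst p d U (F ∅ 1)) α ∅ =
            pair (F ∅) (D.mono α) - pair (cst p d U (F ∅ 1) ∅) (D.mono α) :=
          (pairₗ (D.mono α)).map_sub _ _
        have h4 : cst p d U (F ∅ 1) ∅ = fun _ => F ∅ 1 := rfl
        rw [h3, h4, pair_const, if_pos hα, hα]
        have h5 : (D.mono 0 : A p U) = of (ZMod p) U 1 := by
          rw [D.mono_eq, map_one]
          apply List.prod_eq_one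
          intro x hx
          obtain ⟨i, -, rfl⟩ := List.mem_map.mp hx
          simp
        rw [h5, pair_of, inv_one, sub_self]
      · apply h1.2
        obtain ⟨i, hi⟩ : ∃ i, α i ≠ 0 := by
          by_contra hcon
          push Not at hcon
          exact hα (funext hcon)
        have := D.le_mwt α i
        omega
    rw [Pi.sub_apply, sub_eq_zero] at h2
    exact h2
  · rw [eq_zero_of_Fil_zero hF hT]
    funext x
    exact (if_neg hT).symm

omit [TopologicalSpace U] [IsTopologicalGroup U] [CompactSpace U] in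
theorem Good.op_cst [Fact p.Prime] {D : NpData p d U} {j : ℕ}
    {Φ : Finset (Fin d) → VV p d U →ₗ[ZMod p] ZMod p} (hΦ : D.Good j Φ) (c : ZMod p) :
    op Φ (cst p d U c) = 0 := by
  have h1 : Hom 1 (cst p d U c) := by
    intro S hS
    funext x
    exact if_neg (by omega)
  have h2 := hΦ.op_hom h1
  have h3 := hΦ.op_Fil (D.cst_mem c)
  funext T
  by_cases hT : T.card = 0
  · exact h2 T (by omega)
  · exact eq_zero_of_Fil_zero h3 hT

/-! ### The resolution -/

/-- the underlying space of the resolution -/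
abbrev KX (d : ℕ) (U : Type u) : Type u := Σ _ : Finset (Fin d), U

/-- the family of functions given by a function on `KX` -/
def toV (f : LocallyConstant (KX d U) (ZMod p)) : VV p d U := fun T x => f ⟨T, x⟩

omit [IsTopologicalGroup U] [CompactSpace U] [Group U] in
theorem isLC_sigma {Y : Type*} (f : KX d U → Y)
    (h : ∀ T, IsLocallyConstant fun x : U => f ⟨T, x⟩) : IsLocallyConstant f := by
  intro s
  rw [isOpen_sigma_iff]
  intro T
  exact h T s

variable [hp : Fact p.Prime]

include hD in
theorem IsTop.toV_mem (f : LocallyConstant (KX d U) (ZMod p)) : toV f ∈ D.NN := by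
  have h1 : ∀ T, IsLocallyConstant fun x : U => f ⟨T, x⟩ := fun T =>
    f.isLocallyConstant.comp_continuous (continuous_sigmaMk (i := T))
  choose M hM using fun T => hD.exists_inv (h1 T)
  refine ⟨Finset.univ.sup M, fun T => ?_⟩
  exact Inv.mono (Finset.le_sup (Finset.mem_univ T)) (hM T)

include hD in
omit [CompactSpace U] in
theorem IsTop.isLC_of_mem {F : VV p d U} (hF : F ∈ D.NN) :
    IsLocallyConstant fun x : KX d U => F x.1 x.2 := by
  obtain ⟨M, hM⟩ := hF
  exact isLC_sigma _ fun T => hD.isLocallyConstant (hM T)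

/-- the family as a locally constant function -/
def IsTop.ofV (hD : D.IsTop) (F : VV p d U) (hF : F ∈ D.NN) : LocallyConstant (KX d U) (ZMod p) :=
  ⟨fun x => F x.1 x.2, hD.isLC_of_mem hF⟩

omit [CompactSpace U] in
theorem IsTop.toV_ofV (F : VV p d U) (hF : F ∈ D.NN) : toV (hD.ofV F hF) = F := rfl

omit [IsTopologicalGroup U] [CompactSpace U] [Group U] hp in
theorem toV_injective {f g : LocallyConstant (KX d U) (ZMod p)} (h : toV f = toV g) : f = g := by
  ext x
  exact congrFun (congrFun h x.1) x.2

/-- the operator on locally constant functions -/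
def IsTop.opL (hD : D.IsTop) (Φ : Finset (Fin d) → VV p d U →ₗ[ZMod p] ZMod p) :
    LocallyConstant (KX d U) (ZMod p) →ₗ[ZMod p] LocallyConstant (KX d U) (ZMod p) where
  toFun f := hD.ofV (op Φ (toV f)) (D.op_mem Φ (hD.toV_mem f))
  map_add' f g := by
    apply toV_injective
    have h1 : toV (f + g) = toV f + toV g := rfl
    rw [toV_ofV, h1, map_add]
    rfl
  map_smul' r f := by
    apply toV_injective
    have h1 : toV (r • f) = r • toV f := rfl
    rw [toV_ofV, h1, map_smul]
    rfl

theorem IsTop.toV_opL (Φ : Finset (Fin d) → VV p d U →ₗ[ZMod p] ZMod p)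
    (f : LocallyConstant (KX d U) (ZMod p)) : toV (hD.opL Φ f) = op Φ (toV f) := rfl

omit [IsTopologicalGroup U] [CompactSpace U] [Group U] hp in
theorem isLC_card (d : ℕ) (U : Type u) [TopologicalSpace U] :
    IsLocallyConstant fun x : KX d U => x.1.card :=
  isLC_sigma _ fun T => IsLocallyConstant.const T.card

/-- the component of degree `n` -/
def cmpL (p d : ℕ) (U : Type u) [TopologicalSpace U] (n : ℕ) :
    LocallyConstant (KX d U) (ZMod p) →ₗ[ZMod p] LocallyConstant (KX d U) (ZMod p) where
  toFun f := ⟨fun x => if x.1.card = n then f x else 0,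
    (isLC_card d U).comp₂ f.isLocallyConstant fun k r => if k = n then r else 0⟩
  map_add' f g := by
    ext x
    show (if x.1.card = n then f x + g x else 0) =
      (if x.1.card = n then f x else 0) + (if x.1.card = n then g x else 0)
    split_ifs <;> simp
  map_smul' r f := by
    ext x
    show (if x.1.card = n then r • f x else 0) = r • (if x.1.card = n then f x else 0)
    split_ifs <;> simp

omit [IsTopologicalGroup U] [CompactSpace U] [Group U] in
theorem cmpL_apply (n : ℕ) (f : LocallyConstant (KX d U) (ZMod p)) (x : KX d U) :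
    cmpL p d U n f x = if x.1.card = n then f x else 0 := rfl

omit [IsTopologicalGroup U] [CompactSpace U] in
theorem toV_cmpL (n : ℕ) (f : LocallyConstant (KX d U) (ZMod p)) :
    toV (cmpL p d U n f) = pr p d U (n + 1) (toV f) := by
  funext S x
  rw [pr_apply]
  show (if S.card = n then f ⟨S, x⟩ else 0) = _
  by_cases h : S.card = n
  · rw [if_pos h, if_pos (by omega)]; rfl
  · rw [if_neg h, if_neg (by omega)]; rfl

/-- the constants in degree `0` -/
def oneL (p d : ℕ) (U : Type u) [TopologicalSpace U] : LocallyConstant (KX d U) (ZMod p) :=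
  (⟨fun x => x.1.card, isLC_card d U⟩ : LocallyConstant (KX d U) ℕ).map
    fun n => if n = 0 then (1 : ZMod p) else 0

omit [IsTopologicalGroup U] [CompactSpace U] [Group U] in
theorem toV_oneL : toV (oneL p d U) = cst p d U 1 := rfl

/-- evaluation at the base point of degree `0` -/
def epsL (p d : ℕ) (U : Type u) [TopologicalSpace U] [Group U] :
    LocallyConstant (KX d U) (ZMod p) →ₗ[ZMod p] ZMod p where
  toFun f := f ⟨∅, 1⟩
  map_add' _ _ := rfl
  map_smul' _ _ := rfl

omit [IsTopologicalGroup U] [CompactSpace U] [Group U] in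
theorem sum_cmpL (f : LocallyConstant (KX d U) (ZMod p)) :
    ∑ n ∈ Finset.range (d + 1), cmpL p d U n f = f := by
  ext x
  rw [lc_sum_apply, Finset.sum_eq_single x.1.card]
  · rw [cmpL_apply, if_pos rfl]
  · intro n _ hn
    rw [cmpL_apply, if_neg (Ne.symm hn)]
  · intro h
    exfalso
    apply h
    rw [Finset.mem_range]
    have := Finset.card_le_univ x.1
    rw [Fintype.card_fin] at this
    omega

theorem IsTop.exact {Φ : Finset (Fin d) → VV p d U →ₗ[ZMod p] ZMod p} (hΦ : D.Good d Φ)
    (f : LocallyConstant (KX d U) (ZMod p)) (hf : hD.opL Φ f = 0) :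
    ∃ (g : LocallyConstant (KX d U) (ZMod p)) (c : ZMod p),
      f = hD.opL Φ g + c • oneL p d U := by
  have h1 : ∀ n ∈ Finset.range (d + 1), ∃ (g : LocallyConstant (KX d U) (ZMod p)) (c : ZMod p),
      cmpL p d U n f = hD.opL Φ g + c • oneL p d U := by
    intro n hn
    rw [Finset.mem_range] at hn
    obtain ⟨m, hm⟩ := D.exists_Fil (hD.toV_mem (cmpL p d U n f))
    have h2 : op Φ (toV (cmpL p d U n f)) = 0 := by
      rw [toV_cmpL, hΦ.op_pr, ← hD.toV_opL, hf]
      exact map_zero _
    obtain ⟨G, hG, -, hG'⟩ := hΦ.exact (n := n) (by omega) m (Or.inr le_rfl) _ hm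
      (by rw [toV_cmpL]; exact pr_hom _ _) h2
    refine ⟨hD.ofV G hG, (toV (cmpL p d U n f) - op Φ G) ∅ 1, ?_⟩
    apply toV_injective
    have h3 := eq_cst_of_Fil_zero hG'
    have h4 : ∀ c, toV (hD.opL Φ (hD.ofV G hG) + c • oneL p d U) = op Φ G + cst p d U c := by
      intro c
      funext T x
      show op Φ G T x + c * (if T.card = 0 then 1 else 0) = op Φ G T x + if T.card = 0 then c else 0
      split_ifs <;> simp
    rw [h4, ← h3]
    abel
  choose! g c hgc using h1
  refine ⟨∑ n ∈ Finset.range (d + 1), g n, ∑ n ∈ Finset.range (d + 1), c n, ?_⟩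
  rw [map_sum, Finset.sum_smul, ← Finset.sum_add_distrib, ← Finset.sum_congr rfl hgc, sum_cmpL]

omit [TopologicalSpace U] [IsTopologicalGroup U] [CompactSpace U] in
theorem smul_KX (u : U) (x : KX d U) : u • x = ⟨x.1, u * x.2⟩ := rfl

omit [TopologicalSpace U] [IsTopologicalGroup U] [CompactSpace U] in
/-- The action is free. -/
theorem free_KX (u : U) (x : KX d U) (h : u • x = x) : u = 1 := by
  obtain ⟨T, x⟩ := x
  rw [smul_KX] at h
  have h1 : u * x = x := by
    have := (Sigma.mk.inj_iff.mp h).2
    exact eq_of_heq this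
  exact mul_eq_right.mp h1

omit [CompactSpace U] in
instance : ContinuousConstSMul U (KX d U) := by
  constructor
  intro u
  have h1 : (fun x : KX d U => u • x) = Sigma.map id fun _ y => u * y := rfl
  rw [h1]
  exact Continuous.sigma_map fun _ => continuous_const_mul u

omit [CompactSpace U] in
instance : ContinuousSMul U (KX d U) := by
  constructor
  rw [continuous_iff_continuousAt]
  rintro ⟨u, T, x⟩
  have h0 : IsOpenEmbedding (@Sigma.mk (Finset (Fin d)) (fun _ => U) T) :=
    IsOpenEmbedding.sigmaMk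
  have h1 : IsOpenEmbedding (Prod.map (id : U → U) fun y : U => (⟨T, y⟩ : KX d U)) :=
    IsOpenEmbedding.id.prodMap h0
  have h2 : (u, (⟨T, x⟩ : KX d U)) =
    Prod.map (id : U → U) (fun y : U => (⟨T, y⟩ : KX d U)) (u, x) := rfl
  rw [h2, ← h1.continuousAt_iff]
  have h3 : (fun q : U × KX d U => q.1 • q.2) ∘
      (Prod.map (id : U → U) fun y : U => (⟨T, y⟩ : KX d U)) =
      fun q : U × U => (⟨T, q.1 * q.2⟩ : KX d U) := rfl
  rw [h3]
  exact (continuous_sigmaMk.comp continuous_mul).continuousAt

include hD in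
/-- The resolution. -/
theorem IsTop.exists_resData : ∃ ρ : ResData (ZMod p) (KX d U),
    Equi ρ U ∧ ∀ x, ρ.deg x = x.1.card := by
  obtain ⟨Φ, hΦ⟩ := D.exists_good d
  have hπD : ∀ n f, cmpL p d U (n + 1) (hD.opL Φ f) = hD.opL Φ (cmpL p d U n f) := by
    intro n f
    apply toV_injective
    rw [toV_cmpL, toV_opL, toV_opL, toV_cmpL, hΦ.op_pr]
  have hπ : ∀ m n (f : LocallyConstant (KX d U) (ZMod p)),
      cmpL p d U m (cmpL p d U n f) = if m = n then cmpL p d U n f else 0 := by
    intro m n f
    ext x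
    rw [cmpL_apply, cmpL_apply]
    split_ifs with h1 h2 h3 h4 h5
    · rw [cmpL_apply, if_pos h2]
    · omega
    · omega
    · rfl
    · subst h5
      rw [cmpL_apply, if_neg h1]
    · rfl
  have hπ0 : ∀ f, cmpL p d U 0 (hD.opL Φ f) = 0 := by
    intro f
    apply toV_injective
    rw [toV_cmpL, toV_opL, ← hΦ.op_pr]
    have : pr p d U 0 (toV f) = 0 := by
      funext S
      rw [pr_apply, if_neg (Nat.succ_ne_zero _)]
      rfl
    rw [this, map_zero]
    rfl
  have hDone : hD.opL Φ (oneL p d U) = 0 := by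
    apply toV_injective
    rw [toV_opL, toV_oneL, hΦ.op_cst]
    rfl
  have hDD : ∀ f, hD.opL Φ (hD.opL Φ f) = 0 := by
    intro f
    apply toV_injective
    rw [toV_opL, toV_opL, hΦ.op_op (hD.toV_mem f)]
    rfl
  obtain ⟨h, hh1, hh2, hh3⟩ := exists_contraction (d + 1) (cmpL p d U) (hD.opL Φ) (epsL p d U)
    (oneL p d U) hπ sum_cmpL hπD hπ0 (fun f => rfl) (by
      ext x
      rw [cmpL_apply]
      show (if x.1.card = 0 then (if x.1.card = 0 then (1 : ZMod p) else 0) else 0) =
        if x.1.card = 0 then (1 : ZMod p) else 0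
      split_ifs <;> rfl) hDone rfl hDD (hD.exact hΦ)
  have hcmp : ∀ n (f : LocallyConstant (KX d U) (ZMod p)), (∀ x, x.1.card ≠ n → f x = 0) →
      cmpL p d U n f = f := by
    intro n f hf
    ext x
    rw [cmpL_apply]
    split_ifs with h1
    · rfl
    · exact (hf x h1).symm
  let ρ : ResData (ZMod p) (KX d U) :=
    { deg := ⟨fun x => x.1.card, isLC_card d U⟩
      d := hD.opL Φ
      h := h
      ε := epsL p d U
      d_deg := by
        intro n f hf x hx
        rw [← hcmp n f hf, ← hπD, cmpL_apply]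
        exact if_neg hx
      h_deg := by
        intro n f hf x hx
        rw [← hcmp n f hf]
        match n, hx with
        | 0, hx => rw [hh3]; rfl
        | n + 1, hx =>
          rw [← hh2, cmpL_apply]
          exact if_neg fun h1 => hx (congrArg (· + 1) h1)
      ε_deg := by
        intro n f hn hf
        exact hf ⟨∅, 1⟩ (by
          show Finset.card (∅ : Finset (Fin d)) ≠ n
          rw [Finset.card_empty]
          exact Ne.symm hn)
      dd := hDD
      homotopy := hh1
      d_one := hDone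
      ε_one := rfl }
  refine ⟨ρ, ⟨fun _ _ => rfl, ?_⟩, fun _ => rfl⟩
  intro u f
  apply toV_injective
  have h1 : ∀ g : LocallyConstant (KX d U) (ZMod p),
      toV (g.comap ⟨fun z => u • z, continuous_const_smul u⟩) = tau p d U u⁻¹ (toV g) := by
    intro g
    funext T x
    rw [tau_apply, inv_inv]
    rfl
  rw [h1]
  show toV (hD.opL Φ (f.comap ⟨fun z => u • z, continuous_const_smul u⟩)) =
    tau p d U u⁻¹ (toV (hD.opL Φ f))
  rw [toV_opL, toV_opL, h1, op_tau]

end NpData

end Vale.Agent.P251.C
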