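import Vale.Agent.P251.C.C6F

/-!
# P251, part C6 (L): from a uniform filtration to an `N_p`-series
-/

namespace Vale.Agent.P251.C

open Topology
open scoped commutatorElement

universe u

/-- A uniform filtration of a topological group. -/
structure LevelData (p d : ℕ) (U : Type*) [Group U] [TopologicalSpace U] where
  /-- the filtration -/
  V : ℕ → Subgroup U
  V_zero : V 0 = ⊤
  anti : Antitone V
  comm : ∀ r s, ⁅V r, V s⁆ ≤ V (r + s + 1)
  /-- generators -/
  g : Fin d → U
  g_mem : ∀ i j, g i ^ p ^ j ∈ V j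
  gen : ∀ j, V j ≤ Subgroup.closure (Set.range fun i => g i ^ p ^ j) ⊔ V (j + 1)
  index : ∀ j, (V (j + 1)).relIndex (V j) = p ^ d
  isOpen : ∀ r, IsOpen (V r : Set U)
  basis : ∀ W ∈ 𝓝 (1 : U), ∃ r, (V r : Set U) ⊆ W

namespace LevelData

variable {p d : ℕ} [hp : Fact p.Prime] {U : Type u} [Group U] [TopologicalSpace U]
  (L : LevelData p d U)

omit [TopologicalSpace U] [Group U] in
theorem clog_pow_succ (j : ℕ) : Nat.clog p (p ^ j + 1) = j + 1 := by
  apply le_antisymm
  · apply Nat.clog_le_of_le_pow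
    have h1 := hp.out.two_le
    have h2 : 0 < p ^ j := pow_pos hp.out.pos j
    rw [pow_succ]
    nlinarith
  · have : p ^ j < p ^ j + 1 := Nat.lt_succ_self _
    exact (Nat.lt_clog_iff_pow_lt hp.out.one_lt).2 this

theorem clog_succ {m : ℕ} (hm : 1 ≤ m) (h : ¬∃ j, p ^ j = m) :
    Nat.clog p (m + 1) = Nat.clog p m := by
  apply le_antisymm
  · apply Nat.clog_le_of_le_pow
    have h1 := Nat.le_pow_clog hp.out.one_lt m
    have h2 : p ^ Nat.clog p m ≠ m := fun h' => h ⟨_, h'⟩
    omega
  · exact Nat.clog_mono_right p (Nat.le_succ m)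

/-- The `N_p`-series. -/
noncomputable def toNp (hp2 : p ≠ 2) : NpData p d U where
  P m := L.V (Nat.clog p m)
  P_one := by rw [Nat.clog_one_right, L.V_zero]
  anti m n h := L.anti (Nat.clog_mono_right p h)
  comm' a b ha hb := by
    refine (L.comm _ _).trans (L.anti (Nat.clog_le_of_le_pow ?_))
    have h1 := Nat.le_pow_clog hp.out.one_lt a
    have h2 := Nat.le_pow_clog hp.out.one_lt b
    have h3 : 3 ≤ p := by
      have := hp.out.two_le
      omega
    have h4 : 1 ≤ p ^ Nat.clog p a := Nat.one_le_pow _ _ hp.out.pos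
    have h5 : 1 ≤ p ^ Nat.clog p b := Nat.one_le_pow _ _ hp.out.pos
    rw [pow_succ, pow_add]
    nlinarith [Nat.mul_le_mul h4 h5, Nat.mul_le_mul_left (p ^ Nat.clog p a) h5,
      Nat.mul_le_mul_right (p ^ Nat.clog p b) h4,
      Nat.mul_le_mul_left (p ^ Nat.clog p a * p ^ Nat.clog p b) h3]
  g := L.g
  wt _ := 1
  wt_pos _ := one_pos
  g_mem i j := by
    rw [mul_one, Nat.clog_pow p j hp.out.one_lt]
    exact L.g_mem i j
  gen m hm := by
    by_cases h : ∃ j, p ^ j = m
    · obtain ⟨j, rfl⟩ := h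
      rw [clog_pow_succ, Nat.clog_pow p j hp.out.one_lt]
      refine (L.gen j).trans (sup_le_sup ?_ le_rfl)
      apply Subgroup.closure_mono
      rintro y ⟨i, rfl⟩
      exact ⟨i, j, mul_one _, rfl⟩
    · rw [clog_succ hm h]
      exact le_sup_right
  index m hm := by
    by_cases h : ∃ j, p ^ j = m
    · have h1 : {i : Fin d | ∃ j, p ^ j * 1 = m} = Set.univ := by
        ext i
        simpa using h
      rw [h1, Set.ncard_univ, Nat.card_eq_fintype_card, Fintype.card_fin]
      obtain ⟨j, rfl⟩ := h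
      rw [clog_pow_succ, Nat.clog_pow p j hp.out.one_lt]
      exact L.index j
    · have h1 : {i : Fin d | ∃ j, p ^ j * 1 = m} = ∅ := by
        ext i
        simpa using h
      rw [h1, Set.ncard_empty, pow_zero, clog_succ hm h, Subgroup.relIndex_self]

theorem isTop (hp2 : p ≠ 2) : (L.toNp hp2).IsTop where
  isOpen M := L.isOpen _
  basis W hW := by
    obtain ⟨r, hr⟩ := L.basis W hW
    refine ⟨p ^ r, ?_⟩
    show (L.V (Nat.clog p (p ^ r)) : Set U) ⊆ W
    rwa [Nat.clog_pow p r hp.out.one_lt]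

end LevelData

end Vale.Agent.P251.C
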