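import Vale.Agent.P251.C.Shapiro

/-!
# P251, part C: the center kills

If a central element `z` of the compact group `G` acts on the discrete `G`-module `M` in such a
way that `z - 1` is invertible, then `H^s(G; M) = 0`, `s ≥ 0`.
-/

namespace Vale.Agent.P251.C

variable {G M N : Type*} [Group G] [TopologicalSpace G] [IsTopologicalGroup G] [CompactSpace G]
  [AddCommGroup M] [DistribMulAction G M] [AddCommGroup N] [DistribMulAction G N]

/-- Center kills. `u : M → N` is `v ∘ (z - 1)` with `v` equivariant. -/
theorem HMapZero.of_center (z : G) (hz : ∀ g : G, z * g = g * z) (u : M →+[G] N) (v : M →+[G] N)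
    (hv : ∀ m : M, v (z • m - m) = u m) (s : ℕ) : HMapZero G s u := by
  intro F hF hdF
  set r : G → G := fun g => g * z with hr
  have hrc : Continuous r := continuous_mul_const z
  refine ⟨v ∘ prism r F, ⟨?_, ?_⟩, ?_⟩
  · exact (isLocallyConstant_prism hrc hF.lc).comp v
  · intro g x
    have h1 := prism_comp r (fun y => g * y) (fun y => by simp [hr, mul_assoc]) F x
    have h2 : (fun y => F ((fun y => g * y) ∘ y)) = fun y => (DistribSMul.toAddMonoidHom M g) (F y) := by
      funext y
      exact hF.equi g y
    have h3 : prism r F (fun i => g * x i) = g • prism r F x := by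
      rw [h2, prism_map] at h1
      exact h1
    change v (prism r F (fun i => g * x i)) = g • v (prism r F x)
    rw [h3, map_smul]
  · funext x
    have h0 : dd (⇑v ∘ prism r F) x = v (dd (prism r F) x) :=
      congrFun (dd_map' (v : M →+ N) (prism r F)) x
    rw [h0]
    change v (dd (prism r F) x) = u (F x)
    have h1 := prism_homotopy r F x
    have h2 : prism r (dd F) x = 0 := by rw [hdF]; exact prism_zero r x
    rw [h2, add_zero] at h1
    have h3 : F (r ∘ x) = z • F x := by
      have : r ∘ x = fun i => z * x i := by
        funext i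
        exact (hz (x i)).symm
      rw [this, hF.equi]
    rw [h1, h3, hv]

/-- Center kills, vanishing form: `z` acts on `M` as `m ↦ lam m` for an equivariant
automorphism-like pair. -/
theorem HZero.of_center (z : G) (hz : ∀ g : G, z * g = g * z) (v : M →+[G] M)
    (hv : ∀ m : M, v (z • m - m) = m) (s : ℕ) : HZero G M s := by
  have h := HMapZero.of_center z hz (DistribMulActionHom.id G : M →+[G] M) v hv s
  intro F hF hdF
  obtain ⟨Y, hY, hYF⟩ := h F hF hdF
  exact ⟨Y, hY, by rw [hYF]; rfl⟩

end Vale.Agent.P251.C
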