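import Vale.Agent.P251.C.LES

/-!
# P251, part C5: open subgroups

* `HMapZero.of_coprime_index`: restriction to an open subgroup of index prime to `p` detects
  zero maps (coefficients killed by `p`);
* `HZero.of_open`: corestriction: if `H^{s+1}(G; K) = 0` for all `K` and `H^s(P; M) = 0` then
  `H^s(G; M) = 0`;
* `cd_of_open`: if `G` has finite cohomological dimension (for modules killed by `p`) then it is
  at most that of an open subgroup.

Shapiro's lemma for open subgroups enters as the hypothesis `ShapiroOpen`.
-/

set_option linter.unusedSectionVars false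

open Finset Function

namespace Vale.Agent.P251.C

section sumconst

variable {G : Type*} [Group G] [TopologicalSpace G] {X : Type*} [TopologicalSpace X]
  [MulAction G X] [ContinuousConstSMul G X] {M N : Type*} [AddCommGroup M] [AddCommGroup N]
  [DistribMulAction G M] [DistribMulAction G N]

/-- constant functions -/
def LC.const (G X M : Type*) [Group G] [TopologicalSpace X]
    [MulAction G X] [ContinuousConstSMul G X] [AddCommGroup M]
    [DistribMulAction G M] : M →+[G] LC X M where
  toFun m := LC.mk (fun _ => m) (IsLocallyConstant.const m)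
  map_smul' _ _ := LC.ext fun _ => rfl
  map_zero' := LC.ext fun _ => rfl
  map_add' _ _ := LC.ext fun _ => rfl

@[simp] theorem LC.const_apply (m : M) (x : X) : LC.const G X M m x = m := rfl

/-- the sum of the values, for a finite `G`-set -/
def LC.total (G X M : Type*) [Group G] [TopologicalSpace X]
    [MulAction G X] [ContinuousConstSMul G X] [AddCommGroup M]
    [DistribMulAction G M] [Fintype X] : LC X M →+[G] M where
  toFun f := ∑ x, f x
  map_smul' g f := by
    simp only [LC.smul_apply, MonoidHom.id_apply, smul_sum]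
    exact (Equiv.sum_comp (MulAction.toPerm g⁻¹) (fun x => g • f x))
  map_zero' := by simp
  map_add' a b := by simp [sum_add_distrib]

@[simp] theorem LC.total_apply [Fintype X] (f : LC X M) : LC.total G X M f = ∑ x, f x := rfl

/-- the map on functions induced by a `G`-map of coefficients -/
def LC.mapG (X : Type*) [TopologicalSpace X] [MulAction G X] [ContinuousConstSMul G X]
    (u : M →+[G] N) : LC X M →+[G] LC X N where
  toFun f := LC.mk (fun x => u (f x)) (f.isLocallyConstant.comp u)
  map_smul' g f := LC.ext fun x => map_smul u g (f (g⁻¹ • x))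
  map_zero' := LC.ext fun _ => map_zero u
  map_add' f g := LC.ext fun x => map_add u (f x) (g x)

@[simp] theorem LC.mapG_apply (u : M →+[G] N) (f : LC X M) (x : X) :
    LC.mapG X u f x = u (f x) := rfl

end sumconst

/-- The functions on a compact `G`-space with values in a discrete module form a discrete module. -/
theorem discMod_LC {G X M : Type*} [Group G] [TopologicalSpace G] [IsTopologicalGroup G]
    [TopologicalSpace X] [CompactSpace X] [MulAction G X] [ContinuousSMul G X]
    [AddCommGroup M] [DistribMulAction G M] [DiscMod G M] : DiscMod G (LC X M) := by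
  constructor
  intro f
  rw [isOpen_iff_mem_nhds]
  intro g hg
  have hg' : g • f = f := hg
  have key : ∀ x ∈ (Set.univ : Set X), ∀ᶠ z : G × X in nhds (g, x), z.1 • f (z.1⁻¹ • z.2) = f z.2 := by
    intro x _
    have h1 : ∀ᶠ z : G × X in nhds (g, x), f (z.1⁻¹ • z.2) = f (g⁻¹ • x) := by
      have hc : IsLocallyConstant (fun z : G × X => f (z.1⁻¹ • z.2)) :=
        f.isLocallyConstant.comp_continuous (by fun_prop)
      exact (IsLocallyConstant.iff_eventually_eq _).1 hc (g, x)
    have h2 : ∀ᶠ z : G × X in nhds (g, x), f z.2 = f x := by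
      have hc : IsLocallyConstant (fun z : G × X => f z.2) :=
        f.isLocallyConstant.comp_continuous continuous_snd
      exact (IsLocallyConstant.iff_eventually_eq _).1 hc (g, x)
    have h3 : ∀ᶠ z : G × X in nhds (g, x), z.1 • f (g⁻¹ • x) = g • f (g⁻¹ • x) := by
      have hc : IsLocallyConstant (fun z : G × X => z.1 • f (g⁻¹ • x)) :=
        (smul_lc (G := G) (f (g⁻¹ • x))).comp_continuous continuous_fst
      exact (IsLocallyConstant.iff_eventually_eq _).1 hc (g, x)
    filter_upwards [h1, h2, h3] with z hz1 hz2 hz3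
    rw [hz1, hz2, hz3]
    exact congrArg (fun (F : LC X M) => F x) hg'
  have := isCompact_univ.eventually_forall_of_forall_eventually
    (P := fun (h : G) (x : X) => h • f (h⁻¹ • x) = f x) key
  filter_upwards [this] with h hh
  exact LC.ext fun x => hh x (Set.mem_univ x)

/-- multiplication by an integer, as a `G`-map -/
def zsmulG (G N : Type*) [Group G] [AddCommGroup N] [DistribMulAction G N] (a : ℤ) :
    N →+[G] N where
  toFun n := a • n
  map_smul' g n := smul_comm a g n
  map_zero' := smul_zero a
  map_add' := smul_add a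

@[simp] theorem zsmulG_apply {G N : Type*} [Group G] [AddCommGroup N] [DistribMulAction G N]
    (a : ℤ) (n : N) : zsmulG G N a n = a • n := rfl

/-- Shapiro's lemma for the subgroup `P` of `G`, in the form in which it is used here. -/
def ShapiroAt (G : Type) [Group G] [TopologicalSpace G] [IsTopologicalGroup G]
    (P : Subgroup G) : Prop :=
  ∀ (M N : Type) [AddCommGroup M] [DistribMulAction G M] [DiscMod G M]
    [AddCommGroup N] [DistribMulAction G N] [DiscMod G N] (u : M →+[G] N) (s : ℕ), 1 ≤ s →
    HMapZero P s u → HMapZero G s (LC.map (G ⧸ P) (u : M →+ N))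

section main

variable {G : Type} [Group G] [TopologicalSpace G] [IsTopologicalGroup G] [CompactSpace G]

/-- Restriction to an open subgroup of index prime to `p` detects zero maps. -/
theorem HMapZero.of_coprime_index {P : Subgroup G} (hP : IsOpen (P : Set G))
    (hS : ShapiroAt G P) {p : ℕ} (hidx : Nat.Coprime P.index p)
    {M N : Type} [AddCommGroup M] [DistribMulAction G M] [DiscMod G M]
    [AddCommGroup N] [DistribMulAction G N] [DiscMod G N] (hN : ∀ n : N, p • n = 0)
    (u : M →+[G] N) {s : ℕ} (hs : 1 ≤ s) (h : HMapZero P s u) : HMapZero G s u := by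
  classical
  have : Finite (G ⧸ P) := Subgroup.quotient_finite_of_isOpen P hP
  have : Fintype (G ⧸ P) := Fintype.ofFinite _
  have h1 := hS M N u s hs h
  have h2 := ((h1.comp_right (LC.const G (G ⧸ P) M)).comp_left (LC.total G (G ⧸ P) N))
  obtain ⟨a, b, hab⟩ : ∃ a b : ℤ, a * (P.index : ℤ) + b * (p : ℤ) = 1 := by
    have := (Nat.isCoprime_iff_coprime.2 hidx)
    exact this
  have h3 := h2.comp_left (zsmulG G N a)
  have h4 : (zsmulG G N a) ∘ (LC.total G (G ⧸ P) N) ∘ (LC.map (G ⧸ P) (u : M →+ N)) ∘
      (LC.const G (G ⧸ P) M) = u := by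
    funext m
    have e1 : LC.total G (G ⧸ P) N (LC.map (G ⧸ P) (u : M →+ N) (LC.const G (G ⧸ P) M m)) =
        (P.index : ℤ) • u m := by
      rw [LC.total_apply]
      simp only [LC.map_apply, LC.const_apply]
      rw [Finset.sum_const, Finset.card_univ, ← Nat.card_eq_fintype_card, natCast_zsmul]
      rfl
    simp only [Function.comp, e1, zsmulG_apply]
    have e2 : (p : ℤ) • u m = 0 := by rw [natCast_zsmul]; exact hN _
    calc a • (P.index : ℤ) • u m = (a * (P.index : ℤ)) • u m := (mul_smul _ _ _).symm
      _ = (a * (P.index : ℤ)) • u m + b • (p : ℤ) • u m := by rw [e2, smul_zero, add_zero]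
      _ = (a * (P.index : ℤ) + b * (p : ℤ)) • u m := by rw [← mul_smul, ← add_smul]
      _ = u m := by rw [hab, one_smul]
  have h5 : (zsmulG G N a) ∘ (LC.total G (G ⧸ P) N) ∘ (LC.map (G ⧸ P) (u : M →+ N) ∘
      (LC.const G (G ⧸ P) M)) = u := h4
  rw [h5] at h3
  exact h3

theorem discMod_sub {M : Type*} [AddCommGroup M] [DistribMulAction G M] [DiscMod G M]
    (A : AddSubgroup M) (hA : ∀ (g : G) (a : M), a ∈ A → g • a ∈ A) :
    @DiscMod G A _ _ _ (subAct A hA) := by
  let _ := subAct A hA
  constructor
  intro m
  have : {g : G | g • m = m} = {g : G | g • (m : M) = m} := by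
    ext g
    exact Subtype.ext_iff
  rw [this]
  exact DiscMod.isOpen_stab (m : M)

/-- Corestriction is onto in the top degree: if `H^{s+1}(G; K) = 0` for all discrete modules `K`
killed by `p` and `H^s(P; M) = 0`, then `H^s(G; M) = 0`. -/
theorem HZero.of_open {P : Subgroup G} (hP : IsOpen (P : Set G))
    (hS : ShapiroAt G P) {p : ℕ} {s : ℕ} (hs : 1 ≤ s)
    (hK : ∀ (K : Type) [AddCommGroup K] [DistribMulAction G K] [DiscMod G K],
      (∀ k : K, p • k = 0) → HZero G K (s + 1))
    {M : Type} [AddCommGroup M] [DistribMulAction G M] [DiscMod G M] (hM : ∀ m : M, p • m = 0)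
    (h : HZero P M s) : HZero G M s := by
  classical
  have : Finite (G ⧸ P) := Subgroup.quotient_finite_of_isOpen P hP
  have : Fintype (G ⧸ P) := Fintype.ofFinite _
  have hB : HZero G (LC (G ⧸ P) M) s := hS M M (DistribMulActionHom.id G) s hs h
  have : DiscMod G (LC (G ⧸ P) M) := discMod_LC
  have : DiscreteTopology (G ⧸ P) := QuotientGroup.discreteTopology hP
  have hst : ∀ (g : G) (a : LC (G ⧸ P) M), a ∈ (LC.total G (G ⧸ P) M : LC (G ⧸ P) M →+ M).ker →
      g • a ∈ (LC.total G (G ⧸ P) M : LC (G ⧸ P) M →+ M).ker := by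
    intro g a ha
    have ha' : LC.total G (G ⧸ P) M a = 0 := ha
    change LC.total G (G ⧸ P) M (g • a) = 0
    rw [map_smul, ha', smul_zero]
  let K := (LC.total G (G ⧸ P) M : LC (G ⧸ P) M →+ M).ker
  let _ : DistribMulAction G K := subAct K hst
  have : DiscMod G K := discMod_sub K hst
  let i : K →+[G] LC (G ⧸ P) M :=
    { toFun := fun z => z.1
      map_smul' := fun g z => rfl
      map_zero' := rfl
      map_add' := fun a b => rfl }
  refine HZero.right (G := G) i (LC.total G (G ⧸ P) M) Subtype.val_injective ?_ (fun a => a.2)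
    (fun b hb => ⟨⟨b, hb⟩, rfl⟩) hB (hK K ?_)
  · intro m
    refine ⟨LC.mk (fun x => if x = ((1 : G) : G ⧸ P) then m else 0) (IsLocallyConstant.of_discrete _),
      ?_⟩
    rw [LC.total_apply]
    simp
  · intro k
    apply Subtype.ext
    apply LC.ext
    intro x
    have h1 : ((p • k : K) : LC (G ⧸ P) M) x = p • ((k : LC (G ⧸ P) M) x) := by
      have := map_nsmul ((LC.ev x).comp K.subtype) p k
      exact this
    rw [h1, hM]
    rfl

/-- If `G` has finite cohomological dimension (for modules killed by `p`), then it is at most the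
one of the open subgroup `P`. -/
theorem cd_of_open {P : Subgroup G} (hP : IsOpen (P : Set G))
    (hS : ShapiroAt G P) {p : ℕ} {d N : ℕ}
    (hN : ∀ (M : Type) [AddCommGroup M] [DistribMulAction G M] [DiscMod G M],
      (∀ m : M, p • m = 0) → ∀ s, N < s → HZero G M s)
    (hd : ∀ (M : Type) [AddCommGroup M] [DistribMulAction G M] [DiscMod G M],
      (∀ m : M, p • m = 0) → ∀ s, d < s → HZero P M s)
    (M : Type) [AddCommGroup M] [DistribMulAction G M] [DiscMod G M]
    (hM : ∀ m : M, p • m = 0) (s : ℕ) (hs : d < s) : HZero G M s := by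
  have key : ∀ k : ℕ, ∀ (M : Type) [AddCommGroup M] [DistribMulAction G M] [DiscMod G M],
      (∀ m : M, p • m = 0) → ∀ s, d < s → N < s + k → HZero G M s := by
    intro k
    induction k with
    | zero => intro M _ _ _ hM s _ hs; exact hN M hM s hs
    | succ k ih =>
      intro M _ _ _ hM s hds hs
      exact HZero.of_open hP hS (by omega) (fun K _ _ _ hK => ih K hK (s + 1) (by omega) (by omega))
        hM (hd M hM s hds)
  exact key (N + 1) M hM s hs (by omega)

end main

end Vale.Agent.P251.C
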