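import Mathlib

/-!
# P251, part C: cohomology of profinite groups with discrete coefficients, definitions

Homogeneous cochains: an `s`-cochain is a function on `Fin (s + 1) → G`.
* `dd` is the coboundary;
* `IsCoch G F`: `F` is locally constant and equivariant;
* `HMapZero G s u`: the map `H^s(G; M) → H^s(G; N)` induced by `u : M → N` is zero (`s ≥ 1`);
* `HZero G M s`: `H^s(G; M) = 0` (`s ≥ 1`);
* `DiscMod G M`: `M` is a discrete `G`-module;
* `LC X M`: locally constant functions on a `G`-space `X` with values in a `G`-module `M`,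
  with `(g • f) x = g • f (g⁻¹ • x)`.
-/

open Finset Function

namespace Vale.Agent.P251.C

/-- The homogeneous coboundary. -/
def dd {G M : Type*} [AddCommGroup M] {n : ℕ} (F : (Fin n → G) → M) (x : Fin (n + 1) → G) : M :=
  ∑ i : Fin (n + 1), (-1 : ℤ) ^ (i : ℕ) • F (fun j => x (i.succAbove j))

/-- `F` is a homogeneous cochain: locally constant and `G`-equivariant. -/
structure IsCoch (G : Type*) {M : Type*} [Group G] [TopologicalSpace G] [AddCommGroup M]
    [DistribMulAction G M] {n : ℕ} (F : (Fin n → G) → M) : Prop where
  lc : IsLocallyConstant F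
  equi : ∀ (g : G) (x : Fin n → G), F (fun i => g * x i) = g • F x

/-- The map `H^s(G; M) → H^s(G; N)` induced by `u` is zero (for `s ≥ 1`). -/
def HMapZero (G : Type*) {M N : Type*} [Group G] [TopologicalSpace G] [AddCommGroup M]
    [DistribMulAction G M] [AddCommGroup N] [DistribMulAction G N] (s : ℕ) (u : M → N) : Prop :=
  ∀ F : (Fin (s + 1) → G) → M, IsCoch G F → dd F = 0 →
    ∃ Y : (Fin s → G) → N, IsCoch G Y ∧ dd Y = u ∘ F

/-- `H^s(G; M) = 0` (for `s ≥ 1`). -/
def HZero (G M : Type*) [Group G] [TopologicalSpace G] [AddCommGroup M]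
    [DistribMulAction G M] (s : ℕ) : Prop :=
  ∀ F : (Fin (s + 1) → G) → M, IsCoch G F → dd F = 0 →
    ∃ Y : (Fin s → G) → M, IsCoch G Y ∧ dd Y = F

/-- Discrete `G`-modules. -/
class DiscMod (G M : Type*) [Group G] [TopologicalSpace G] [AddCommGroup M]
    [DistribMulAction G M] : Prop where
  isOpen_stab : ∀ m : M, IsOpen {g : G | g • m = m}

/-- Locally constant functions on a `G`-space with values in a `G`-module. -/
def LC (X M : Type*) [TopologicalSpace X] : Type _ := LocallyConstant X M

section LC

variable {G X M N : Type*} [TopologicalSpace X]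

instance : FunLike (LC X M) X M := inferInstanceAs (FunLike (LocallyConstant X M) X M)

theorem LC.isLocallyConstant (f : LC X M) : IsLocallyConstant f :=
  LocallyConstant.isLocallyConstant f

/-- constructor -/
def LC.mk (f : X → M) (h : IsLocallyConstant f) : LC X M := LocallyConstant.mk f h

@[simp] theorem LC.mk_apply (f : X → M) (h : IsLocallyConstant f) (x : X) : LC.mk f h x = f x := rfl

@[ext] theorem LC.ext {f g : LC X M} (h : ∀ x, f x = g x) : f = g := LocallyConstant.ext h

variable [AddCommGroup M] [AddCommGroup N]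

instance : AddCommGroup (LC X M) := inferInstanceAs (AddCommGroup (LocallyConstant X M))

@[simp] theorem LC.add_apply (f g : LC X M) (x : X) : (f + g) x = f x + g x := rfl
@[simp] theorem LC.neg_apply (f : LC X M) (x : X) : (-f) x = -f x := rfl
@[simp] theorem LC.sub_apply (f g : LC X M) (x : X) : (f - g) x = f x - g x := rfl
@[simp] theorem LC.zero_apply (x : X) : (0 : LC X M) x = 0 := rfl

/-- evaluation at a point -/
def LC.ev (x : X) : LC X M →+ M where
  toFun f := f x
  map_zero' := rfl
  map_add' _ _ := rfl

@[simp] theorem LC.ev_apply (x : X) (f : LC X M) : LC.ev x f = f x := rfl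

theorem LC.sum_apply {ι : Type*} (s : Finset ι) (f : ι → LC X M) (x : X) :
    (∑ i ∈ s, f i) x = ∑ i ∈ s, f i x := map_sum (LC.ev x) f s

theorem LC.zsmul_apply (k : ℤ) (f : LC X M) (x : X) : (k • f) x = k • f x :=
  map_zsmul (LC.ev x) k f

variable [Group G] [MulAction G X] [ContinuousConstSMul G X] [DistribMulAction G M]
  [DistribMulAction G N]

instance : SMul G (LC X M) where
  smul g f := LC.mk (fun x => g • f (g⁻¹ • x))
    ((f.isLocallyConstant.comp_continuous (continuous_const_smul g⁻¹)).comp (g • ·))

@[simp] theorem LC.smul_apply (g : G) (f : LC X M) (x : X) : (g • f) x = g • f (g⁻¹ • x) := rfl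

instance : DistribMulAction G (LC X M) where
  one_smul f := by ext x; simp
  mul_smul g h f := by ext x; simp [mul_smul]
  smul_zero g := by ext x; simp
  smul_add g f f' := by ext x; simp

/-- the map on functions induced by a map of coefficients -/
def LC.map (X : Type*) [TopologicalSpace X] (u : M →+ N) : LC X M →+ LC X N where
  toFun f := LC.mk (fun x => u (f x)) (f.isLocallyConstant.comp u)
  map_zero' := by ext x; simp
  map_add' f g := by ext x; simp

@[simp] theorem LC.map_apply (u : M →+ N) (f : LC X M) (x : X) : LC.map X u f x = u (f x) := rfl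

end LC

end Vale.Agent.P251.C
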