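import Vale.Agent.P251.C.Assembly

/-!
# P251, part C8: assembly of the two theorems on profinite cohomology

`HasRes p d U`: the output of C6 for a uniform group `U`. From it: `CV_of_res`, `CP_of_res`.
-/

set_option linter.unusedSectionVars false

open Finset Function

namespace Vale.Agent.P251.C

open Vale.Agent.P251.I

/-- `U` has a resolution of length `d` by functions on a free `U`-space. -/
def HasRes (p d : ℕ) (U : Type) [Group U] [TopologicalSpace U] : Prop :=
  ∃ (X : Type) (_ : TopologicalSpace X) (_ : CompactSpace X) (_ : T2Space X)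
    (_ : TotallyDisconnectedSpace X) (_ : MulAction U X) (_ : ContinuousSMul U X)
    (ρ : ResData (ZMod p) X), Equi ρ U ∧ (∀ x, ρ.deg x ≤ d) ∧
      ∀ (u : U) (z : X), u • z = z → u = 1

/-- the statement of C6 -/
def C6_statement : Prop :=
  ∀ (p d : ℕ) [Fact p.Prime] (U : Type) [Group U] [TopologicalSpace U] [IsTopologicalGroup U],
    p ≠ 2 → IsUnif p d U → HasRes p d U

theorem IsUnif.of_equiv {p d : ℕ} [Fact p.Prime] {U V : Type} [Group U] [TopologicalSpace U]
    [Group V] [TopologicalSpace V] (h : IsUnif p d U) (φ : V ≃* U) (h1 : Continuous φ)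
    (h2 : Continuous φ.symm) : IsUnif p d V := by
  obtain ⟨B, e, he⟩ := h
  refine ⟨B, (Homeomorph.mk φ.toEquiv h1 h2).trans e, fun x y => ?_⟩
  have := he (φ x) (φ y)
  rw [← map_mul] at this
  exact this

section cd

variable {p d : ℕ} {S : Type} [Group S] [TopologicalSpace S] [IsTopologicalGroup S]
  [CompactSpace S] [T2Space S] [TotallyDisconnectedSpace S] (U : Subgroup S) [U.Normal]

/-- finite cohomological dimension in the absence of torsion -/
theorem hZero_of_res (hU : IsOpen (U : Set S)) (hres : HasRes p d U)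
    (hodd : Odd (Nat.card (S ⧸ U)))
    (hno : ∀ P : Subgroup S, Finite P → P ⊓ U = ⊥ → P = ⊥)
    (M : Type) [AddCommGroup M] [DistribMulAction S M] [DiscMod S M] (hM : ∀ m : M, p • m = 0)
    (s : ℕ) (hs : d * Nat.card (S ⧸ U) < s) : HZero S M s := by
  obtain ⟨X, _, _, _, _, _, _, ρ, hρ, hd, hfree⟩ := hres
  have h := iterS U ρ hU hρ hd hfree hodd (fun _ => M) (fun _ => hM)
    (fun _ => DistribMulActionHom.id S) (fun P hP hPU k s hs => by
      have h1 : Nat.card P = 1 := by
        rw [hno P hP hPU]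
        exact Subgroup.card_bot
      exact hZero_of_card_eq_one P h1 hs) s hs
  intro F hF hdF
  obtain ⟨Y, hY, hdY⟩ := h F hF hdF
  refine ⟨Y, hY, hdY.trans ?_⟩
  funext x
  exact compT_id _ (F x)

end cd

section unif

variable {p d : ℕ} [Fact p.Prime]

/-- The cohomological dimension of a uniform group. -/
theorem hZero_unif (h6 : C6_statement) (hp2 : p ≠ 2) {U : Type} [Group U] [TopologicalSpace U]
    [IsTopologicalGroup U] [CompactSpace U] [T2Space U] [TotallyDisconnectedSpace U]
    (hU : IsUnif p d U) (M : Type) [AddCommGroup M] [DistribMulAction U M] [DiscMod U M]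
    (hM : ∀ m : M, p • m = 0) (s : ℕ) (hs : d < s) : HZero U M s := by
  have h1 : IsUnif p d (⊤ : Subgroup U) :=
    IsUnif.of_equiv hU Subgroup.topEquiv continuous_subtype_val
      (Continuous.subtype_mk continuous_id _)
  have hc : Nat.card (U ⧸ (⊤ : Subgroup U)) = 1 := by
    rw [← Subgroup.index_eq_card, Subgroup.index_top]
  refine hZero_of_res (⊤ : Subgroup U) isOpen_univ (h6 p d _ hp2 h1) ?_ ?_ M hM s ?_
  · rw [hc]; exact odd_one
  · intro P _ hP
    rwa [inf_top_eq] at hP
  · rw [hc, mul_one]; exact hs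

end unif

end Vale.Agent.P251.C

namespace Vale.Agent.P251.I

open Vale.Agent.P251.C

section virt

variable {p d : ℕ} [Fact p.Prime] {G : Type} [Group G] [TopologicalSpace G] [IsTopologicalGroup G]
  [CompactSpace G] [T2Space G] [TotallyDisconnectedSpace G] (V : VirtUnif p d G)

theorem VirtUnif.isOpen_S : IsOpen (V.S : Set G) := Subgroup.isOpen_mono V.le V.isOpen

theorem VirtUnif.compact_S : CompactSpace V.S :=
  isCompact_iff_compactSpace.1 (Subgroup.isClosed_of_isOpen V.S V.isOpen_S).isCompact

/-- the uniform group as a subgroup of `S` -/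
def VirtUnif.W : Subgroup V.S := V.U.subgroupOf V.S

theorem VirtUnif.isOpen_W : IsOpen (V.W : Set V.S) :=
  V.isOpen.preimage continuous_subtype_val

theorem VirtUnif.W_normal : V.W.Normal := by
  have := V.U_normal
  unfold VirtUnif.W
  infer_instance

theorem VirtUnif.unif_W : IsUnif p d V.W := by
  refine IsUnif.of_equiv V.unif (Subgroup.subgroupOfEquivOfLe V.le) ?_ ?_
  · exact Continuous.subtype_mk (continuous_subtype_val.comp continuous_subtype_val) _
  · exact Continuous.subtype_mk (Continuous.subtype_mk continuous_subtype_val _) _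

theorem VirtUnif.card_quot : ∃ k : ℕ, Nat.card (V.S ⧸ V.W) = p ^ k := by
  obtain ⟨k, hk⟩ := V.relIndex
  exact ⟨k, hk⟩

theorem VirtUnif.odd_quot (hp2 : p ≠ 2) : Odd (Nat.card (V.S ⧸ V.W)) := by
  obtain ⟨k, hk⟩ := V.card_quot
  rw [hk]
  exact ((Fact.out : p.Prime).odd_of_ne_two hp2).pow

/-- finite subgroups of `S` meeting the uniform subgroup trivially are `p`-groups -/
theorem VirtUnif.isPGroup (P : Subgroup V.S) (hP : P ⊓ V.W = ⊥) : IsPGroup p P := by
  have := V.W_normal
  obtain ⟨k, hk⟩ := V.card_quot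
  intro g
  refine ⟨k, ?_⟩
  have h1 : (g : V.S) ^ p ^ k ∈ V.W := by
    rw [← hk, ← Subgroup.index_eq_card]
    exact Subgroup.pow_index_mem V.W _
  have h2 : (g : V.S) ^ p ^ k ∈ P ⊓ V.W := ⟨P.pow_mem g.2 _, h1⟩
  rw [hP, Subgroup.mem_bot] at h2
  exact Subtype.ext h2

end virt

end Vale.Agent.P251.I

namespace Vale.Agent.P251.C

open Vale.Agent.P251.I

/-- C-V from C6. -/
theorem CV_of_C6 (h6 : C6_statement) : CV_statement := by
  intro p d _ G _ _ _ _ _ _ hp2 V hno M _ _ _ hM s hs
  have hpp : p.Prime := Fact.out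
  have := V.W_normal
  have := V.compact_S
  have hWc : CompactSpace V.W :=
    isCompact_iff_compactSpace.1 (Subgroup.isClosed_of_isOpen V.W V.isOpen_W).isCompact
  -- the cohomology of `S`
  have h1 : ∀ (M : Type) [AddCommGroup M] [DistribMulAction V.S M] [DiscMod V.S M],
      (∀ m : M, p • m = 0) → ∀ s, d < s → HZero V.S M s := by
    refine fun M _ _ _ hM s hs => cd_of_open (P := V.W) V.isOpen_W
      (shapiroAt V.S V.W V.isOpen_W) (N := d * Nat.card (V.S ⧸ V.W)) ?_ ?_ M hM s hs
    · intro M _ _ _ hM s hs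
      refine hZero_of_res V.W V.isOpen_W (h6 p d _ hp2 V.unif_W) (V.odd_quot hp2) ?_ M hM s hs
      intro P hPf hP
      by_contra hne
      have hPp := V.isPGroup P hP
      have h2 : p ∣ Nat.card P := by
        obtain ⟨n, hn⟩ := (IsPGroup.iff_card (p := p)).1 hPp
        rw [hn]
        rcases Nat.eq_zero_or_pos n with rfl | hn'
        · exfalso
          apply hne
          rw [pow_zero] at hn
          exact Subgroup.card_eq_one.1 hn
        · exact dvd_pow_self p hn'.ne'
      obtain ⟨g, hg⟩ := exists_prime_orderOf_dvd_card' p h2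
      have h3 : ((g : V.S) : G) ^ p = 1 := by
        have h4 : g ^ p = 1 := orderOf_dvd_iff_pow_eq_one.1 (by rw [hg])
        have h5 := congrArg (fun z : P => ((z : V.S) : G)) h4
        simpa using h5
      have h4 : g = 1 := Subtype.ext (Subtype.ext (hno _ h3))
      rw [h4, orderOf_one] at hg
      exact hpp.one_lt.ne hg
    · intro M _ _ _ hM s hs
      exact hZero_unif h6 hp2 V.unif_W M hM s hs
  have h2 := HMapZero.of_coprime_index (P := V.S) V.isOpen_S (shapiroAt G V.S V.isOpen_S)
    (Nat.Coprime.symm V.coprime) hM (DistribMulActionHom.id G : M →+[G] M) (s := s) (by omega)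
    (h1 M hM s hs)
  exact h2

theorem towerMap_eq_compT {G : Type} [Group G] {M : ℕ → Type} [∀ k, AddCommGroup (M k)]
    [∀ k, DistribMulAction G (M k)] (f : ∀ k, M (k + 1) →+[G] M k) (k : ℕ) (m : M k) :
    towerMap (fun i => (f i : M (i + 1) → M i)) k m = compT f k m := by
  induction k with
  | zero => rfl
  | succ k ih => exact ih (f k m)

/-- C-P from C6. -/
theorem CP_of_C6 (h6 : C6_statement) : CP_statement := by
  intro p d _ G _ _ _ _ _ _ hp2 V hfin
  have hpp : p.Prime := Fact.out
  have := V.W_normal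
  have := V.compact_S
  refine ⟨d * Nat.card (V.S ⧸ V.W) + 1, ?_⟩
  intro M _ _ _ f hM hcyc s hs
  obtain ⟨X, _, _, _, _, _, _, ρ, hρ, hd, hfree⟩ := h6 p d _ hp2 V.unif_W
  have h1 := iterS V.W ρ V.isOpen_W hρ hd hfree (V.odd_quot hp2) M hM
    (fun k => resHom V.S (f k)) (fun P hPf hP k s hs => by
      have hPp := V.isPGroup P hP
      have hPc : Nat.card P ∣ p := by
        have h3 : Nat.card (P.map V.S.subtype) = Nat.card P :=
          Nat.card_congr (P.equivMapOfInjective V.S.subtype V.S.subtype_injective).toEquiv.symm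
        rw [← h3]
        refine hfin _ (Nat.finite_of_card_ne_zero (by rw [h3]; exact Nat.card_pos.ne')) ?_
        exact hPp.map V.S.subtype
      refine CycZero.hmapZero hpp (u := resHom V.S (f k)) ?_ P hPc hs
      intro σ hσ
      have h4 : orderOf (σ : G) = p := by rw [Subgroup.orderOf_coe, hσ]
      exact hcyc k (σ : G) h4) s (by omega)
  have h2 : HMapZero V.S s (compT f (d * Nat.card (V.S ⧸ V.W) + 1)) := by
    intro F hF hdF
    obtain ⟨Y, hY, hdY⟩ := h1 F hF hdF
    refine ⟨Y, hY, hdY.trans ?_⟩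
    funext x
    have h5 : ∀ k (m : M k), compT (fun k => resHom V.S (f k)) k m = compT f k m := by
      intro k
      induction k with
      | zero => intro m; rfl
      | succ k ih => intro m; exact ih _
    exact h5 _ (F x)
  have h3 := HMapZero.of_coprime_index (P := V.S) V.isOpen_S (shapiroAt G V.S V.isOpen_S)
    (Nat.Coprime.symm V.coprime) (hM 0) (compT f (d * Nat.card (V.S ⧸ V.W) + 1)) (s := s)
    (by omega) h2
  have h4 : towerMap (fun i => (f i : M (i + 1) → M i)) (d * Nat.card (V.S ⧸ V.W) + 1) =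
      compT f (d * Nat.card (V.S ⧸ V.W) + 1) := by
    funext m
    exact towerMap_eq_compT f _ m
  rw [h4]
  exact h3

end Vale.Agent.P251.C
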