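import Mathlib.Topology.LocallyConstant.Algebra
import Mathlib.Topology.Compactness.Compact
import Mathlib.Topology.Homeomorph.Lemmas
import Mathlib.Tactic

/-!
P251, part C3: operators on locally constant functions.

An `R`-linear operator `T` between `R`-valued locally constant functions on compact spaces acts on
functions with values in any `R`-module `A` (`opA`), and in one variable on functions of several
variables (`opc`).
-/

open Topology

set_option linter.unusedSectionVars false

namespace Vale.Agent.P251.C

/-! ### currying -/

section curry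
variable {X Y Z : Type*} [TopologicalSpace X] [TopologicalSpace Y] [TopologicalSpace Z]

/-- currying of locally constant functions -/
def lcCurry [CompactSpace Y] {A : Type*} (F : LocallyConstant (X × Y) A) :
    LocallyConstant X (LocallyConstant Y A) where
  toFun x := F.comap ⟨fun y => (x, y), by fun_prop⟩
  isLocallyConstant := by
    rw [IsLocallyConstant.iff_eventually_eq]
    intro x₀
    have h := (isCompact_univ (X := Y)).eventually_forall_of_forall_eventually
      (x₀ := x₀) (P := fun x y => F (x, y) = F (x₀, y)) ?_
    · filter_upwards [h] with x hx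
      ext y
      exact hx y (Set.mem_univ y)
    · intro y _
      have h1 : ∀ᶠ z : X × Y in 𝓝 (x₀, y), F z = F (x₀, y) :=
        (IsLocallyConstant.iff_eventually_eq F).1 F.isLocallyConstant (x₀, y)
      have h2 : ∀ᶠ z : X × Y in 𝓝 (x₀, y), F (x₀, z.2) = F (x₀, y) := by
        have hc : Continuous fun z : X × Y => (x₀, z.2) := by fun_prop
        exact (hc.tendsto (x₀, y)).eventually h1
      filter_upwards [h1, h2] with z hz1 hz2
      rw [hz2]
      exact hz1

theorem lcCurry_apply [CompactSpace Y] {A : Type*} (F : LocallyConstant (X × Y) A) (x : X)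
    (y : Y) : lcCurry F x y = F (x, y) := rfl

/-- uncurrying of locally constant functions -/
def lcUncurry {A : Type*} (F : LocallyConstant X (LocallyConstant Y A)) :
    LocallyConstant (X × Y) A where
  toFun z := F z.1 z.2
  isLocallyConstant := by
    rw [IsLocallyConstant.iff_eventually_eq]
    rintro ⟨x, y⟩
    have h1 : ∀ᶠ z : X × Y in 𝓝 (x, y), F z.1 = F x :=
      (continuous_fst.tendsto (x, y)).eventually
        ((IsLocallyConstant.iff_eventually_eq F).1 F.isLocallyConstant x)
    have h2 : ∀ᶠ z : X × Y in 𝓝 (x, y), F x z.2 = F x y :=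
      (continuous_snd.tendsto (x, y)).eventually
        ((IsLocallyConstant.iff_eventually_eq (F x)).1 (F x).isLocallyConstant y)
    filter_upwards [h1, h2] with z hz1 hz2
    show F z.1 z.2 = F x y
    rw [hz1, hz2]

theorem lcUncurry_apply {A : Type*} (F : LocallyConstant X (LocallyConstant Y A)) (z : X × Y) :
    lcUncurry F z = F z.1 z.2 := rfl

end curry

/-! ### elementary tensors -/

section ten
variable {R : Type*} [CommRing R] {X Y Z : Type*} [TopologicalSpace X] [TopologicalSpace Y]
  [TopologicalSpace Z] {A A' : Type*} [AddCommGroup A] [Module R A] [AddCommGroup A'] [Module R A']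

/-- the function `x ↦ f x • a` -/
def ten (f : LocallyConstant X R) (a : A) : LocallyConstant X A := f.map fun r => r • a

theorem ten_apply (f : LocallyConstant X R) (a : A) (x : X) : ten f a x = f x • a := rfl

theorem ten_add (f : LocallyConstant X R) (a b : A) : ten f (a + b) = ten f a + ten f b := by
  ext x; simp [ten_apply, smul_add]

theorem add_ten (f g : LocallyConstant X R) (a : A) : ten (f + g) a = ten f a + ten g a := by
  ext x; simp [ten_apply, add_smul]

theorem zero_ten (a : A) : ten (0 : LocallyConstant X R) a = 0 := by
  ext x; simp [ten_apply]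

theorem ten_zero (f : LocallyConstant X R) : ten f (0 : A) = 0 := by
  ext x; simp [ten_apply]

theorem ten_smul (f : LocallyConstant X R) (r : R) (a : A) : ten f (r • a) = r • ten f a := by
  ext x
  exact smul_comm _ _ _

theorem smul_ten (f : LocallyConstant X R) (r : R) (a : A) : ten (r • f) a = r • ten f a := by
  ext x; simp [ten_apply, mul_smul]

theorem sum_ten {κ : Type*} (t : Finset κ) (f : κ → LocallyConstant X R) (a : A) :
    ten (∑ i ∈ t, f i) a = ∑ i ∈ t, ten (f i) a := by
  classical
  induction t using Finset.induction_on with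
  | empty => simp [zero_ten]
  | insert i t hi ih => rw [Finset.sum_insert hi, Finset.sum_insert hi, add_ten, ih]

theorem lc_sum_apply {κ : Type*} (t : Finset κ) (f : κ → LocallyConstant X A) (x : X) :
    (∑ i ∈ t, f i) x = ∑ i ∈ t, f i x := by
  classical
  induction t using Finset.induction_on with
  | empty => simp
  | insert i t hi ih => rw [Finset.sum_insert hi, Finset.sum_insert hi, ← ih]; rfl

open Classical in
/-- the characteristic function of a fibre -/
noncomputable def fib (R : Type*) [CommRing R] {K : Type*} (π : LocallyConstant X K) (k : K) :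
    LocallyConstant X R := π.map fun k' => if k' = k then 1 else 0

open Classical in
theorem fib_apply {K : Type*} (π : LocallyConstant X K) (k : K) (x : X) :
    fib R π k x = if π x = k then 1 else 0 := by
  unfold fib
  rw [LocallyConstant.map_apply, Function.comp_apply]

variable [CompactSpace X] [CompactSpace Y]

/-- the range of a locally constant function on a compact space -/
noncomputable def rng {K : Type*} (π : LocallyConstant X K) : Finset K := π.range_finite.toFinset

theorem mem_rng {K : Type*} (π : LocallyConstant X K) (x : X) : π x ∈ rng π := by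
  rw [rng, Set.Finite.mem_toFinset]
  exact Set.mem_range_self x

theorem mem_rng_iff {K : Type*} (π : LocallyConstant X K) (k : K) :
    k ∈ rng π ↔ ∃ x, π x = k := by
  rw [rng, Set.Finite.mem_toFinset]
  exact Iff.rfl

theorem sum_ten_fib (f : LocallyConstant X A) : ∑ a ∈ rng f, ten (fib R f a) a = f := by
  classical
  ext x
  rw [lc_sum_apply, Finset.sum_eq_single (f x)]
  · rw [ten_apply, fib_apply, if_pos rfl, one_smul]
  · intro b _ hb
    rw [ten_apply, fib_apply, if_neg (Ne.symm hb), zero_smul]
  · intro h
    exact absurd (mem_rng f x) h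

/-- grouping of the fibres -/
theorem sum_fib_filter {K L : Type*} [DecidableEq L] (π : LocallyConstant X K) (f' : K → L)
    (a : L) : ∑ k ∈ (rng π).filter (fun k => f' k = a), fib R π k = fib R (π.map f') a := by
  classical
  ext x
  rw [lc_sum_apply, fib_apply]
  by_cases h : f' (π x) = a
  · rw [Finset.sum_eq_single (π x)]
    · rw [fib_apply, if_pos rfl]
      exact (if_pos h).symm
    · intro b _ hb
      rw [fib_apply, if_neg (Ne.symm hb)]
    · intro hx
      exact absurd (Finset.mem_filter.2 ⟨mem_rng π x, h⟩) hx
  · rw [Finset.sum_eq_zero]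
    · exact (if_neg h).symm
    · intro b hb
      rw [Finset.mem_filter] at hb
      rw [fib_apply, if_neg]
      rintro rfl
      exact h hb.2

/-! ### the action of an operator on functions with values in a module -/

/-- the operator `T` on functions with values in `A` -/
noncomputable def opA (T : LocallyConstant X R →ₗ[R] LocallyConstant Y R)
    (f : LocallyConstant X A) : LocallyConstant Y A := ∑ a ∈ rng f, ten (T (fib R f a)) a

variable (T : LocallyConstant X R →ₗ[R] LocallyConstant Y R)

theorem opA_map {K : Type*} (π : LocallyConstant X K) (f' : K → A) :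
    opA T (π.map f') = ∑ k ∈ rng π, ten (T (fib R π k)) (f' k) := by
  classical
  have hmaps : ∀ k ∈ rng π, f' k ∈ rng (π.map f') := by
    intro k hk
    obtain ⟨x, rfl⟩ := (mem_rng_iff π k).1 hk
    exact mem_rng (π.map f') x
  rw [← Finset.sum_fiberwise_of_maps_to hmaps]
  unfold opA
  refine Finset.sum_congr rfl fun a _ => ?_
  rw [← sum_fib_filter π f' a, map_sum, sum_ten]
  refine Finset.sum_congr rfl fun k hk => ?_
  rw [(Finset.mem_filter.1 hk).2]

/-- the pair of two locally constant functions -/
def lcPair {K L : Type*} (f : LocallyConstant X K) (g : LocallyConstant X L) :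
    LocallyConstant X (K × L) := ⟨fun x => (f x, g x), f.isLocallyConstant.prodMk
      g.isLocallyConstant⟩

theorem opA_add (f g : LocallyConstant X A) : opA T (f + g) = opA T f + opA T g := by
  have key : ∀ π : LocallyConstant X (A × A), opA T (π.map fun z => z.1 + z.2) =
      opA T (π.map fun z => z.1) + opA T (π.map fun z => z.2) := by
    intro π
    rw [opA_map, opA_map, opA_map, ← Finset.sum_add_distrib]
    exact Finset.sum_congr rfl fun z _ => ten_add _ _ _
  exact key (lcPair f g)

theorem opA_smul (r : R) (f : LocallyConstant X A) : opA T (r • f) = r • opA T f := by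
  have h1 : r • f = f.map fun a => r • a := rfl
  rw [h1, opA_map, opA, Finset.smul_sum]
  exact Finset.sum_congr rfl fun z _ => ten_smul _ _ _

theorem opA_zero : opA T (0 : LocallyConstant X A) = 0 := by
  have := opA_smul T 0 (0 : LocallyConstant X A)
  rwa [zero_smul, zero_smul] at this

/-- `opA T` as a linear map -/
noncomputable def opAL : LocallyConstant X A →ₗ[R] LocallyConstant Y A where
  toFun := opA T
  map_add' := opA_add T
  map_smul' := opA_smul T

theorem opA_sum {κ : Type*} (t : Finset κ) (f : κ → LocallyConstant X A) :
    opA T (∑ i ∈ t, f i) = ∑ i ∈ t, opA T (f i) := map_sum (opAL T) f t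

theorem opA_ten (f : LocallyConstant X R) (a : A) : opA T (ten f a) = ten (T f) a := by
  have h1 : ten f a = f.map fun r => r • a := rfl
  rw [h1, opA_map]
  have h2 : ∀ r ∈ rng f, ten (T (fib R f r)) (r • a) = ten (T (r • fib R f r)) a := by
    intro r _
    rw [ten_smul, map_smul, smul_ten]
  rw [Finset.sum_congr rfl h2, ← sum_ten, ← map_sum]
  congr 2
  conv_rhs => rw [← sum_ten_fib (R := R) f]
  refine Finset.sum_congr rfl fun r _ => ?_
  ext x
  rw [ten_apply, LocallyConstant.smul_apply, smul_eq_mul, smul_eq_mul, mul_comm]

/-- naturality in the coefficients -/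
theorem opA_mapL (L : A →ₗ[R] A') (f : LocallyConstant X A) :
    opA T (f.map L) = (opA T f).map L := by
  classical
  rw [opA_map]
  ext y
  unfold opA
  rw [lc_sum_apply, LocallyConstant.map_apply, Function.comp_apply, lc_sum_apply, map_sum]
  refine Finset.sum_congr rfl fun a _ => ?_
  rw [ten_apply, ten_apply, map_smul]

/-- induction over locally constant functions -/
theorem lc_induction {p : LocallyConstant X A → Prop} (h0 : p 0)
    (hadd : ∀ f g, p f → p g → p (f + g)) (hten : ∀ (f : LocallyConstant X R) (a : A), p (ten f a))
    (f : LocallyConstant X A) : p f := by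
  classical
  rw [← sum_ten_fib (R := R) f]
  generalize rng f = t
  have : ∀ g : A → LocallyConstant X R, p (∑ a ∈ t, ten (g a) a) := by
    intro g
    induction t using Finset.induction_on with
    | empty => simpa using h0
    | insert i t hi ih =>
      rw [Finset.sum_insert hi]
      exact hadd _ _ (hten _ _) ih
  exact this _

theorem opA_comp [CompactSpace Z] (S : LocallyConstant Y R →ₗ[R] LocallyConstant Z R)
    (f : LocallyConstant X A) : opA S (opA T f) = opA (S ∘ₗ T) f := by
  refine lc_induction (R := R) (p := fun f => opA S (opA T f) = opA (S ∘ₗ T) f) ?_ ?_ ?_ f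
  · rw [opA_zero, opA_zero, opA_zero]
  · intro f g hf hg
    rw [opA_add, opA_add, opA_add, hf, hg]
  · intro f a
    rw [opA_ten, opA_ten, opA_ten]
    rfl

theorem opA_id (f : LocallyConstant X A) : opA (LinearMap.id (R := R)) f = f := by
  refine lc_induction (R := R) (p := fun f => opA (LinearMap.id (R := R)) f = f) ?_ ?_ ?_ f
  · rw [opA_zero]
  · intro f g hf hg
    rw [opA_add, hf, hg]
  · intro f a
    rw [opA_ten]
    rfl

theorem add_opA (S : LocallyConstant X R →ₗ[R] LocallyConstant Y R) (f : LocallyConstant X A) :
    opA (S + T) f = opA S f + opA T f := by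
  unfold opA
  rw [← Finset.sum_add_distrib]
  refine Finset.sum_congr rfl fun a _ => ?_
  rw [← add_ten]
  rfl

theorem zero_opA (f : LocallyConstant X A) :
    opA (0 : LocallyConstant X R →ₗ[R] LocallyConstant Y R) f = 0 := by
  unfold opA
  refine Finset.sum_eq_zero fun a _ => ?_
  rw [LinearMap.zero_apply, zero_ten]

/-- compatibility with continuous maps -/
theorem opA_comap {X' Y' : Type*} [TopologicalSpace X'] [TopologicalSpace Y'] [CompactSpace X']
    [CompactSpace Y'] (T' : LocallyConstant X' R →ₗ[R] LocallyConstant Y' R)
    (τ : C(X', X)) (υ : C(Y', Y))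
    (h : ∀ f : LocallyConstant X R, T' (f.comap τ) = (T f).comap υ) (f : LocallyConstant X A) :
    opA T' (f.comap τ) = (opA T f).comap υ := by
  refine lc_induction (R := R) (p := fun f => opA T' (f.comap τ) = (opA T f).comap υ) ?_ ?_ ?_ f
  · have h1 : (0 : LocallyConstant X A).comap τ = 0 := rfl
    rw [h1, opA_zero, opA_zero]
    rfl
  · intro f g hf hg
    have h1 : (f + g).comap τ = f.comap τ + g.comap τ := rfl
    rw [h1, opA_add, opA_add, hf, hg]
    rfl
  · intro f a
    have h1 : (ten f a).comap τ = ten (f.comap τ) a := rfl
    rw [h1, opA_ten, opA_ten, h]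
    rfl

end ten

/-! ### operators in one variable of functions of several variables -/

section several
variable {R : Type*} [CommRing R] {Q : Type*} [DecidableEq Q] {X : Type*}
  [TopologicalSpace X] [CompactSpace X] {A A' : Type*} [AddCommGroup A] [Module R A]
  [AddCommGroup A'] [Module R A']

/-- the function `x ↦ F (update x c z)` of the variables `z`, `x` -/
def slice (c : Q) (F : LocallyConstant (Q → X) A) :
    LocallyConstant X (LocallyConstant (Q → X) A) :=
  lcCurry (F.comap ⟨fun z : X × (Q → X) => Function.update z.2 c z.1, by fun_prop⟩)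

theorem slice_apply (c : Q) (F : LocallyConstant (Q → X) A) (z : X) (x : Q → X) :
    slice c F z x = F (Function.update x c z) := rfl

/-- the operator `T` in the variable `c` -/
noncomputable def opc (c : Q) (T : LocallyConstant X R →ₗ[R] LocallyConstant X R)
    (F : LocallyConstant (Q → X) A) : LocallyConstant (Q → X) A :=
  (lcUncurry (opA T (slice c F))).comap ⟨fun x => (x c, x), by fun_prop⟩

theorem opc_apply (c : Q) (T : LocallyConstant X R →ₗ[R] LocallyConstant X R)
    (F : LocallyConstant (Q → X) A) (x : Q → X) : opc c T F x = opA T (slice c F) (x c) x := rfl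

/-- `F` does not depend on the variable `c` -/
def Indep (c : Q) (F : LocallyConstant (Q → X) A) : Prop :=
  ∀ x z, F (Function.update x c z) = F x

/-- the function `x ↦ f (x c) • F x` -/
def mulc (c : Q) (f : LocallyConstant X R) (F : LocallyConstant (Q → X) A) :
    LocallyConstant (Q → X) A :=
  ⟨fun x => f (x c) • F x, by
    have h1 : IsLocallyConstant fun x : Q → X => f (x c) :=
      f.isLocallyConstant.comp_continuous (continuous_apply c)
    exact h1.comp₂ F.isLocallyConstant fun r a => r • a⟩

theorem mulc_apply (c : Q) (f : LocallyConstant X R) (F : LocallyConstant (Q → X) A) (x : Q → X) :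
    mulc c f F x = f (x c) • F x := rfl

theorem slice_mulc (c : Q) (f : LocallyConstant X R) {F : LocallyConstant (Q → X) A}
    (hF : Indep c F) : slice c (mulc c f F) = ten f F := by
  ext z x
  rw [slice_apply, mulc_apply, ten_apply, LocallyConstant.smul_apply, Function.update_self, hF]

theorem opc_mulc (c : Q) (T : LocallyConstant X R →ₗ[R] LocallyConstant X R)
    (f : LocallyConstant X R) {F : LocallyConstant (Q → X) A} (hF : Indep c F) :
    opc c T (mulc c f F) = mulc c (T f) F := by
  ext x
  rw [opc_apply, slice_mulc c f hF, opA_ten, ten_apply, LocallyConstant.smul_apply, mulc_apply]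

theorem slice_add (c : Q) (F G : LocallyConstant (Q → X) A) :
    slice c (F + G) = slice c F + slice c G := rfl

theorem slice_smul (c : Q) (r : R) (F : LocallyConstant (Q → X) A) :
    slice c (r • F) = r • slice c F := rfl

variable (T : LocallyConstant X R →ₗ[R] LocallyConstant X R)

theorem opc_add (c : Q) (F G : LocallyConstant (Q → X) A) :
    opc c T (F + G) = opc c T F + opc c T G := by
  ext x
  rw [opc_apply, slice_add, opA_add]
  rfl

theorem opc_smul (c : Q) (r : R) (F : LocallyConstant (Q → X) A) :
    opc c T (r • F) = r • opc c T F := by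
  ext x
  rw [opc_apply, slice_smul, opA_smul]
  rfl

/-- `opc` as a linear map -/
noncomputable def opcL (c : Q) (T : LocallyConstant X R →ₗ[R] LocallyConstant X R) :
    LocallyConstant (Q → X) A →ₗ[R] LocallyConstant (Q → X) A where
  toFun := opc c T
  map_add' := opc_add T c
  map_smul' := opc_smul T c

theorem opcL_apply (c : Q) (F : LocallyConstant (Q → X) A) : opcL c T F = opc c T F := rfl

theorem opc_zero (c : Q) : opc c T (0 : LocallyConstant (Q → X) A) = 0 := map_zero (opcL c T)

theorem opc_neg (c : Q) (F : LocallyConstant (Q → X) A) : opc c T (-F) = -opc c T F :=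
  map_neg (opcL c T) F

theorem opc_sub (c : Q) (F G : LocallyConstant (Q → X) A) :
    opc c T (F - G) = opc c T F - opc c T G := map_sub (opcL c T) F G

theorem opc_sum (c : Q) {κ : Type*} (t : Finset κ) (F : κ → LocallyConstant (Q → X) A) :
    opc c T (∑ i ∈ t, F i) = ∑ i ∈ t, opc c T (F i) := map_sum (opcL c T) F t

/-- **Induction in one variable**: every function is a sum of functions `f (x c) • G x`, where `G`
does not depend on the variable `c`; if `F` does not depend on a set of other variables, neither
do the functions `G`. -/
theorem ind_one {p : LocallyConstant (Q → X) A → Prop} (h0 : p 0)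
    (hadd : ∀ F G, p F → p G → p (F + G)) (c : Q) (s : Set Q)
    (hmul : ∀ (f : LocallyConstant X R) (G : LocallyConstant (Q → X) A), Indep c G →
      (∀ e ∈ s, Indep e G) → p (mulc c f G)) (F : LocallyConstant (Q → X) A)
    (hF : ∀ e ∈ s, Indep e F) : p F := by
  classical
  have h1 : F = ∑ G ∈ rng (slice c F), mulc c (fib R (slice c F) G) G := by
    ext x
    have h2 := congrArg (fun H : LocallyConstant X (LocallyConstant (Q → X) A) => H (x c) x)
      (sum_ten_fib (R := R) (slice c F))
    simp only [slice_apply, Function.update_eq_self] at h2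
    rw [← h2, lc_sum_apply, lc_sum_apply, lc_sum_apply]
    rfl
  have hind : ∀ G ∈ rng (slice c F), Indep c G ∧ ∀ e ∈ s, Indep e G := by
    intro G hG
    obtain ⟨z, rfl⟩ := (mem_rng_iff _ _).1 hG
    refine ⟨fun x y => ?_, fun e he x y => ?_⟩
    · rw [slice_apply, slice_apply, Function.update_idem]
    · rw [slice_apply, slice_apply]
      by_cases hec : e = c
      · subst hec
        rw [Function.update_idem]
      · rw [Function.update_comm hec]
        exact hF e he _ _
  rw [h1]
  generalize hφ : fib R (slice c F) = φ
  generalize rng (slice c F) = t at hind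
  induction t using Finset.induction_on with
  | empty => simpa using h0
  | insert G t hG ih =>
    rw [Finset.sum_insert hG]
    have h3 := hind G (Finset.mem_insert_self _ _)
    exact hadd _ _ (hmul _ _ h3.1 h3.2) (ih fun G' hG' => hind G' (Finset.mem_insert_of_mem hG'))

theorem opc_comp (c : Q) (S : LocallyConstant X R →ₗ[R] LocallyConstant X R)
    (F : LocallyConstant (Q → X) A) : opc c S (opc c T F) = opc c (S ∘ₗ T) F := by
  refine ind_one (R := R) (p := fun F => opc c S (opc c T F) = opc c (S ∘ₗ T) F) ?_ ?_ c ∅ ?_ F
    (by simp)
  · rw [opc_zero, opc_zero, opc_zero]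
  · intro F G hF hG
    rw [opc_add, opc_add, opc_add, hF, hG]
  · intro f G hG _
    rw [opc_mulc c T f hG, opc_mulc c S _ hG, opc_mulc c _ f hG]
    rfl

theorem opc_id (c : Q) (F : LocallyConstant (Q → X) A) : opc c (LinearMap.id (R := R)) F = F := by
  refine ind_one (R := R) (p := fun F => opc c (LinearMap.id (R := R)) F = F) ?_ ?_ c ∅ ?_ F
    (by simp)
  · rw [opc_zero]
  · intro F G hF hG
    rw [opc_add, hF, hG]
  · intro f G hG _
    rw [opc_mulc c _ f hG]
    rfl

theorem add_opc (c : Q) (S : LocallyConstant X R →ₗ[R] LocallyConstant X R)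
    (F : LocallyConstant (Q → X) A) : opc c (S + T) F = opc c S F + opc c T F := by
  ext x
  rw [opc_apply, add_opA]
  rfl

theorem zero_opc (c : Q) (F : LocallyConstant (Q → X) A) :
    opc c (0 : LocallyConstant X R →ₗ[R] LocallyConstant X R) F = 0 := by
  ext x
  rw [opc_apply, zero_opA]
  rfl

/-- naturality in the coefficients -/
theorem opc_mapL (c : Q) (L : A →ₗ[R] A') (F : LocallyConstant (Q → X) A) :
    opc c T (F.map L) = (opc c T F).map L := by
  ext x
  have h1 : slice c (F.map L) = (slice c F).map (LocallyConstant.mapₗ R L) := rfl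
  rw [opc_apply, h1, opA_mapL]
  rfl

/-- compatibility with maps which transform the variable `c'` to the variable `c` -/
theorem opc_comap {Q' : Type*} [DecidableEq Q'] (c : Q) (c' : Q') (g : C(Q' → X, Q → X))
    (τ : C(X, X)) (hg : ∀ x z, g (Function.update x c' z) = Function.update (g x) c (τ z))
    (hT : ∀ f : LocallyConstant X R, T (f.comap τ) = (T f).comap τ)
    (F : LocallyConstant (Q → X) A) : opc c' T (F.comap g) = (opc c T F).comap g := by
  have h0 : ∀ x, g x c = τ (x c') := by
    intro x
    have := hg x (x c')
    rw [Function.update_eq_self] at this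
    rw [this, Function.update_self]
  let L : LocallyConstant (Q → X) A →ₗ[R] LocallyConstant (Q' → X) A :=
    LocallyConstant.comapₗ R g
  have h1 : slice c' (F.comap g) = ((slice c F).comap τ).map L := by
    ext z x
    show F (g (Function.update x c' z)) = F (Function.update (g x) c (τ z))
    rw [hg]
  ext x
  rw [opc_apply, h1, opA_mapL, opA_comap T T τ τ hT]
  show opA T (slice c F) (τ (x c')) (g x) = opA T (slice c F) (g x c) (g x)
  rw [h0]

/-- the map `x ↦ update x c z` -/
def updC (c : Q) (z : X) : C(Q → X, Q → X) := ⟨fun x => Function.update x c z, by fun_prop⟩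

theorem opc_updC {c e : Q} (hce : c ≠ e) (z : X) (F : LocallyConstant (Q → X) A) :
    opc e T (F.comap (updC c z)) = (opc e T F).comap (updC c z) := by
  refine opc_comap T e e (updC c z) (ContinuousMap.id X) (fun x y => ?_) (fun f => rfl) F
  show Function.update (Function.update x e y) c z = Function.update (Function.update x c z) e y
  exact Function.update_comm hce.symm _ _ _

theorem indep_iff (c : Q) (F : LocallyConstant (Q → X) A) :
    Indep c F ↔ ∀ z, F.comap (updC c z) = F := by
  constructor
  · intro h z
    ext x
    exact h x z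
  · intro h x z
    exact DFunLike.congr_fun (h z) x

theorem Indep.opc {c e : Q} (hce : c ≠ e) {F : LocallyConstant (Q → X) A} (hF : Indep c F) :
    Indep c (opc e T F) := by
  rw [indep_iff] at hF ⊢
  intro z
  rw [← opc_updC T hce, hF]

theorem Indep.mulc {c e : Q} (hce : c ≠ e) {F : LocallyConstant (Q → X) A} (hF : Indep c F)
    (f : LocallyConstant X R) : Indep c (mulc e f F) := fun x z => by
  rw [mulc_apply, mulc_apply, hF, Function.update_of_ne hce.symm]

theorem opc_mulc_of_ne {c e : Q} (hce : c ≠ e) (f : LocallyConstant X R)
    (F : LocallyConstant (Q → X) A) : opc e T (mulc c f F) = mulc c f (opc e T F) := by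
  refine ind_one (R := R) (p := fun F => opc e T (mulc c f F) = mulc c f (opc e T F)) ?_ ?_ e ∅ ?_
    F (by simp)
  · have h1 : mulc c f (0 : LocallyConstant (Q → X) A) = 0 := by
      ext x; simp [mulc_apply]
    rw [opc_zero, h1, opc_zero]
  · intro F G hF hG
    have h1 : ∀ F G : LocallyConstant (Q → X) A, mulc c f (F + G) = mulc c f F + mulc c f G := by
      intro F G
      ext x; simp [mulc_apply]
    rw [h1, opc_add, opc_add, h1, hF, hG]
  · intro g G hG _
    have h1 : ∀ g : LocallyConstant X R, mulc c f (mulc e g G) = mulc e g (mulc c f G) := by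
      intro g
      ext x
      rw [mulc_apply, mulc_apply, mulc_apply, mulc_apply, smul_comm]
    rw [h1, opc_mulc e T g (hG.mulc hce.symm f), opc_mulc e T g hG, h1]

/-- operators in different variables commute -/
theorem opc_comm {c e : Q} (hce : c ≠ e) (S : LocallyConstant X R →ₗ[R] LocallyConstant X R)
    (F : LocallyConstant (Q → X) A) : opc c S (opc e T F) = opc e T (opc c S F) := by
  refine ind_one (R := R) (p := fun F => opc c S (opc e T F) = opc e T (opc c S F)) ?_ ?_ c ∅ ?_
    F (by simp)
  · rw [opc_zero, opc_zero, opc_zero]
  · intro F G hF hG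
    rw [opc_add, opc_add, opc_add, opc_add, hF, hG]
  · intro f G hG _
    rw [opc_mulc_of_ne T hce, opc_mulc c S f (Indep.opc T hce hG), opc_mulc c S f hG,
      opc_mulc_of_ne T hce]

end several

end Vale.Agent.P251.C
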