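import Vale.Agent.P251.C.Basic

/-!
# P251, part C1: long exact sequence arguments for homogeneous cochains

* `smul_lc`, `IsCoch.lift` (cochains with at least one argument lift along surjections),
  `IsCoch.of_inj` (cochains with values in the image of an injective map);
* `HMapZero.ladder`, `HZero.mid`, `HZero.right`, `HZero.left`: two out of three;
* `subAct`, `quotAct`: the action on a stable subgroup and on the quotient;
* `HMapZero.iter`: dimension shifting along a finite resolution, pro-version;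
  `HZero.iter`: the same for one module.
-/

set_option linter.unusedSectionVars false

open Finset Function

namespace Vale.Agent.P251.C

variable {G : Type*} [Group G] [TopologicalSpace G]

section coch

variable {M N : Type*} [AddCommGroup M] [AddCommGroup N] [DistribMulAction G M]
  [DistribMulAction G N]

theorem dd_mapG (u : M →+[G] N) {n : ℕ}
    (F : (Fin n → G) → M) : dd (fun x => u (F x)) = fun x => u (dd F x) :=
  dd_map (u : M →+ N) F

/-- A cochain with values in the image of an injective map comes from a cochain. -/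
theorem IsCoch.of_inj (u : M →+[G] N) (hu : Function.Injective u) {n : ℕ}
    {F : (Fin n → G) → N} (hF : IsCoch G F) (hr : ∀ x, ∃ m, u m = F x) :
    ∃ F' : (Fin n → G) → M, IsCoch G F' ∧ ∀ x, u (F' x) = F x := by
  classical
  have h1 : ∀ x, u (Function.invFun u (F x)) = F x := fun x =>
    Function.invFun_eq (hr x)
  refine ⟨fun x => Function.invFun u (F x), ⟨hF.lc.comp (Function.invFun u), ?_⟩, h1⟩
  intro g x
  apply hu
  rw [h1, map_smul, h1, hF.equi]

variable [IsTopologicalGroup G]

theorem smul_lc [DiscMod G M] (m : M) : IsLocallyConstant (fun g : G => g • m) := by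
  rw [IsLocallyConstant.iff_exists_open]
  intro g
  refine ⟨(fun h => g⁻¹ * h) ⁻¹' {k : G | k • m = m}, ?_, ?_, ?_⟩
  · exact (DiscMod.isOpen_stab m).preimage (continuous_const.mul continuous_id)
  · simp
  · intro h hh
    have h2 : (g⁻¹ * h) • m = m := hh
    rw [mul_smul, inv_smul_eq_iff] at h2
    exact h2

/-- Cochains (with at least one argument) lift along surjections of discrete modules. -/
theorem IsCoch.lift [DiscMod G M] (q : M →+[G] N) (hq : Function.Surjective q) {n : ℕ}
    {Y : (Fin (n + 1) → G) → N} (hY : IsCoch G Y) :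
    ∃ Y' : (Fin (n + 1) → G) → M, IsCoch G Y' ∧ ∀ x, q (Y' x) = Y x := by
  classical
  let c : (Fin (n + 1) → G) → N := fun x => Y (fun i => (x 0)⁻¹ * x i)
  have hc : IsLocallyConstant c := by
    apply hY.lc.comp_continuous
    fun_prop
  refine ⟨fun x => x 0 • Function.surjInv hq (c x), ⟨?_, ?_⟩, ?_⟩
  · rw [IsLocallyConstant.iff_eventually_eq]
    intro x
    have h1 : ∀ᶠ y in nhds x, c y = c x := (IsLocallyConstant.iff_eventually_eq c).1 hc x
    have h2 : IsLocallyConstant (fun y : Fin (n + 1) → G => y 0 • Function.surjInv hq (c x)) :=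
      (smul_lc (G := G) (Function.surjInv hq (c x))).comp_continuous (continuous_apply 0)
    have h3 := (IsLocallyConstant.iff_eventually_eq _).1 h2 x
    filter_upwards [h1, h3] with y hy1 hy2
    rw [hy1]
    exact hy2
  · intro g x
    have : c (fun i => g * x i) = c x := by
      simp only [c]
      congr 1
      funext i
      group
    simp only [this, mul_smul]
  · intro x
    rw [map_smul, Function.surjInv_eq hq, ← hY.equi]
    congr 1
    funext i
    group

end coch

section les

variable [IsTopologicalGroup G]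

/-- The ladder lemma: for a commutative diagram
`A₂ → B₂`, `A₁ → B₁ → C₁` (a complex), `0 → A₀ → B₀ → C₀ → 0` (exact), if
`H^{s+2}(B₂) → H^{s+2}(B₁)` and `H^{s+1}(C₁) → H^{s+1}(C₀)` are zero then
`H^{s+2}(A₂) → H^{s+2}(A₀)` is zero. -/
theorem HMapZero.ladder
    {A₂ B₂ A₁ B₁ C₁ A₀ B₀ C₀ : Type*}
    [AddCommGroup A₂] [DistribMulAction G A₂] [AddCommGroup B₂] [DistribMulAction G B₂]
    [AddCommGroup A₁] [DistribMulAction G A₁] [AddCommGroup B₁] [DistribMulAction G B₁]
    [AddCommGroup C₁] [DistribMulAction G C₁]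
    [AddCommGroup A₀] [DistribMulAction G A₀] [AddCommGroup B₀] [DistribMulAction G B₀]
    [AddCommGroup C₀] [DistribMulAction G C₀] [DiscMod G B₀]
    (i₂ : A₂ →+[G] B₂)
    (i₁ : A₁ →+[G] B₁) (q₁ : B₁ →+[G] C₁) (h₁ : ∀ a, q₁ (i₁ a) = 0)
    (i₀ : A₀ →+[G] B₀) (q₀ : B₀ →+[G] C₀) (hi₀ : Function.Injective i₀)
    (hq₀ : Function.Surjective q₀) (hex₀ : ∀ b, q₀ b = 0 → ∃ a, i₀ a = b)
    (uA : A₂ → A₁) (uB : B₂ → B₁) (huA : ∀ a, uB (i₂ a) = i₁ (uA a))
    (vA : A₁ → A₀) (vB : B₁ →+[G] B₀) (vC : C₁ → C₀)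
    (hvA : ∀ a, vB (i₁ a) = i₀ (vA a)) (hvC : ∀ b, vC (q₁ b) = q₀ (vB b))
    {s : ℕ} (hB : HMapZero G (s + 2) uB) (hC : HMapZero G (s + 1) vC) :
    HMapZero G (s + 2) (vA ∘ uA) := by
  intro F hF hdF
  obtain ⟨Y, hY, hdY⟩ := hB (i₂ ∘ F) (hF.map i₂) (by
    rw [show (i₂ ∘ F) = fun x => i₂ (F x) from rfl, dd_mapG, hdF]; funext x; simp)
  obtain ⟨W, hW, hdW⟩ := hC (q₁ ∘ Y) (hY.map q₁) (by
    rw [show (q₁ ∘ Y) = fun x => q₁ (Y x) from rfl, dd_mapG, hdY]
    funext x
    simp [huA, h₁])
  obtain ⟨W', hW', hqW'⟩ := hW.lift q₀ hq₀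
  have e0 : ∀ x, q₀ (dd W' x) = dd W x := by
    intro x
    have := congrFun (dd_mapG q₀ W') x
    rw [← this]
    congr 2
    funext y
    exact hqW' y
  obtain ⟨Y', hY', hiY'⟩ := IsCoch.of_inj i₀ hi₀ ((hY.map vB).sub hW'.dd) (by
    intro x
    apply hex₀
    have := congrFun hdW x
    simp only [Function.comp] at this
    simp only [Pi.sub_apply, Function.comp, map_sub, e0, this, ← hvC, sub_self])
  refine ⟨Y', hY', ?_⟩
  funext x
  apply hi₀
  have e1 := congrFun (dd_mapG i₀ Y') x
  rw [← e1, show (fun x => i₀ (Y' x)) = (fun x => vB (Y x)) - dd W' from funext hiY', dd_sub, dd_dd,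
    sub_zero, dd_mapG, hdY]
  simp [huA, hvA]

/-- two out of three, middle term -/
theorem HZero.mid {A B C : Type*} [AddCommGroup A] [AddCommGroup B] [AddCommGroup C]
    [DistribMulAction G A] [DistribMulAction G B] [DistribMulAction G C]
    [DiscMod G B]
    (i : A →+[G] B) (q : B →+[G] C) (hi : Function.Injective i) (hq : Function.Surjective q)
    (hex : ∀ b, q b = 0 → ∃ a, i a = b) {s : ℕ}
    (hA : HZero G A (s + 1)) (hC : HZero G C (s + 1)) : HZero G B (s + 1) := by
  intro F hF hdF
  obtain ⟨W, hW, hdW⟩ := hC (q ∘ F) (hF.map q) (by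
    rw [show (q ∘ F) = fun x => q (F x) from rfl, dd_mapG, hdF]
    funext x
    simp)
  obtain ⟨W', hW', hqW'⟩ := hW.lift q hq
  have e0 : ∀ x, q (dd W' x) = dd W x := by
    intro x
    have := congrFun (dd_mapG q W') x
    rw [← this]
    congr 2
    funext y
    exact hqW' y
  obtain ⟨Z, hZ, hiZ⟩ := IsCoch.of_inj i hi (hF.sub hW'.dd) (by
    intro x
    apply hex
    have := congrFun hdW x
    simp only [Function.comp] at this
    simp only [Pi.sub_apply, map_sub, e0, this, sub_self])
  obtain ⟨Y, hY, hdY⟩ := hA Z hZ (by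
    funext x
    apply hi
    have := congrFun (dd_mapG i Z) x
    rw [← this, show (fun x => i (Z x)) = F - dd W' from funext hiZ, dd_sub, dd_dd, hdF]
    simp)
  refine ⟨(i ∘ Y) + W', (hY.map i).add hW', ?_⟩
  rw [dd_add, show (i ∘ Y) = fun x => i (Y x) from rfl, dd_mapG, hdY,
    show (fun x => i (Z x)) = F - dd W' from funext hiZ]
  simp

/-- two out of three, right term -/
theorem HZero.right {A B C : Type*} [AddCommGroup A] [AddCommGroup B] [AddCommGroup C]
    [DistribMulAction G A] [DistribMulAction G B] [DistribMulAction G C]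
    [DiscMod G B]
    (i : A →+[G] B) (q : B →+[G] C) (hi : Function.Injective i) (hq : Function.Surjective q)
    (hq0 : ∀ a, q (i a) = 0)
    (hex : ∀ b, q b = 0 → ∃ a, i a = b) {s : ℕ}
    (hB : HZero G B s) (hA : HZero G A (s + 1)) : HZero G C s := by
  intro F hF hdF
  obtain ⟨W', hW', hqW'⟩ := hF.lift q hq
  obtain ⟨Z, hZ, hiZ⟩ := IsCoch.of_inj i hi hW'.dd (by
    intro x
    apply hex
    have := congrFun (dd_mapG q W') x
    rw [← this, show (fun x => q (W' x)) = F from funext hqW', hdF]
    rfl)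
  obtain ⟨Y, hY, hdY⟩ := hA Z hZ (by
    funext x
    apply hi
    have := congrFun (dd_mapG i Z) x
    rw [← this, show (fun x => i (Z x)) = dd W' from funext hiZ, dd_dd]
    simp)
  obtain ⟨X, hX, hdX⟩ := hB (W' - i ∘ Y) (hW'.sub (hY.map i)) (by
    rw [dd_sub, show (i ∘ Y) = fun x => i (Y x) from rfl, dd_mapG, hdY,
      show (fun x => i (Z x)) = dd W' from funext hiZ, sub_self])
  refine ⟨_, hX.map q, ?_⟩
  rw [show (q ∘ X) = fun x => q (X x) from rfl, dd_mapG, hdX]
  funext x
  simp [hqW', hq0]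

/-- two out of three, left term -/
theorem HZero.left {A B C : Type*} [AddCommGroup A] [AddCommGroup B] [AddCommGroup C]
    [DistribMulAction G A] [DistribMulAction G B] [DistribMulAction G C]
    [DiscMod G B]
    (i : A →+[G] B) (q : B →+[G] C) (hi : Function.Injective i) (hq : Function.Surjective q)
    (hq0 : ∀ a, q (i a) = 0)
    (hex : ∀ b, q b = 0 → ∃ a, i a = b) {s : ℕ}
    (hB : HZero G B (s + 2)) (hC : HZero G C (s + 1)) : HZero G A (s + 2) :=
  HMapZero.ladder (G := G) i i q hq0 i q hi hq hex id id (fun _ => rfl) id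
    (DistribMulActionHom.id G) id (fun _ => rfl) (fun _ => rfl) (s := s) (hzero_iff.1 hB)
    (hzero_iff.1 hC)

end les

section subquot

/-- the action on a stable subgroup -/
@[reducible] def subAct {M : Type*} [AddCommGroup M] [DistribMulAction G M] (A : AddSubgroup M)
    (hA : ∀ (g : G) (a : M), a ∈ A → g • a ∈ A) : DistribMulAction G A where
  smul g a := ⟨g • (a : M), hA g a a.2⟩
  one_smul a := Subtype.ext (one_smul G (a : M))
  mul_smul g h a := Subtype.ext (mul_smul g h (a : M))
  smul_zero g := Subtype.ext (smul_zero g)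
  smul_add g a b := Subtype.ext (smul_add g (a : M) (b : M))

/-- the action on the quotient by a stable subgroup -/
@[reducible] def quotAct {M : Type*} [AddCommGroup M] [DistribMulAction G M] (A : AddSubgroup M)
    (hA : ∀ (g : G) (a : M), a ∈ A → g • a ∈ A) : DistribMulAction G (M ⧸ A) where
  smul g := QuotientAddGroup.map A A (DistribSMul.toAddMonoidHom M g) (fun a ha => hA g a ha)
  one_smul a := by
    induction a using QuotientAddGroup.induction_on with
    | H z => exact congrArg _ (one_smul G z)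
  mul_smul g h a := by
    induction a using QuotientAddGroup.induction_on with
    | H z => exact congrArg _ (mul_smul g h z)
  smul_zero g := map_zero (QuotientAddGroup.map A A (DistribSMul.toAddMonoidHom M g)
    (fun a ha => hA g a ha))
  smul_add g a b := map_add (QuotientAddGroup.map A A (DistribSMul.toAddMonoidHom M g)
    (fun a ha => hA g a ha)) a b

end subquot

section iter

variable [IsTopologicalGroup G]

/-- the composite `M k → M 0` of the transition maps -/
def compT {M : ℕ → Type*} [∀ k, AddCommGroup (M k)] [∀ k, DistribMulAction G (M k)]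
    (u : ∀ k, M (k + 1) →+[G] M k) : ∀ k, M k →+[G] M 0
  | 0 => DistribMulActionHom.id G
  | k + 1 => (compT u k).comp (u k)

@[simp] theorem compT_zero {M : ℕ → Type*} [∀ k, AddCommGroup (M k)]
    [∀ k, DistribMulAction G (M k)] (u : ∀ k, M (k + 1) →+[G] M k) (m : M 0) :
    compT u 0 m = m := rfl

@[simp] theorem compT_succ {M : ℕ → Type*} [∀ k, AddCommGroup (M k)]
    [∀ k, DistribMulAction G (M k)] (u : ∀ k, M (k + 1) →+[G] M k) (k : ℕ) (m : M (k + 1)) :
    compT u (k + 1) m = compT u k (u k m) := rfl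

/-- Dimension shifting along a finite resolution `0 → M → J⁰ → … → J^l → 0`, for inverse systems:
if the transition maps of the `J^i` are zero in positive degrees, then the composite of `l + 1`
transition maps of `M` is zero in degrees `> l`. -/
theorem HMapZero.iter (l : ℕ) : ∀ (M : ℕ → Type) [∀ k, AddCommGroup (M k)]
    [∀ k, DistribMulAction G (M k)]
    (J : ℕ → ℕ → Type) [∀ k i, AddCommGroup (J k i)]
    [∀ k i, DistribMulAction G (J k i)] [∀ k i, DiscMod G (J k i)]
    (u : ∀ k, M (k + 1) →+[G] M k) (w : ∀ k i, J (k + 1) i →+[G] J k i)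
    (ε : ∀ k, M k →+[G] J k 0) (δ : ∀ k i, J k i →+[G] J k (i + 1))
    (_ : ∀ k, Function.Injective (ε k))
    (_ : ∀ k x, δ k 0 x = 0 ↔ ∃ m, ε k m = x)
    (_ : ∀ k i x, δ k (i + 1) x = 0 ↔ ∃ y, δ k i y = x)
    (_ : ∀ k m, w k 0 (ε (k + 1) m) = ε k (u k m))
    (_ : ∀ k i x, w k (i + 1) (δ (k + 1) i x) = δ k i (w k i x))
    (_ : ∀ k (x : J k (l + 1)), x = 0)
    (_ : ∀ k i s, 1 ≤ s → HMapZero G s (w k i)) (s : ℕ) (_ : l + 1 ≤ s),
    HMapZero G s (compT u (l + 1)) := by
  induction l with
  | zero =>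
    intro M _ _ J _ _ _ u w ε δ hε hex0 hex huw hδw hz hw s hs F hF hdF
    obtain ⟨Y, hY, hdY⟩ := hw 0 0 s hs (ε 1 ∘ F) (hF.map (ε 1)) (by
      rw [show (ε 1 ∘ F) = fun x => ε 1 (F x) from rfl, dd_mapG, hdF]
      funext x
      simp)
    obtain ⟨Y', hY', hiY'⟩ := IsCoch.of_inj (ε 0) (hε 0) hY
      (fun x => (hex0 0 _).1 (hz 0 _))
    refine ⟨Y', hY', ?_⟩
    funext x
    apply hε 0
    have e1 := congrFun (dd_mapG (ε 0) Y') x
    rw [← e1, show (fun x => ε 0 (Y' x)) = Y from funext hiY', hdY]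
    simp [huw]
  | succ l ih =>
    intro M _ _ J _ _ _ u w ε δ hε hex0 hex huw hδw hz hw s hs
    -- the first syzygies
    let Z : ∀ _ : ℕ, Type := fun k => ↥((δ k 1 : J k 1 →+ J k 2).ker)
    have hst : ∀ k (g : G) (a : J k 1), a ∈ (δ k 1 : J k 1 →+ J k 2).ker →
        g • a ∈ (δ k 1 : J k 1 →+ J k 2).ker := by
      intro k g a ha
      have ha' : δ k 1 a = 0 := ha
      change δ k 1 (g • a) = 0
      rw [map_smul, ha', smul_zero]
    let _ : ∀ k, DistribMulAction G (Z k) := fun k => subAct _ (hst k)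
    let uZ : ∀ k, Z (k + 1) →+[G] Z k := fun k =>
      { toFun := fun z => ⟨w k 1 z.1, by
          have h0 : δ (k + 1) 1 z.1 = 0 := z.2
          change δ k 1 (w k 1 z.1) = 0
          rw [← hδw, h0, map_zero]⟩
        map_smul' := fun g z => Subtype.ext (map_smul (w k 1) g z.1)
        map_zero' := Subtype.ext (map_zero (w k 1))
        map_add' := fun a b => Subtype.ext (map_add (w k 1) a.1 b.1) }
    let εZ : ∀ k, Z k →+[G] J k 1 := fun k =>
      { toFun := fun z => z.1
        map_smul' := fun g z => rfl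
        map_zero' := rfl
        map_add' := fun a b => rfl }
    have key := ih Z (fun k i => J k (i + 1)) uZ (fun k i => w k (i + 1)) εZ
      (fun k i => δ k (i + 1)) (fun k => Subtype.val_injective)
      (fun k x => ⟨fun h => ⟨⟨x, h⟩, rfl⟩, fun ⟨m, hm⟩ => hm ▸ m.2⟩)
      (fun k i x => hex k (i + 1) x) (fun k m => rfl) (fun k i x => hδw k (i + 1) x)
      (fun k x => hz k x) (fun k i s hs => hw k (i + 1) s hs) (s - 1) (by omega)
    obtain ⟨t, rfl⟩ : ∃ t, s = t + 2 := ⟨s - 2, by omega⟩
    have key' : HMapZero G (t + 1) (compT uZ (l + 1)) := key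
    let qZ : ∀ k, J k 0 →+[G] Z k := fun k =>
      { toFun := fun x => ⟨δ k 0 x, (hex k 0 _).2 ⟨x, rfl⟩⟩
        map_smul' := fun g z => Subtype.ext (map_smul (δ k 0) g z)
        map_zero' := Subtype.ext (map_zero (δ k 0))
        map_add' := fun a b => Subtype.ext (map_add (δ k 0) a b) }
    have hq : ∀ k, Function.Surjective (qZ k) := fun k z => by
      obtain ⟨y, hy⟩ := (hex k 0 z.1).1 z.2
      exact ⟨y, Subtype.ext hy⟩
    have hcomp : ∀ k (m : M k), compT (M := fun k => J k 0) (fun k => w k 0) k (ε k m) =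
        ε 0 (compT u k m) := by
      intro k
      induction k with
      | zero => intro m; rfl
      | succ k ihk =>
        intro m
        rw [compT_succ, huw, ihk]
        rfl
    have hcompZ : ∀ k (x : J k 0), compT uZ k (qZ k x) =
        qZ 0 (compT (M := fun k => J k 0) (fun k => w k 0) k x) := by
      intro k
      induction k with
      | zero => intro m; rfl
      | succ k ihk =>
        intro x
        rw [compT_succ, compT_succ, ← ihk]
        congr 1
        exact Subtype.ext (hδw k 0 x)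
    have := HMapZero.ladder (G := G) (ε (l + 2)) (ε (l + 1)) (qZ (l + 1))
      (fun a => Subtype.ext ((hex0 _ _).2 ⟨a, rfl⟩)) (ε 0) (qZ 0) (hε 0) (hq 0)
      (fun b hb => (hex0 0 b).1 (congrArg Subtype.val hb)) (u (l + 1)) (w (l + 1) 0)
      (fun a => huw _ a) (compT u (l + 1)) (compT (M := fun k => J k 0) (fun k => w k 0) (l + 1))
      (compT uZ (l + 1)) (fun a => hcomp _ a) (fun b => hcompZ _ b) (s := t)
      (hw (l + 1) 0 (t + 2) (by omega)) key'
    exact this

theorem compT_id {M : Type} [AddCommGroup M] [DistribMulAction G M] (k : ℕ) (m : M) :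
    compT (M := fun _ => M) (fun _ => DistribMulActionHom.id G) k m = m := by
  induction k with
  | zero => rfl
  | succ k ih => rw [compT_succ]; exact ih

/-- Dimension shifting along a finite resolution `0 → M → J⁰ → … → J^l → 0` by modules without
cohomology in positive degrees. -/
theorem HZero.iter (l : ℕ) (M : Type) [AddCommGroup M] [DistribMulAction G M]
    (J : ℕ → Type) [∀ i, AddCommGroup (J i)]
    [∀ i, DistribMulAction G (J i)] [∀ i, DiscMod G (J i)]
    (ε : M →+[G] J 0) (δ : ∀ i, J i →+[G] J (i + 1))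
    (hε : Function.Injective ε)
    (hex0 : ∀ x, δ 0 x = 0 ↔ ∃ m, ε m = x)
    (hex : ∀ i x, δ (i + 1) x = 0 ↔ ∃ y, δ i y = x)
    (hz : ∀ x : J (l + 1), x = 0)
    (hJ : ∀ i s, 1 ≤ s → HZero G (J i) s) (s : ℕ) (hs : l + 1 ≤ s) : HZero G M s := by
  have := HMapZero.iter (G := G) l (fun _ => M) (fun _ i => J i) (fun _ => DistribMulActionHom.id G)
    (fun _ _ => DistribMulActionHom.id G) (fun _ => ε) (fun _ i => δ i) (fun _ => hε)
    (fun _ x => hex0 x) (fun _ i x => hex i x) (fun _ _ => rfl) (fun _ _ _ => rfl)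
    (fun _ x => hz x) (fun _ i s hs => hJ i s hs) s hs
  intro F hF hd
  obtain ⟨Y, hY, hdY⟩ := this F hF hd
  refine ⟨Y, hY, hdY.trans ?_⟩
  funext x
  exact compT_id (l + 1) (F x)

end iter

end Vale.Agent.P251.C
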