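import Vale.Agent.P251.C.Shapiro
import Vale.Agent.P251.C.CorDim

/-!
# P251, part C2: Lemma X

Let `G` be a profinite group acting continuously on a profinite space `X` and let `u : M → N` be a
map of discrete `G`-modules inducing zero on `H^s(G_x; -)` for all `x ∈ X`, all stabilizers being
finite.  Then `u` induces zero on `H^s(G; LC(X, -))`.
-/

open Finset Function Set

namespace Vale.Agent.P251.C

section Aux

variable {X M N : Type*} [TopologicalSpace X] [AddCommGroup M] [AddCommGroup N]

theorem dd_apply_LC {G : Type*} {n : ℕ} (F : (Fin n → G) → LC X M) (h : Fin (n + 1) → G) (x : X) :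
    dd F h x = dd (fun k => F k x) h :=
  (congrFun (dd_map (LC.ev x) F) h).symm

theorem LC.map_dd {G : Type*} {n : ℕ} (u : M →+ N) (F : (Fin n → G) → LC X M) :
    dd (LC.map X u ∘ F) = LC.map X u ∘ dd F := dd_map' (LC.map X u) F

theorem isClopen_zeros {G : Type*} [TopologicalSpace G] [CompactSpace G] {n : ℕ}
    {D : (Fin n → G) → LC X N} (hD : IsLocallyConstant D) {x₀ : X}
    (hx : ∀ h, D h x₀ = 0) : IsClopen {x | ∀ h, D h x = 0} := by
  have h1 : IsLocallyConstant fun p : X × (Fin n → G) => D p.2 p.1 :=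
    (isLocallyConstant_uncurry D hD).comp_continuous continuous_swap
  constructor
  · have h2 : {x | ∀ h, D h x = 0} = ⋂ h, {x | D h x = 0} := by
      ext x; simp
    rw [h2]
    refine isClosed_iInter fun h => ?_
    exact ((D h).isLocallyConstant.isClopen_fiber 0).1
  · have h2 := isOpen_curry h1 x₀
    convert h2 using 3 with x
    simp only [hx]

variable {G : Type*} [Group G] [DistribMulAction G M] [DistribMulAction G N]

/-- restriction of the group acting -/
def resHom (P : Subgroup G) (u : M →+[G] N) : M →+[P] N :=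
  { (u : M →+ N) with map_smul' := fun p m => map_smul u (p : G) m }

@[simp] theorem resHom_apply (P : Subgroup G) (u : M →+[G] N) (m : M) : resHom P u m = u m := rfl

/-- In degree `0` there is no condition. -/
theorem HMapZero.zero [TopologicalSpace G] (u : M →+[G] N) : HMapZero G 0 u := by
  intro F hF hd
  have h1 : ∀ x y : Fin 1 → G, F x = F y := by
    intro x y
    have h2 := congrFun hd (Fin.cons (x 0) y : Fin 2 → G)
    rw [dd_cons, dd_one, Pi.zero_apply, sub_eq_zero] at h2
    rw [h2]
    congr 1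
    funext i
    refine Fin.cases ?_ (fun i => i.elim0) i
    simp
  refine ⟨fun _ => u (F fun _ => 1), ⟨IsLocallyConstant.const _, ?_⟩, ?_⟩
  · intro g x
    have h2 := hF.equi g (fun _ => 1)
    rw [← map_smul, ← h2, h1 (fun _ => g * 1) (fun _ => 1)]
  · funext x
    rw [dd_one, Function.comp_apply, h1 x (fun _ => 1)]

/-- Cohomology of the trivial group in positive degrees. -/
theorem HMapZero.of_subsingleton [TopologicalSpace G] [Subsingleton G] {s : ℕ} (u : M →+[G] N) :
    HMapZero G (s + 1) u := by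
  intro F hF hd
  refine ⟨fun x => u (F (Fin.cons 1 x)), ⟨?_, ?_⟩, ?_⟩
  · exact (hF.lc.comp_continuous (Continuous.finCons continuous_const continuous_id)).comp u
  · intro g x
    obtain rfl : g = 1 := Subsingleton.elim _ _
    simp
  · have h1 : dd (fun x : Fin (s + 1) → G => u (F (Fin.cons 1 x))) =
        fun x => u (dd (fun x : Fin (s + 1) → G => F (Fin.cons 1 x)) x) :=
      dd_map (u : M →+ N) _
    rw [h1]
    funext x
    have h2 := congrFun hd (Fin.cons 1 x : Fin (s + 3) → G)
    rw [dd_cons, Pi.zero_apply, sub_eq_zero] at h2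
    rw [Function.comp_apply, h2]

end Aux

section

variable {G : Type*} [Group G] [TopologicalSpace G] [IsTopologicalGroup G] [CompactSpace G]
  [T2Space G] [TotallyDisconnectedSpace G]
  {X : Type*} [TopologicalSpace X] [CompactSpace X] [T2Space X] [TotallyDisconnectedSpace X]
  [MulAction G X] [ContinuousSMul G X]
  {M N : Type*} [AddCommGroup M] [AddCommGroup N] [DistribMulAction G M] [DistribMulAction G N]

/-- extension of an equivariant function from an orbit -/
theorem exists_equivariant_extension [DiscMod G N] (x₀ : X) {s : ℕ}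
    (y : (Fin (s + 1) → G) → N) (hy : IsLocallyConstant y)
    (hy' : ∀ (p : MulAction.stabilizer G x₀) (x : Fin (s + 1) → G),
      y (fun i => p * x i) = p • y x) :
    ∃ Y : (Fin (s + 1) → G) → X → N,
      (IsLocallyConstant fun p : (Fin (s + 1) → G) × X => Y p.1 p.2) ∧
      (∀ (g : G) (h : Fin (s + 1) → G) (x : X), Y (fun i => g * h i) (g • x) = g • Y h x) ∧
      ∀ (g : G) (h : Fin (s + 1) → G), Y h (g • x₀) = g • y (fun i => g⁻¹ * h i) := by
  classical
  -- the closed set `C`
  let C : Set ((Fin s → G) × X) := {p | p.2 ∈ MulAction.orbit G x₀}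
  have hOclosed : IsClosed (MulAction.orbit G x₀) := by
    have h1 : MulAction.orbit G x₀ = Set.range fun g : G => g • x₀ := rfl
    rw [h1]
    exact (isCompact_range (continuous_id.smul continuous_const)).isClosed
  have hC : IsClosed C := hOclosed.preimage continuous_snd
  -- the map `θ`
  have hch : ∀ c : C, ∃ g : G, g • x₀ = c.1.2 := fun c => c.2
  choose γ hγ using hch
  let θ : C → N := fun c => γ c • y (fun i => (γ c)⁻¹ * (Fin.cons 1 c.1.1 : Fin (s + 1) → G) i)
  have wd : ∀ (g g' : G), g • x₀ = g' • x₀ → ∀ h : Fin (s + 1) → G,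
      g • y (fun i => g⁻¹ * h i) = g' • y (fun i => g'⁻¹ * h i) := by
    intro g g' hgg h
    have hp : g⁻¹ * g' ∈ MulAction.stabilizer G x₀ := by
      rw [MulAction.mem_stabilizer_iff, mul_smul, ← hgg, inv_smul_smul]
    have h1 := hy' ⟨g⁻¹ * g', hp⟩ (fun i => g'⁻¹ * h i)
    have h2 : (fun i => ((⟨g⁻¹ * g', hp⟩ : MulAction.stabilizer G x₀) : G) * (g'⁻¹ * h i)) =
        fun i => g⁻¹ * h i := by
      funext i; simp [mul_assoc]
    rw [h2] at h1
    rw [h1]
    change g • ((g⁻¹ * g') • y (fun i => g'⁻¹ * h i)) = _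
    rw [smul_smul, mul_inv_cancel_left]
  have hθ : IsLocallyConstant θ := by
    let q : (Fin s → G) × G → C := fun p => ⟨(p.1, p.2 • x₀), ⟨p.2, rfl⟩⟩
    have hq : Continuous q :=
      (continuous_fst.prodMk (continuous_snd.smul continuous_const)).subtype_mk _
    have hqs : Function.Surjective q := by
      rintro ⟨⟨k, x⟩, ⟨g, hg⟩⟩
      exact ⟨(k, g), Subtype.ext (Prod.ext rfl hg)⟩
    have hquot : Topology.IsQuotientMap q := hq.isClosedMap.isQuotientMap hq hqs
    have h1 : IsLocallyConstant (θ ∘ q) := by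
      have e : θ ∘ q = fun p : (Fin s → G) × G =>
          p.2 • y (fun i => p.2⁻¹ * (Fin.cons 1 p.1 : Fin (s + 1) → G) i) := by
        funext p
        exact wd _ _ (hγ (q p)) _
      rw [e]
      refine isLocallyConstant_smul continuous_snd (hy.comp_continuous ?_)
      refine continuous_pi fun i => ?_
      refine continuous_snd.inv.mul ?_
      have h2 : Continuous fun p : (Fin s → G) × G => (Fin.cons 1 p.1 : Fin (s + 1) → G) :=
        Continuous.finCons continuous_const continuous_fst
      exact (continuous_apply i).comp h2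
    intro S
    rw [← hquot.isOpen_preimage]
    exact h1 S
  obtain ⟨θ', hθ', hext⟩ := exists_extend hC θ hθ
  have hcont : Continuous fun p : (Fin (s + 1) → G) × X => p.1 0 :=
    (continuous_apply 0).comp continuous_fst
  refine ⟨fun h x => h 0 • θ' (fun i => (h 0)⁻¹ * h i.succ, (h 0)⁻¹ • x), ?_, ?_, ?_⟩
  · refine isLocallyConstant_smul hcont (hθ'.comp_continuous ?_)
    refine Continuous.prodMk (continuous_pi fun i => ?_) (hcont.inv.smul continuous_snd)
    exact hcont.inv.mul ((continuous_apply i.succ).comp continuous_fst)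
  · intro g h x
    simp only [mul_inv_rev, smul_smul, mul_assoc, inv_mul_cancel_left]
    rw [inv_mul_cancel, mul_one]
  · intro g h
    have hc : (((fun i => (h 0)⁻¹ * h i.succ, (h 0)⁻¹ • g • x₀) : (Fin s → G) × X)) ∈ C :=
      ⟨(h 0)⁻¹ * g, by simp [mul_smul]⟩
    have h1 := hext ⟨_, hc⟩
    have h2 : θ ⟨_, hc⟩ = ((h 0)⁻¹ * g) • y (fun i => ((h 0)⁻¹ * g)⁻¹ *
        (Fin.cons 1 (fun i => (h 0)⁻¹ * h i.succ) : Fin (s + 1) → G) i) := by
      apply wd
      rw [hγ ⟨_, hc⟩, mul_smul]
    have h3 : (fun i => ((h 0)⁻¹ * g)⁻¹ *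
        (Fin.cons 1 (fun i => (h 0)⁻¹ * h i.succ) : Fin (s + 1) → G) i) = fun i => g⁻¹ * h i := by
      funext i
      refine Fin.cases ?_ (fun j => ?_) i
      · simp
      · simp [mul_assoc]
    change h 0 • θ' (fun i => (h 0)⁻¹ * h i.succ, (h 0)⁻¹ • g • x₀) = _
    have h4 : θ' (fun i => (h 0)⁻¹ * h i.succ, (h 0)⁻¹ • g • x₀) = θ ⟨_, hc⟩ := h1
    rw [h4, h2, h3, smul_smul, mul_inv_cancel_left]

/-- Lemma X, with retractions given. -/
theorem lemmaX_of_retraction [DiscMod G N] {s : ℕ} (u : M →+[G] N)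
    (hret : ∀ x : X, ∃ ρ : G → MulAction.stabilizer G x, Continuous ρ ∧
      ∀ (p : MulAction.stabilizer G x) (g : G), ρ (p * g) = p * ρ g)
    (h : ∀ x : X, HMapZero (MulAction.stabilizer G x) (s + 1) u) :
    HMapZero G (s + 1) (LC.mapG X u) := by
  intro F hF hd
  have step : ∀ x₀ : X, ∃ Y : (Fin (s + 1) → G) → LC X N, IsCoch G Y ∧
      ∀ h, (dd Y - LC.mapG X u ∘ F) h x₀ = 0 := by
    intro x₀
    obtain ⟨ρ, hρ, hρ'⟩ := hret x₀
    have hev : dd (fun k => F k x₀) = 0 := by
      funext k
      rw [← dd_apply_LC, hd]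
      rfl
    obtain ⟨y, hy1, hy2, hy3⟩ := shapiro_aux (MulAction.stabilizer G x₀) hρ hρ'
      (resHom _ u) (h x₀) (fun k => F k x₀)
      (hF.lc.comp fun f : LC X M => f x₀) (by
        intro p k
        rw [hF.equi p k, LC.smul_apply]
        have : (p : G)⁻¹ • x₀ = x₀ := by
          rw [inv_smul_eq_iff]; exact p.2.symm
        rw [this]
        rfl) hev
    obtain ⟨Y, hY1, hY2, hY3⟩ := exists_equivariant_extension x₀ y hy1 hy2
    have hlc : ∀ k, IsLocallyConstant (Y k) := fun k =>
      hY1.comp_continuous (Continuous.prodMk continuous_const continuous_id)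
    refine ⟨fun k => LC.mk (Y k) (hlc k), ⟨isLocallyConstant_curry _ hY1, ?_⟩, ?_⟩
    · intro g k
      ext x
      rw [LC.smul_apply, LC.mk_apply, LC.mk_apply, ← hY2 g k, smul_inv_smul]
    · intro k
      have e1 : (fun k => Y k x₀) = y := by
        funext k
        have := hY3 1 k
        simpa using this
      have e2 : dd (fun k => LC.mk (Y k) (hlc k)) k x₀ = dd (fun k => Y k x₀) k :=
        dd_apply_LC _ _ _
      rw [Pi.sub_apply, LC.sub_apply, e2, e1, hy3]
      exact sub_self _
  choose Y hY hYx using step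
  have hDc : ∀ x₀, IsCoch G (dd (Y x₀) - LC.mapG X u ∘ F) := fun x₀ =>
    (hY x₀).dd.sub (hF.map _)
  have hcl : ∀ x₀, IsClopen {x | ∀ h, (dd (Y x₀) - LC.mapG X u ∘ F) h x = 0} := fun x₀ =>
    isClopen_zeros (hDc x₀).lc (hYx x₀)
  obtain ⟨c, hc1, hc2, hc3⟩ := exists_selection _ hcl fun x => ⟨x, hYx x⟩
  have hcG : ∀ (g : G) (x : X), c (g • x) = c x := by
    intro g x
    apply hc3
    intro j
    simp only [Set.mem_ofPred_eq]
    constructor
    · intro hz k
      have h1 := hz (fun i => g * k i)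
      rw [(hDc j).equi g k, LC.smul_apply, inv_smul_smul, smul_eq_zero_iff_eq] at h1
      exact h1
    · intro hz k
      have h1 := (hDc j).equi g (fun i => g⁻¹ * k i)
      simp only [mul_inv_cancel_left] at h1
      rw [h1, LC.smul_apply, inv_smul_smul, hz, smul_zero]
  have hlc : IsLocallyConstant fun p : (Fin (s + 1) → G) × X => Y (c p.2) p.1 p.2 := by
    rw [IsLocallyConstant.iff_exists_open]
    rintro ⟨k, x⟩
    obtain ⟨U, hU, hkU, h1⟩ := (IsLocallyConstant.iff_exists_open _).1
      (isLocallyConstant_uncurry _ (hY (c x)).lc) (k, x)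
    obtain ⟨V, hV, hxV, h2⟩ := (IsLocallyConstant.iff_exists_open _).1 hc1 x
    refine ⟨U ∩ (Prod.snd ⁻¹' V), hU.inter (hV.preimage continuous_snd), ⟨hkU, hxV⟩, ?_⟩
    rintro ⟨k', x'⟩ ⟨hk', hx'⟩
    have h3 := h2 x' hx'
    have h4 := h1 (k', x') hk'
    simp only at h3 h4 ⊢
    rw [h3, h4]
  have hlck : ∀ k, IsLocallyConstant fun x => Y (c x) k x := fun k =>
    hlc.comp_continuous (Continuous.prodMk continuous_const continuous_id)
  refine ⟨fun k => LC.mk _ (hlck k), ⟨isLocallyConstant_curry _ hlc, ?_⟩, ?_⟩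
  · intro g k
    ext x
    rw [LC.smul_apply, LC.mk_apply, LC.mk_apply, hcG, (hY (c x)).equi g k, LC.smul_apply]
  · funext k
    ext x
    have e1 : dd (fun k => LC.mk _ (hlck k)) k x = dd (fun k => Y (c x) k x) k :=
      dd_apply_LC _ _ _
    rw [e1, ← dd_apply_LC]
    have e2 := hc2 x k
    rw [Pi.sub_apply, LC.sub_apply, sub_eq_zero] at e2
    exact e2

/-- Lemma X. -/
theorem lemmaX [DiscMod G N] {s : ℕ} (u : M →+[G] N)
    (hfin : ∀ x : X, Finite (MulAction.stabilizer G x))
    (h : ∀ x : X, HMapZero (MulAction.stabilizer G x) s u) :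
    HMapZero G s (LC.mapG X u) := by
  rcases s with _ | s
  · exact HMapZero.zero _
  · exact lemmaX_of_retraction u
      (fun x => by
        have := hfin x
        exact exists_retraction_of_finite (MulAction.stabilizer G x)) h

/-- Lemma X for finite `G`-sets (continuous action). -/
theorem lemmaX_of_isOpen [DiscMod G N] {s : ℕ} (u : M →+[G] N)
    (hopen : ∀ x : X, IsOpen (MulAction.stabilizer G x : Set G))
    (h : ∀ x : X, HMapZero (MulAction.stabilizer G x) s u) :
    HMapZero G s (LC.mapG X u) := by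
  rcases s with _ | s
  · exact HMapZero.zero _
  · exact lemmaX_of_retraction u
      (fun x => exists_retraction_of_open (MulAction.stabilizer G x) (hopen x)) h

/-- Lemma X with `HZero`. -/
theorem lemmaX_hzero [DiscMod G M] {s : ℕ}
    (hfin : ∀ x : X, Finite (MulAction.stabilizer G x))
    (h : ∀ x : X, HZero (MulAction.stabilizer G x) M s) : HZero G (LC X M) s :=
  lemmaX (DistribMulActionHom.id G : M →+[G] M) hfin h

/-- Free actions. -/
theorem lemmaX_free [DiscMod G N] {s : ℕ} (u : M →+[G] N)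
    (hfree : ∀ (g : G) (x : X), g • x = x → g = 1) :
    HMapZero G (s + 1) (LC.mapG X u) := by
  have h1 : ∀ x : X, Subsingleton (MulAction.stabilizer G x) := fun x =>
    ⟨fun a b => Subtype.ext ((hfree a x a.2).trans (hfree b x b.2).symm)⟩
  refine lemmaX u (fun x => ?_) fun x => ?_
  · have := h1 x
    infer_instance
  · have := h1 x
    exact HMapZero.of_subsingleton (resHom _ u)

end

end Vale.Agent.P251.C
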