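import Vale.Agent.P251.C.Final
import Vale.Agent.P251.C.C6

/-!
# P251, part C: the theorems `CV` and `CP`
-/

namespace Vale.Agent.P251.C

open Vale.Agent.P251.I NpData

theorem c6 : C6_statement := by
  intro p d _ U _ _ _ hp2 h
  obtain ⟨B, e, -⟩ := id h
  have : CompactSpace U := e.symm.compactSpace
  have : T2Space U := e.symm.t2Space
  have : TotallyDisconnectedSpace U := e.symm.totallyDisconnectedSpace
  obtain ⟨ρ, hρ, hd⟩ := exists_resData hp2 h
  exact ⟨KX d U, inferInstance, inferInstance, inferInstance, inferInstance, inferInstance,
    inferInstance, ρ, hρ, hd, fun u z => free_KX u z⟩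

/-- Vanishing of the cohomology above the dimension, in the absence of elements of order `p`. -/
theorem CV : CV_statement := CV_of_C6 c6

/-- Pro-vanishing in high degrees. -/
theorem CP : CP_statement := CP_of_C6 c6

end Vale.Agent.P251.C
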