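import Vale.Agent.P251.C.Top

/-!
# P251, part C2: Shapiro's lemma for subgroups with a continuous equivariant retraction

* `exists_retraction_of_finite`: a finite subgroup `P` of a profinite group `G` has a continuous map
  `ρ : G → P` with `ρ (p * g) = p * ρ g`; `exists_retraction_of_open` is the case of open subgroups;
* `shapiro_aux`: `P`-equivariant locally constant cocycles on `G` are, after `u`, coboundaries of
  `P`-equivariant locally constant cochains on `G`, if `u` is zero on `H^s(P; -)`.
-/

open Finset Function Set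

namespace Vale.Agent.P251.C

section Prism

variable {G M N : Type*} [AddCommGroup M] [AddCommGroup N]

theorem comp_cons' {α β : Type*} (φ : α → β) {n : ℕ} (a : α) (y : Fin n → α) :
    φ ∘ (Fin.cons a y : Fin (n + 1) → α) = Fin.cons (φ a) (φ ∘ y) := by
  funext j
  refine Fin.cases ?_ (fun j => ?_) j <;> simp

theorem prism_comp (r φ : G → G) (h : ∀ g, r (φ g) = φ (r g)) {n : ℕ}
    (F : (Fin (n + 1) → G) → M) (x : Fin n → G) :
    prism r F (φ ∘ x) = prism r (fun y => F (φ ∘ y)) x := by
  induction n with
  | zero => rfl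
  | succ n ih =>
    have e1 : prism r F (φ ∘ x) = F (Fin.cons (φ (x 0)) (r ∘ φ ∘ x)) -
        prism r (fun y => F (Fin.cons (φ (x 0)) y)) (φ ∘ Fin.tail x) := rfl
    have e2 : prism r (fun y => F (φ ∘ y)) x = F (φ ∘ (Fin.cons (x 0) (r ∘ x))) -
        prism r (fun y => F (φ ∘ (Fin.cons (x 0) y))) (Fin.tail x) := rfl
    rw [e1, e2, ih]
    simp only [comp_cons']
    congr 3
    funext j
    simp [h]

theorem prism_map (r : G → G) (u : M →+ N) {n : ℕ} (F : (Fin (n + 1) → G) → M) (x : Fin n → G) :
    prism r (fun y => u (F y)) x = u (prism r F x) := by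
  induction n with
  | zero => exact (map_zero u).symm
  | succ n ih =>
    have e1 : prism r (fun y => u (F y)) x = u (F (Fin.cons (x 0) (r ∘ x))) -
        prism r (fun y => u (F (Fin.cons (x 0) y))) (Fin.tail x) := rfl
    rw [e1, ih, ← map_sub]
    rfl

theorem prism_zero (r : G → G) {n : ℕ} (x : Fin n → G) :
    prism r (0 : (Fin (n + 1) → G) → M) x = 0 := by
  have := congrFun (prism_sub r (0 : (Fin (n + 1) → G) → M) 0) x
  simpa using this

theorem isLocallyConstant_prism [TopologicalSpace G] [CompactSpace G] {r : G → G}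
    (hr : Continuous r) {n : ℕ} {F : (Fin (n + 1) → G) → M} (hF : IsLocallyConstant F) :
    IsLocallyConstant (prism r F) := by
  induction n with
  | zero => exact IsLocallyConstant.const (0 : M)
  | succ n ih =>
    have h1 : IsLocallyConstant fun x : Fin (n + 1) → G => F (Fin.cons (x 0) (r ∘ x)) := by
      refine hF.comp_continuous ?_
      refine Continuous.finCons (continuous_apply 0) ?_
      exact continuous_pi fun j => hr.comp (continuous_apply j)
    have h2 : IsLocallyConstant fun x : Fin (n + 1) → G =>
        prism r (fun y => F (Fin.cons (x 0) y)) (Fin.tail x) := by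
      rw [IsLocallyConstant.iff_exists_open]
      intro x
      have h3 : IsLocallyConstant fun y : Fin (n + 1) → G => F (Fin.cons (x 0) y) :=
        hF.comp_continuous (Continuous.finCons continuous_const continuous_id)
      have h4 := (ih h3).comp_continuous (f := fun x : Fin (n + 1) → G => Fin.tail x)
        (continuous_pi fun j => continuous_apply _)
      obtain ⟨U, hU, hxU, h⟩ := (IsLocallyConstant.iff_exists_open _).1 h4 x
      have h5 : IsLocallyConstant fun p : G × (Fin (n + 1) → G) => F (Fin.cons p.1 p.2) :=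
        hF.comp_continuous (Continuous.finCons continuous_fst continuous_snd)
      have h6 : IsOpen {x' : Fin (n + 1) → G | ∀ y : Fin (n + 1) → G,
          F (Fin.cons (x' 0) y) = F (Fin.cons (x 0) y)} :=
        (isOpen_curry h5 (x 0)).preimage
          (continuous_apply (0 : Fin (n + 1)) : Continuous fun x' : Fin (n + 1) → G => x' 0)
      refine ⟨U ∩ _, hU.inter h6, ⟨hxU, fun y => rfl⟩, fun x' hx' => ?_⟩
      have h7 : (fun y => F (Fin.cons (x' 0) y)) = fun y => F (Fin.cons (x 0) y) := by
        funext y; exact hx'.2 y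
      rw [h7]
      exact h x' hx'.1
    have h8 := h1.sub h2
    exact h8

end Prism

section Retraction

variable {G : Type*} [Group G] [TopologicalSpace G] [IsTopologicalGroup G]

/-- a locally constant equivariant retraction onto a subgroup meeting an open normal subgroup
trivially -/
theorem exists_retraction_aux (P V : Subgroup G) [V.Normal] (hV : IsOpen (V : Set G))
    (hPV : ∀ p ∈ P, p ∈ V → p = 1) :
    ∃ ρ : G → P, Continuous ρ ∧ ∀ (p : P) (g : G), ρ (p * g) = p * ρ g := by
  classical
  have key : ∀ a : G ⧸ V, ∃ p : P, p • (Quotient.out (Quotient.mk'' a :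
      MulAction.orbitRel.Quotient P (G ⧸ V))) = a := by
    intro a
    have h1 : (MulAction.orbitRel P (G ⧸ V)) (Quotient.out (Quotient.mk'' a :
      MulAction.orbitRel.Quotient P (G ⧸ V))) a := Quotient.exact (Quotient.out_eq _)
    have h2 : (MulAction.orbitRel P (G ⧸ V)) a (Quotient.out (Quotient.mk'' a :
      MulAction.orbitRel.Quotient P (G ⧸ V))) := (MulAction.orbitRel P (G ⧸ V)).symm h1
    rw [MulAction.orbitRel_apply] at h2
    exact h2
  choose σ hσ using key
  have free : ∀ (p q : P) (a : G ⧸ V), p • a = q • a → p = q := by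
    intro p q a h
    obtain ⟨g, rfl⟩ := QuotientGroup.mk_surjective a
    have h1 : ((p : G) * g : G ⧸ V) = ((q : G) * g : G ⧸ V) := h
    have h2 : ((p : G) : G ⧸ V) = ((q : G) : G ⧸ V) := mul_right_cancel h1
    have h3 : (q : G)⁻¹ * p ∈ V := QuotientGroup.eq.1 h2.symm
    have h4 := hPV _ (P.mul_mem (P.inv_mem q.2) p.2) h3
    apply Subtype.ext
    exact (inv_mul_eq_one.1 h4).symm
  refine ⟨fun g => σ (g : G ⧸ V), ?_, ?_⟩
  · have : DiscreteTopology (G ⧸ V) := QuotientGroup.discreteTopology hV
    exact continuous_of_discreteTopology.comp QuotientGroup.continuous_mk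
  · intro p g
    have h1 : (Quotient.mk'' ((p : G) * g : G ⧸ V) : MulAction.orbitRel.Quotient P (G ⧸ V)) =
        Quotient.mk'' (g : G ⧸ V) := by
      apply Quotient.sound
      change MulAction.orbitRel P (G ⧸ V) _ _
      rw [MulAction.orbitRel_apply]
      exact ⟨p, rfl⟩
    have h2 := hσ ((p : G) * g : G ⧸ V)
    rw [h1] at h2
    apply free _ _ (Quotient.out (Quotient.mk'' (g : G ⧸ V) :
      MulAction.orbitRel.Quotient P (G ⧸ V)))
    rw [mul_smul, hσ (g : G ⧸ V)]
    exact h2

theorem exists_retraction_of_finite [CompactSpace G] [T2Space G] [TotallyDisconnectedSpace G]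
    (P : Subgroup G) [Finite P] :
    ∃ ρ : G → P, Continuous ρ ∧ ∀ (p : P) (g : G), ρ (p * g) = p * ρ g := by
  have h0 : IsClosed ((P : Set G) \ {1}) := ((Set.toFinite (P : Set G)).subset Set.sdiff_subset).isClosed
  have h1 : IsOpen ((P : Set G) \ {1})ᶜ := h0.isOpen_compl
  obtain ⟨V, hV⟩ := ProfiniteGrp.exist_openNormalSubgroup_sub_open_nhds_of_one h1 (by simp)
  refine exists_retraction_aux P V.toSubgroup V.isOpen' fun p hp hpV => ?_
  by_contra hne
  exact hV hpV ⟨hp, hne⟩

/-- the case of open subgroups -/
theorem exists_retraction_of_open (P : Subgroup G) (hP : IsOpen (P : Set G)) :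
    ∃ ρ : G → P, Continuous ρ ∧ ∀ (p : P) (g : G), ρ (p * g) = p * ρ g := by
  classical
  have key : ∀ a : G, ∃ p : P, (p : G) * (Quotient.out (Quotient.mk'' a :
      MulAction.orbitRel.Quotient P G)) = a := by
    intro a
    have h1 : (MulAction.orbitRel P G) (Quotient.out (Quotient.mk'' a :
      MulAction.orbitRel.Quotient P G)) a := Quotient.exact (Quotient.out_eq _)
    have h2 : (MulAction.orbitRel P G) a (Quotient.out (Quotient.mk'' a :
      MulAction.orbitRel.Quotient P G)) := (MulAction.orbitRel P G).symm h1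
    rw [MulAction.orbitRel_apply] at h2
    exact h2
  choose σ hσ using key
  have hequi : ∀ (p : P) (g : G), σ (p * g) = p * σ g := by
    intro p g
    have h1 : (Quotient.mk'' ((p : G) * g) : MulAction.orbitRel.Quotient P G) =
        Quotient.mk'' g := by
      apply Quotient.sound
      change MulAction.orbitRel P G _ _
      rw [MulAction.orbitRel_apply]
      exact ⟨p, rfl⟩
    have h2 := hσ ((p : G) * g)
    rw [h1] at h2
    have h3 : ((σ ((p : G) * g) : P) : G) * (Quotient.out (Quotient.mk'' g :
      MulAction.orbitRel.Quotient P G)) = ((p * σ g : P) : G) * (Quotient.out (Quotient.mk'' g :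
      MulAction.orbitRel.Quotient P G)) := by
      rw [h2, Subgroup.coe_mul, mul_assoc, hσ g]
    exact Subtype.ext (mul_right_cancel h3)
  refine ⟨σ, ?_, hequi⟩
  rw [continuous_iff_continuousAt]
  intro g
  -- on the neighbourhood `P g` of `g` the map is `p g ↦ p σ(g)`
  have h1 : ∀ᶠ x in nhds g, x * g⁻¹ ∈ P := by
    have : Continuous fun x : G => x * g⁻¹ := continuous_mul_const g⁻¹
    refine this.continuousAt.eventually (hP.mem_nhds ?_)
    simp [P.one_mem]
  rw [ContinuousAt, nhds_subtype_eq_comap, Filter.tendsto_comap_iff]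
  have h2 : (fun x => ((σ x : P) : G)) =ᶠ[nhds g] fun x => x * g⁻¹ * σ g := by
    filter_upwards [h1] with x hx
    have := hequi ⟨x * g⁻¹, hx⟩ g
    simp only [inv_mul_cancel_right] at this
    rw [this]; rfl
  have h3 : Filter.Tendsto (fun x => x * g⁻¹ * (σ g : G)) (nhds g) (nhds (g * g⁻¹ * σ g)) :=
    ((continuous_mul_const g⁻¹).mul continuous_const).tendsto g
  rw [mul_inv_cancel, one_mul] at h3
  exact h3.congr' h2.symm

end Retraction

section Lift

variable {G : Type*} [Group G] [TopologicalSpace G] [CompactSpace G] (P : Subgroup G)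
  {M N : Type*} [AddCommGroup M] [AddCommGroup N] [DistribMulAction P M] [DistribMulAction P N]

/-- Shapiro's lemma, cochain form. -/
theorem shapiro_aux {ρ : G → P} (hρ : Continuous ρ) (hρ' : ∀ (p : P) (g : G), ρ (p * g) = p * ρ g)
    {s : ℕ} (u : M →+[P] N) (hu : HMapZero P s u) (f : (Fin (s + 1) → G) → M)
    (hf : IsLocallyConstant f)
    (hf' : ∀ (p : P) (x : Fin (s + 1) → G), f (fun i => p * x i) = p • f x) (hd : dd f = 0) :
    ∃ y : (Fin s → G) → N, IsLocallyConstant y ∧
      (∀ (p : P) (x : Fin s → G), y (fun i => p * x i) = p • y x) ∧ dd y = u ∘ f := by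
  obtain ⟨Y, hY, hY2⟩ := hu (fun x => f (Subtype.val ∘ x))
    ⟨hf.comp_continuous (continuous_pi fun j => continuous_subtype_val.comp (continuous_apply j)),
      fun p x => hf' p (Subtype.val ∘ x)⟩ (by
        funext x
        have := congrFun hd (Subtype.val ∘ x)
        exact this)
  set r : G → G := fun g => (ρ g : G) with hr
  have hrc : Continuous r := continuous_subtype_val.comp hρ
  refine ⟨fun x => Y (ρ ∘ x) - prism r (u ∘ f) x, ?_, ?_, ?_⟩
  · exact (hY.lc.comp_continuous (continuous_pi fun j => hρ.comp (continuous_apply j))).sub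
      (isLocallyConstant_prism hrc (hf.comp u))
  · intro p x
    have e1 : Y (ρ ∘ fun i => (p : G) * x i) = p • Y (ρ ∘ x) := by
      rw [← hY.equi p (ρ ∘ x)]
      congr 1
      funext i
      exact hρ' p (x i)
    have e2 : prism r (u ∘ f) (fun i => (p : G) * x i) = p • prism r (u ∘ f) x := by
      have h1 := prism_comp r (fun g => (p : G) * g) (fun g => by simp [hr, hρ']) (u ∘ f) x
      have h2 : (fun y : Fin (s + 1) → G => (u ∘ f) ((fun g => (p : G) * g) ∘ y)) =
          fun y => DistribSMul.toAddMonoidHom N p ((u ∘ f) y) := by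
        funext y
        have h3 := hf' p y
        have h4 : (fun g => (p : G) * g) ∘ y = fun i => (p : G) * y i := rfl
        simp only [Function.comp_apply, DistribSMul.toAddMonoidHom_apply, h4]
        rw [h3, map_smul]
      rw [h2, prism_map] at h1
      exact h1
    simp only [e1, e2, smul_sub]
  · have h1 : dd (fun x : Fin s → G => Y (ρ ∘ x) - prism r (u ∘ f) x) =
        dd (fun x : Fin s → G => Y (ρ ∘ x)) - dd (prism r (u ∘ f)) := dd_sub _ _
    rw [h1]
    funext x
    have h2 := prism_homotopy r (u ∘ f) x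
    have h3 : dd (u ∘ f) = 0 := by
      have := dd_map' (u : M →+ N) f
      have h4 : dd (u ∘ f) = u ∘ dd f := this
      rw [h4, hd]; funext x; simp
    rw [h3, prism_zero, add_zero] at h2
    have h4 : dd (fun x : Fin s → G => Y (ρ ∘ x)) x = u (f (r ∘ x)) := by
      rw [dd_comp ρ Y x, hY2]
      rfl
    rw [Pi.sub_apply, h4, h2]
    simp

end Lift

end Vale.Agent.P251.C
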