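import Vale.Agent.P251.C.LCOp
import Mathlib.Algebra.BigOperators.Group.Finset.Sigma
import Mathlib.Algebra.Ring.NegOnePow

/-!
P251, part C3: tensor induction.

From a finite resolution `0 → R → C(X₀, R) → … → C(X_d, R) → 0` (in total form: `X` the disjoint
union of the `X_i`) we build the tensor power over a finite set `Q` with coefficients in an
`R`-module `A`, as functions on `Q → X`. The Koszul signs are given by a tournament on `Q`: a
relation `r` such that exactly one of `r c e` and `r e c` holds for `c ≠ e`; if a group acts on `Q`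
and respects the tournament, it acts on the complex without signs.
-/

open Topology

set_option linter.unusedSectionVars false

namespace Vale.Agent.P251.C

section line
variable {R : Type*} [CommRing R] {Q : Type*} [DecidableEq Q] {X : Type*}
  [TopologicalSpace X] [CompactSpace X] {A A' : Type*} [AddCommGroup A] [Module R A]
  [AddCommGroup A'] [Module R A']

/-- the restriction of a function to a line in the direction `c` -/
def lineF (c : Q) (x : Q → X) (F : LocallyConstant (Q → X) A) : LocallyConstant X A :=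
  F.comap ⟨fun z => Function.update x c z, by fun_prop⟩

theorem lineF_apply (c : Q) (x : Q → X) (F : LocallyConstant (Q → X) A) (z : X) :
    lineF c x F z = F (Function.update x c z) := rfl

/-- `opc` is computed on lines -/
theorem opc_eq (c : Q) (T : LocallyConstant X R →ₗ[R] LocallyConstant X R)
    (F : LocallyConstant (Q → X) A) (x : Q → X) : opc c T F x = opA T (lineF c x F) (x c) := by
  let L : LocallyConstant (Q → X) A →ₗ[R] A :=
    { toFun := fun G => G x
      map_add' := fun _ _ => rfl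
      map_smul' := fun _ _ => rfl }
  have h1 : lineF c x F = (slice c F).map L := rfl
  rw [h1, opA_mapL]
  rfl

theorem opc_congr (c : Q) (T : LocallyConstant X R →ₗ[R] LocallyConstant X R)
    {F G : LocallyConstant (Q → X) A} {x : Q → X}
    (h : ∀ z, F (Function.update x c z) = G (Function.update x c z)) :
    opc c T F x = opc c T G x := by
  rw [opc_eq, opc_eq]
  congr 1
  congr 1
  ext z
  exact h z

end line

/-- A finite resolution of `R` by function modules, in total form: degree, differential,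
contracting homotopy, and the projection `e` to the constants in degree `0`. -/
structure ResData (R : Type*) [CommRing R] (X : Type*) [TopologicalSpace X] where
  /-- the degree -/
  deg : LocallyConstant X ℕ
  /-- the differential -/
  d : LocallyConstant X R →ₗ[R] LocallyConstant X R
  /-- the contracting homotopy -/
  h : LocallyConstant X R →ₗ[R] LocallyConstant X R
  /-- the augmentation -/
  ε : LocallyConstant X R →ₗ[R] R
  d_deg : ∀ n f, (∀ x, deg x ≠ n → f x = 0) → ∀ x, deg x ≠ n + 1 → d f x = 0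
  h_deg : ∀ n f, (∀ x, deg x ≠ n → f x = 0) → ∀ x, deg x + 1 ≠ n → h f x = 0
  ε_deg : ∀ n f, n ≠ 0 → (∀ x, deg x ≠ n → f x = 0) → ε f = 0
  dd : ∀ f, d (d f) = 0
  homotopy : ∀ f, h (d f) + d (h f) + ε f • (deg.map fun n => if n = 0 then (1 : R) else 0) = f
  d_one : d (deg.map fun n => if n = 0 then (1 : R) else 0) = 0
  ε_one : ε (deg.map fun n => if n = 0 then (1 : R) else 0) = 1

namespace ResData

variable {R : Type*} [CommRing R] {X : Type*} [TopologicalSpace X] [CompactSpace X]
  (ρ : ResData R X)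

/-- the characteristic function of the part of degree `0` -/
def one₀ : LocallyConstant X R := ρ.deg.map fun n => if n = 0 then (1 : R) else 0

theorem one₀_apply (x : X) : ρ.one₀ x = if ρ.deg x = 0 then 1 else 0 := rfl

/-- the projection to the constants in degree `0` -/
def e : LocallyConstant X R →ₗ[R] LocallyConstant X R where
  toFun f := ρ.ε f • ρ.one₀
  map_add' f g := by rw [map_add, add_smul]
  map_smul' r f := by rw [map_smul, smul_assoc]; rfl

theorem e_apply (f : LocallyConstant X R) : ρ.e f = ρ.ε f • ρ.one₀ := rfl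

theorem homotopy_eq : ρ.h ∘ₗ ρ.d + ρ.d ∘ₗ ρ.h + ρ.e = LinearMap.id :=
  LinearMap.ext fun f => ρ.homotopy f

theorem dd_eq : ρ.d ∘ₗ ρ.d = 0 := LinearMap.ext fun f => ρ.dd f

/-- the parity operator -/
def par : LocallyConstant X R →ₗ[R] LocallyConstant X R where
  toFun f := ⟨fun x => (-1 : R) ^ ρ.deg x * f x,
    ρ.deg.isLocallyConstant.comp₂ f.isLocallyConstant fun n r => (-1 : R) ^ n * r⟩
  map_add' f g := by ext x; exact mul_add _ _ _
  map_smul' r f := by ext x; exact mul_left_comm _ _ _

theorem par_apply (f : LocallyConstant X R) (x : X) : ρ.par f x = (-1 : R) ^ ρ.deg x * f x := rfl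

/-- the component of degree `n` -/
def cmp (n : ℕ) (f : LocallyConstant X R) : LocallyConstant X R :=
  ⟨fun x => if ρ.deg x = n then f x else 0,
    ρ.deg.isLocallyConstant.comp₂ f.isLocallyConstant fun k r => if k = n then r else 0⟩

theorem cmp_apply (n : ℕ) (f : LocallyConstant X R) (x : X) :
    ρ.cmp n f x = if ρ.deg x = n then f x else 0 := rfl

theorem cmp_deg (n : ℕ) (f : LocallyConstant X R) (x : X) (h : ρ.deg x ≠ n) :
    ρ.cmp n f x = 0 := by rw [cmp_apply, if_neg h]

theorem sum_cmp (f : LocallyConstant X R) : ∑ n ∈ rng ρ.deg, ρ.cmp n f = f := by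
  ext x
  rw [lc_sum_apply, Finset.sum_eq_single (ρ.deg x)]
  · rw [cmp_apply, if_pos rfl]
  · intro n _ hn
    rw [cmp_apply, if_neg (Ne.symm hn)]
  · intro h
    exact absurd (mem_rng _ _) h

/-- two linear maps agree if they agree on homogeneous functions -/
theorem ext_deg {B : Type*} [AddCommGroup B] [Module R B] {S T : LocallyConstant X R →ₗ[R] B}
    (h : ∀ n f, (∀ x, ρ.deg x ≠ n → f x = 0) → S f = T f) : S = T := by
  ext f
  rw [← ρ.sum_cmp f, map_sum, map_sum]
  exact Finset.sum_congr rfl fun n _ => h n _ (ρ.cmp_deg n f)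

theorem par_of_deg {n : ℕ} {f : LocallyConstant X R} (hf : ∀ x, ρ.deg x ≠ n → f x = 0) :
    ρ.par f = (-1 : R) ^ n • f := by
  ext x
  rw [par_apply, LocallyConstant.smul_apply, smul_eq_mul]
  by_cases h : ρ.deg x = n
  · rw [h]
  · rw [hf x h, mul_zero, mul_zero]

theorem d_par : ρ.d ∘ₗ ρ.par = -(ρ.par ∘ₗ ρ.d) := by
  refine ρ.ext_deg fun n f hf => ?_
  rw [LinearMap.comp_apply, LinearMap.neg_apply, LinearMap.comp_apply, ρ.par_of_deg hf,
    ρ.par_of_deg (ρ.d_deg n f hf), map_smul, pow_succ]
  simp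

theorem h_par : ρ.h ∘ₗ ρ.par = -(ρ.par ∘ₗ ρ.h) := by
  refine ρ.ext_deg fun n f hf => ?_
  rw [LinearMap.comp_apply, LinearMap.neg_apply, LinearMap.comp_apply, ρ.par_of_deg hf, map_smul]
  rcases n with _ | n
  · have h0 : ρ.h f = 0 := by
      ext x
      exact ρ.h_deg 0 f hf x (by omega)
    rw [h0]
    simp
  · rw [ρ.par_of_deg (n := n) fun x hx => ρ.h_deg (n + 1) f hf x (by omega), pow_succ]
    simp

end ResData

/-! ### homogeneity for functions with values in a module -/

section homog
variable {R : Type*} [CommRing R] {X : Type*} [TopologicalSpace X] [CompactSpace X]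
  {A : Type*} [AddCommGroup A] [Module R A] (ρ : ResData R X)

theorem fib_deg {n : ℕ} {f : LocallyConstant X A} (hf : ∀ x, ρ.deg x ≠ n → f x = 0) {a : A}
    (ha : a ≠ 0) (x : X) (hx : ρ.deg x ≠ n) : fib R f a x = 0 := by
  rw [fib_apply, if_neg]
  intro h
  exact ha (h ▸ hf x hx)

theorem opA_d_deg {n : ℕ} {f : LocallyConstant X A} (hf : ∀ x, ρ.deg x ≠ n → f x = 0) (x : X)
    (hx : ρ.deg x ≠ n + 1) : opA ρ.d f x = 0 := by
  unfold opA
  rw [lc_sum_apply]
  refine Finset.sum_eq_zero fun a _ => ?_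
  by_cases ha : a = 0
  · rw [ten_apply, ha, smul_zero]
  · rw [ten_apply, ρ.d_deg n _ (fib_deg ρ hf ha) x hx, zero_smul]

theorem opA_h_deg {n : ℕ} {f : LocallyConstant X A} (hf : ∀ x, ρ.deg x ≠ n → f x = 0) (x : X)
    (hx : ρ.deg x + 1 ≠ n) : opA ρ.h f x = 0 := by
  unfold opA
  rw [lc_sum_apply]
  refine Finset.sum_eq_zero fun a _ => ?_
  by_cases ha : a = 0
  · rw [ten_apply, ha, smul_zero]
  · rw [ten_apply, ρ.h_deg n _ (fib_deg ρ hf ha) x hx, zero_smul]

theorem opA_e_deg {n : ℕ} (hn : n ≠ 0) {f : LocallyConstant X A}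
    (hf : ∀ x, ρ.deg x ≠ n → f x = 0) : opA ρ.e f = 0 := by
  unfold opA
  refine Finset.sum_eq_zero fun a _ => ?_
  by_cases ha : a = 0
  · rw [ha, ten_zero]
  · rw [ResData.e_apply, ρ.ε_deg n _ hn (fib_deg ρ hf ha), zero_smul, zero_ten]

theorem opA_e_apply (f : LocallyConstant X A) {x y : X} (hx : ρ.deg x = 0) (hy : ρ.deg y = 0) :
    opA ρ.e f x = opA ρ.e f y := by
  unfold opA
  rw [lc_sum_apply, lc_sum_apply]
  refine Finset.sum_congr rfl fun a _ => ?_
  rw [ten_apply, ten_apply, ResData.e_apply, LocallyConstant.smul_apply,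
    LocallyConstant.smul_apply, ResData.one₀_apply, ResData.one₀_apply, if_pos hx, if_pos hy]

theorem opA_e_apply_of_ne (f : LocallyConstant X A) {x : X} (hx : ρ.deg x ≠ 0) :
    opA ρ.e f x = 0 := by
  unfold opA
  rw [lc_sum_apply]
  refine Finset.sum_eq_zero fun a _ => ?_
  rw [ten_apply, ResData.e_apply, LocallyConstant.smul_apply, ResData.one₀_apply, if_neg hx,
    smul_zero, zero_smul]

end homog

/-! ### the complex -/

/-- a tournament -/
structure IsTournament {Q : Type*} (r : Q → Q → Prop) : Prop where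
  irrefl : ∀ c, ¬ r c c
  iff_not : ∀ c e, c ≠ e → (r c e ↔ ¬ r e c)

section complex
variable {R : Type*} [CommRing R] {Q : Type*} [Fintype Q] [DecidableEq Q] {X : Type*}
  [TopologicalSpace X] [CompactSpace X] {A A' : Type*} [AddCommGroup A] [Module R A]
  [AddCommGroup A'] [Module R A'] (ρ : ResData R X) (r : Q → Q → Prop)

omit [DecidableEq Q] in
/-- the total degree -/
def tdeg (x : Q → X) : ℕ := ∑ c, ρ.deg (x c)

omit [DecidableEq Q] in
theorem tdeg_isLocallyConstant : IsLocallyConstant (tdeg (Q := Q) ρ) := by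
  have h : ∀ s : Finset Q, IsLocallyConstant fun x : Q → X => ∑ c ∈ s, ρ.deg (x c) := by
    classical
    intro s
    induction s using Finset.induction_on with
    | empty => exact IsLocallyConstant.const 0
    | insert c s hc ih =>
      have h1 : IsLocallyConstant fun x : Q → X => ρ.deg (x c) :=
        ρ.deg.isLocallyConstant.comp_continuous (continuous_apply c)
      have h2 := h1.add ih
      have h3 : (fun x : Q → X => ∑ c ∈ insert c s, ρ.deg (x c)) =
          (fun x : Q → X => ρ.deg (x c)) + fun x : Q → X => ∑ c ∈ s, ρ.deg (x c) := by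
        funext x
        rw [Finset.sum_insert hc]
        rfl
      rw [h3]
      exact h2
  exact h Finset.univ

/-- the degree without the variable `c` -/
def rdeg (c : Q) (x : Q → X) : ℕ := ∑ a ∈ Finset.univ.erase c, ρ.deg (x a)

theorem tdeg_eq (c : Q) (x : Q → X) : tdeg ρ x = rdeg ρ c x + ρ.deg (x c) := by
  unfold tdeg rdeg
  rw [Finset.sum_erase_add _ _ (Finset.mem_univ c)]

theorem rdeg_update (c : Q) (x : Q → X) (z : X) :
    rdeg ρ c (Function.update x c z) = rdeg ρ c x := by
  unfold rdeg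
  refine Finset.sum_congr rfl fun a ha => ?_
  rw [Function.update_of_ne (Finset.ne_of_mem_erase ha)]

theorem tdeg_update (c : Q) (x : Q → X) (z : X) :
    tdeg ρ (Function.update x c z) = rdeg ρ c x + ρ.deg z := by
  rw [tdeg_eq ρ c, rdeg_update, Function.update_self]

omit [DecidableEq Q] in
open Classical in
/-- the exponent of the Koszul sign -/
noncomputable def sexp (c : Q) (x : Q → X) : ℕ :=
  ∑ a, if r a c then ρ.deg (x a) else 0

open Classical in
/-- the exponent of the Koszul sign without the variable `e` -/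
noncomputable def rexp (c e : Q) (x : Q → X) : ℕ :=
  ∑ a ∈ Finset.univ.erase e, if r a c then ρ.deg (x a) else 0

open Classical in
theorem sexp_eq (c e : Q) (x : Q → X) :
    sexp ρ r c x = rexp ρ r c e x + if r e c then ρ.deg (x e) else 0 := by
  unfold sexp rexp
  rw [Finset.sum_erase_add _ _ (Finset.mem_univ e)]

theorem rexp_update (c e : Q) (x : Q → X) (z : X) :
    rexp ρ r c e (Function.update x e z) = rexp ρ r c e x := by
  unfold rexp
  refine Finset.sum_congr rfl fun a ha => ?_
  rw [Function.update_of_ne (Finset.ne_of_mem_erase ha)]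

theorem sexp_update_of_not {c e : Q} (h : ¬ r e c) (x : Q → X) (z : X) :
    sexp ρ r c (Function.update x e z) = sexp ρ r c x := by
  rw [sexp_eq ρ r c e, sexp_eq ρ r c e x, rexp_update, if_neg h, if_neg h]

omit [DecidableEq Q] in
theorem sexp_isLocallyConstant (c : Q) : IsLocallyConstant (sexp ρ r c) := by
  classical
  have h : ∀ s : Finset Q, IsLocallyConstant fun x : Q → X =>
      ∑ a ∈ s, if r a c then ρ.deg (x a) else 0 := by
    intro s
    induction s using Finset.induction_on with
    | empty => exact IsLocallyConstant.const 0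
    | insert b s hb ih =>
      have h1 : IsLocallyConstant fun x : Q → X => if r b c then ρ.deg (x b) else 0 := by
        by_cases h : r b c
        · simp only [if_pos h]
          exact ρ.deg.isLocallyConstant.comp_continuous (continuous_apply b)
        · simp only [if_neg h]
          exact IsLocallyConstant.const 0
      have h2 := h1.add ih
      have h3 : (fun x : Q → X => ∑ a ∈ insert b s, if r a c then ρ.deg (x a) else 0) =
          (fun x : Q → X => if r b c then ρ.deg (x b) else 0) +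
            fun x : Q → X => ∑ a ∈ s, if r a c then ρ.deg (x a) else 0 := by
        funext x
        rw [Finset.sum_insert hb]
        rfl
      rw [h3]
      exact h2
  have h4 := h Finset.univ
  unfold sexp
  exact h4

omit [DecidableEq Q] in
/-- multiplication by the Koszul sign -/
noncomputable def sm (c : Q) : LocallyConstant (Q → X) A →ₗ[R] LocallyConstant (Q → X) A where
  toFun F := ⟨fun x => (-1 : R) ^ sexp ρ r c x • F x,
    (sexp_isLocallyConstant ρ r c).comp₂ F.isLocallyConstant fun n a => (-1 : R) ^ n • a⟩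
  map_add' F G := by ext x; exact smul_add _ _ _
  map_smul' t F := by ext x; exact smul_comm _ _ _

omit [DecidableEq Q] in
theorem sm_apply (c : Q) (F : LocallyConstant (Q → X) A) (x : Q → X) :
    sm ρ r c F x = (-1 : R) ^ sexp ρ r c x • F x := rfl

theorem sm_sm (c : Q) (F : LocallyConstant (Q → X) A) : sm ρ r c (sm ρ r c F) = F := by
  ext x
  rw [sm_apply, sm_apply, smul_smul, ← pow_add, ← two_mul, pow_mul]
  simp

theorem sm_comm (c e : Q) (F : LocallyConstant (Q → X) A) :
    sm ρ r c (sm ρ r e F) = sm ρ r e (sm ρ r c F) := by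
  ext x
  rw [sm_apply, sm_apply, sm_apply, sm_apply, smul_comm]

theorem opA_par_apply (f : LocallyConstant X A) (x : X) :
    opA ρ.par f x = (-1 : R) ^ ρ.deg x • f x := by
  unfold opA
  rw [lc_sum_apply]
  conv_rhs => rw [← sum_ten_fib (R := R) f, lc_sum_apply, Finset.smul_sum]
  refine Finset.sum_congr rfl fun a _ => ?_
  rw [ten_apply, ten_apply, ResData.par_apply, mul_smul]

/-- an operator in the variable `e` and the sign of the variable `c`, if `e` does not enter the
sign -/
theorem opc_sm_of_not {c e : Q} (h : ¬ r e c) (T : LocallyConstant X R →ₗ[R] LocallyConstant X R)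
    (F : LocallyConstant (Q → X) A) : opc e T (sm ρ r c F) = sm ρ r c (opc e T F) := by
  ext x
  rw [sm_apply, opc_eq, opc_eq]
  have h1 : lineF e x (sm ρ r c F) = (-1 : R) ^ sexp ρ r c x • lineF e x F := by
    ext z
    rw [lineF_apply, sm_apply, sexp_update_of_not ρ r h]
    rfl
  rw [h1, opA_smul]
  rfl

/-- an odd operator in the variable `e` and the sign of the variable `c`, if `e` enters the
sign -/
theorem opc_sm_of_r {c e : Q} (h : r e c) {T : LocallyConstant X R →ₗ[R] LocallyConstant X R}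
    (hT : T ∘ₗ ρ.par = -(ρ.par ∘ₗ T)) (F : LocallyConstant (Q → X) A) :
    opc e T (sm ρ r c F) = -sm ρ r c (opc e T F) := by
  classical
  ext x
  rw [opc_eq]
  show _ = -(sm ρ r c (opc e T F) x)
  rw [sm_apply, opc_eq]
  have h1 : lineF e x (sm ρ r c F) = (-1 : R) ^ rexp ρ r c e x • opA ρ.par (lineF e x F) := by
    ext z
    rw [LocallyConstant.smul_apply, opA_par_apply, lineF_apply, lineF_apply, sm_apply,
      sexp_eq ρ r c e, rexp_update, if_pos h, Function.update_self, pow_add, mul_smul]
  have h2 : ∀ f : LocallyConstant X A, opA T (opA ρ.par f) = -opA ρ.par (opA T f) := by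
    intro f
    rw [opA_comp, opA_comp, hT]
    have h3 := add_opA (ρ.par ∘ₗ T) (-(ρ.par ∘ₗ T)) f
    rw [neg_add_cancel, zero_opA] at h3
    exact eq_neg_of_add_eq_zero_left h3.symm
  rw [h1, opA_smul, h2, sexp_eq ρ r c e, if_pos h, pow_add, mul_smul, ← opA_par_apply]
  show (-1 : R) ^ rexp ρ r c e x • (-(opA ρ.par (opA T (lineF e x F)) (x e))) = _
  rw [smul_neg]

/-- the differential -/
noncomputable def DD : LocallyConstant (Q → X) A →ₗ[R] LocallyConstant (Q → X) A :=
  ∑ c, sm ρ r c ∘ₗ opcL c ρ.d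

theorem DD_apply (F : LocallyConstant (Q → X) A) :
    DD ρ r F = ∑ c, sm ρ r c (opc c ρ.d F) := by
  unfold DD
  rw [LinearMap.sum_apply]
  rfl

/-- the partial homotopy -/
noncomputable def HH (c : Q) (F : LocallyConstant (Q → X) A) : LocallyConstant (Q → X) A :=
  sm ρ r c (opc c ρ.h F)

variable {r}

/-- odd operators with signs in different variables anticommute -/
theorem anti (hr : IsTournament r) {c e : Q} (hce : c ≠ e)
    {S T : LocallyConstant X R →ₗ[R] LocallyConstant X R}
    (hS : S ∘ₗ ρ.par = -(ρ.par ∘ₗ S)) (hT : T ∘ₗ ρ.par = -(ρ.par ∘ₗ T))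
    (F : LocallyConstant (Q → X) A) :
    sm ρ r c (opc c S (sm ρ r e (opc e T F))) + sm ρ r e (opc e T (sm ρ r c (opc c S F))) = 0 := by
  by_cases h : r c e
  · have h' : ¬ r e c := (hr.iff_not c e hce).1 h
    rw [opc_sm_of_r ρ r h hS, opc_sm_of_not ρ r h', opc_comm T hce S, map_neg, sm_comm]
    exact neg_add_cancel _
  · have h' : r e c := by
      by_contra h'
      exact h ((hr.iff_not c e hce).2 h')
    rw [opc_sm_of_not ρ r h, opc_sm_of_r ρ r h' hT, opc_comm T hce S, map_neg, sm_comm]
    exact add_neg_cancel _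

theorem same (hr : IsTournament r) (c : Q) (S T : LocallyConstant X R →ₗ[R] LocallyConstant X R)
    (F : LocallyConstant (Q → X) A) :
    sm ρ r c (opc c S (sm ρ r c (opc c T F))) = opc c (S ∘ₗ T) F := by
  rw [opc_sm_of_not ρ r (hr.irrefl c), sm_sm, opc_comp]

/-- `D² = 0` -/
theorem DD_DD (hr : IsTournament r) (F : LocallyConstant (Q → X) A) : DD ρ r (DD ρ r F) = 0 := by
  rw [DD_apply, DD_apply]
  have h1 : ∀ c : Q, sm ρ r c (opc c ρ.d (∑ e, sm ρ r e (opc e ρ.d F))) =
      ∑ e, sm ρ r c (opc c ρ.d (sm ρ r e (opc e ρ.d F))) := by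
    intro c
    rw [opc_sum, map_sum]
  simp only [h1]
  rw [← Finset.sum_product']
  refine Finset.sum_involution (fun z _ => (z.2, z.1)) ?_ ?_ (fun _ _ => Finset.mem_product.2
    ⟨Finset.mem_univ _, Finset.mem_univ _⟩) (fun _ _ => rfl)
  · rintro ⟨c, e⟩ _
    by_cases hce : c = e
    · subst hce
      show sm ρ r c (opc c ρ.d (sm ρ r c (opc c ρ.d F))) +
        sm ρ r c (opc c ρ.d (sm ρ r c (opc c ρ.d F))) = 0
      rw [same ρ hr, ρ.dd_eq, zero_opc, add_zero]
    · exact anti ρ hr hce ρ.d_par ρ.d_par F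
  · rintro ⟨c, e⟩ _ hne heq
    have h2 : e = c := congrArg Prod.fst heq
    subst h2
    apply hne
    show sm ρ r e (opc e ρ.d (sm ρ r e (opc e ρ.d F))) = 0
    rw [same ρ hr, ρ.dd_eq, zero_opc]

theorem homotopy (hr : IsTournament r) (c : Q) (F : LocallyConstant (Q → X) A) :
    HH ρ r c (DD ρ r F) + DD ρ r (HH ρ r c F) + opc c ρ.e F = F := by
  have h1 : HH ρ r c (DD ρ r F) = ∑ e, sm ρ r c (opc c ρ.h (sm ρ r e (opc e ρ.d F))) := by
    rw [HH, DD_apply, opc_sum, map_sum]
  have h2 : DD ρ r (HH ρ r c F) = ∑ e, sm ρ r e (opc e ρ.d (sm ρ r c (opc c ρ.h F))) := by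
    rw [DD_apply]
    rfl
  rw [h1, h2, ← Finset.sum_add_distrib, Finset.sum_eq_single c]
  · rw [same ρ hr, same ρ hr, ← add_opc, ← add_opc, ρ.homotopy_eq, opc_id]
  · intro e _ hec
    exact anti ρ hr (Ne.symm hec) ρ.h_par ρ.d_par F
  · intro h
    exact absurd (Finset.mem_univ c) h

/-! ### degrees -/

omit [DecidableEq Q] in
variable (A) in
/-- the functions of total degree `j` -/
def JJ (Q : Type*) [Fintype Q] (j : ℕ) : Submodule R (LocallyConstant (Q → X) A) where
  carrier := {F | ∀ x, tdeg ρ x ≠ j → F x = 0}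
  add_mem' := by
    intro F G hF hG x hx
    show F x + G x = 0
    rw [hF x hx, hG x hx, add_zero]
  zero_mem' := fun _ _ => rfl
  smul_mem' := by
    intro t F hF x hx
    show t • F x = 0
    rw [hF x hx, smul_zero]

omit [DecidableEq Q] in
theorem mem_JJ {j : ℕ} {F : LocallyConstant (Q → X) A} :
    F ∈ JJ A ρ Q j ↔ ∀ x, tdeg ρ x ≠ j → F x = 0 := Iff.rfl

theorem lineF_deg {j : ℕ} {F : LocallyConstant (Q → X) A} (hF : F ∈ JJ A ρ Q j) (c : Q)
    (x : Q → X) (z : X) (hz : rdeg ρ c x + ρ.deg z ≠ j) : lineF c x F z = 0 := by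
  rw [lineF_apply]
  refine hF _ ?_
  rwa [tdeg_update]

theorem lineF_eq_zero {j : ℕ} {F : LocallyConstant (Q → X) A} (hF : F ∈ JJ A ρ Q j) (c : Q)
    (x : Q → X) (hz : j < rdeg ρ c x) : lineF c x F = 0 := by
  ext z
  exact lineF_deg ρ hF c x z (by omega)

theorem opc_d_mem {j : ℕ} {F : LocallyConstant (Q → X) A} (hF : F ∈ JJ A ρ Q j) (c : Q) :
    opc c ρ.d F ∈ JJ A ρ Q (j + 1) := by
  intro x hx
  rw [opc_eq]
  rw [tdeg_eq ρ c] at hx
  by_cases h : j < rdeg ρ c x
  · rw [lineF_eq_zero ρ hF c x h, opA_zero]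
    rfl
  · refine opA_d_deg ρ (n := j - rdeg ρ c x) (fun z hz => lineF_deg ρ hF c x z (by omega)) _ ?_
    omega

theorem opc_h_mem {j : ℕ} {F : LocallyConstant (Q → X) A} (hF : F ∈ JJ A ρ Q j) (c : Q)
    (x : Q → X) (hx : tdeg ρ x + 1 ≠ j) : opc c ρ.h F x = 0 := by
  rw [opc_eq]
  rw [tdeg_eq ρ c] at hx
  by_cases h : j < rdeg ρ c x
  · rw [lineF_eq_zero ρ hF c x h, opA_zero]
    rfl
  · refine opA_h_deg ρ (n := j - rdeg ρ c x) (fun z hz => lineF_deg ρ hF c x z (by omega)) _ ?_
    omega

theorem opc_e_mem {j : ℕ} {F : LocallyConstant (Q → X) A} (hF : F ∈ JJ A ρ Q j) (c : Q) :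
    opc c ρ.e F ∈ JJ A ρ Q j := by
  intro x hx
  rw [opc_eq]
  rw [tdeg_eq ρ c] at hx
  by_cases h0 : ρ.deg (x c) = 0
  · by_cases h : j < rdeg ρ c x
    · rw [lineF_eq_zero ρ hF c x h, opA_zero]
      rfl
    · rw [opA_e_deg ρ (n := j - rdeg ρ c x) (by omega)
        (fun z hz => lineF_deg ρ hF c x z (by omega))]
      rfl
  · exact opA_e_apply_of_ne ρ _ h0

theorem sm_mem {j : ℕ} {F : LocallyConstant (Q → X) A} (hF : F ∈ JJ A ρ Q j) (c : Q) :
    sm ρ r c F ∈ JJ A ρ Q j := by
  intro x hx
  rw [sm_apply, hF x hx, smul_zero]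

theorem DD_mem {j : ℕ} {F : LocallyConstant (Q → X) A} (hF : F ∈ JJ A ρ Q j) :
    DD ρ r F ∈ JJ A ρ Q (j + 1) := by
  rw [DD_apply]
  exact Submodule.sum_mem _ fun c _ => sm_mem ρ (opc_d_mem ρ hF c) c

theorem HH_mem {j : ℕ} {F : LocallyConstant (Q → X) A} (hF : F ∈ JJ A ρ Q (j + 1)) (c : Q) :
    HH ρ r c F ∈ JJ A ρ Q j := by
  intro x hx
  rw [HH, sm_apply, opc_h_mem ρ hF c x (by omega), smul_zero]

theorem HH_zero {F : LocallyConstant (Q → X) A} (hF : F ∈ JJ A ρ Q 0) (c : Q) :
    HH ρ r c F = 0 := by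
  ext x
  rw [HH, sm_apply, opc_h_mem ρ hF c x (by omega), smul_zero]
  rfl

/-! ### exactness -/

theorem exact_aux (hr : IsTournament r) {j : ℕ} {F : LocallyConstant (Q → X) A}
    (hF : F ∈ JJ A ρ Q (j + 1)) (hD : DD ρ r F = 0) (l : List Q) :
    ∃ G ∈ JJ A ρ Q j, ∃ F' ∈ JJ A ρ Q (j + 1), F = DD ρ r G + F' ∧ DD ρ r F' = 0 ∧
      ∀ c ∈ l, ∀ x, ρ.deg (x c) ≠ 0 → F' x = 0 := by
  induction l with
  | nil => exact ⟨0, Submodule.zero_mem _, F, hF, by rw [map_zero, zero_add], hD, by simp⟩
  | cons c l ih =>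
    obtain ⟨G, hG, F', hF', hFG, hDF', hl⟩ := ih
    have h1 := homotopy ρ hr c F'
    have h2 : HH ρ r c (DD ρ r F') = 0 := by
      rw [hDF', HH, opc_zero, map_zero]
    rw [h2, zero_add] at h1
    refine ⟨G + HH ρ r c F', Submodule.add_mem _ hG (HH_mem ρ hF' c), opc c ρ.e F',
      opc_e_mem ρ hF' c, ?_, ?_, ?_⟩
    · rw [map_add, add_assoc, h1]
      exact hFG
    · have h3 := congrArg (DD ρ r) h1
      rw [map_add, DD_DD ρ hr, zero_add, hDF'] at h3
      exact h3
    · intro a ha x hx
      rw [opc_eq]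
      by_cases hac : a = c
      · subst hac
        exact opA_e_apply_of_ne ρ _ hx
      · have ha' : a ∈ l := by
          rcases List.mem_cons.1 ha with h | h
          · exact absurd h hac
          · exact h
        have h4 : lineF c x F' = 0 := by
          ext z
          rw [lineF_apply]
          refine hl a ha' _ ?_
          rwa [Function.update_of_ne hac]
        rw [h4, opA_zero]
        rfl

/-- **exactness in positive degrees** -/
theorem exact_pos (hr : IsTournament r) {j : ℕ} {F : LocallyConstant (Q → X) A}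
    (hF : F ∈ JJ A ρ Q (j + 1)) (hD : DD ρ r F = 0) : ∃ G ∈ JJ A ρ Q j, DD ρ r G = F := by
  obtain ⟨G, hG, F', hF', hFG, -, hl⟩ := exact_aux ρ hr hF hD Finset.univ.toList
  refine ⟨G, hG, ?_⟩
  have h0 : F' = 0 := by
    ext x
    by_cases h : ∀ c, ρ.deg (x c) = 0
    · refine hF' x ?_
      unfold tdeg
      rw [Finset.sum_eq_zero fun c _ => h c]
      omega
    · push Not at h
      obtain ⟨c, hc⟩ := h
      exact hl c (Finset.mem_toList.2 (Finset.mem_univ c)) x hc
  rw [hFG, h0, add_zero]

omit [DecidableEq Q] in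
/-- the augmentation -/
def aug : A →ₗ[R] LocallyConstant (Q → X) A where
  toFun a := ⟨fun x => if tdeg ρ x = 0 then a else 0,
    (tdeg_isLocallyConstant ρ).comp fun n => if n = 0 then a else 0⟩
  map_add' a b := by
    ext x
    show (if tdeg ρ x = 0 then a + b else 0) = (if tdeg ρ x = 0 then a else 0) +
      (if tdeg ρ x = 0 then b else 0)
    split_ifs <;> simp
  map_smul' t a := by
    ext x
    show (if tdeg ρ x = 0 then t • a else 0) = t • (if tdeg ρ x = 0 then a else 0)
    split_ifs <;> simp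

omit [DecidableEq Q] in
theorem aug_apply (a : A) (x : Q → X) : aug ρ a x = if tdeg ρ x = 0 then a else 0 := rfl

omit [DecidableEq Q] in
theorem aug_mem (a : A) : aug (Q := Q) ρ a ∈ JJ A ρ Q 0 := fun x hx => by
  rw [aug_apply, if_neg hx]

theorem DD_aug (a : A) : DD ρ r (aug ρ a) = 0 := by
  rw [DD_apply]
  refine Finset.sum_eq_zero fun c _ => ?_
  have h1 : opc c ρ.d (aug ρ a) = 0 := by
    ext x
    rw [opc_eq]
    by_cases h : rdeg ρ c x = 0
    · have h2 : lineF c x (aug ρ a) = ten ρ.one₀ a := by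
        ext z
        rw [lineF_apply, aug_apply, tdeg_update, h, zero_add, ten_apply, ResData.one₀_apply]
        split_ifs <;> simp
      rw [h2, opA_ten, ResData.one₀, ρ.d_one, zero_ten]
      rfl
    · rw [lineF_eq_zero ρ (aug_mem ρ a) c x (Nat.pos_of_ne_zero h), opA_zero]
      rfl
  rw [h1, map_zero]

omit [DecidableEq Q] in
theorem exists_deg_zero [Nontrivial R] : ∃ x, ρ.deg x = 0 := by
  by_contra h
  push Not at h
  have h1 : ρ.one₀ = 0 := by
    ext x
    rw [ResData.one₀_apply, if_neg (h x)]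
    rfl
  have h2 := ρ.ε_one
  have h3 : (ρ.deg.map fun n => if n = 0 then (1 : R) else 0) = 0 := h1
  rw [h3, map_zero] at h2
  exact zero_ne_one h2

omit [DecidableEq Q] in
theorem aug_injective : Function.Injective (aug (Q := Q) (A := A) ρ) := by
  rw [← LinearMap.ker_eq_bot, LinearMap.ker_eq_bot']
  intro a ha
  rcases subsingleton_or_nontrivial R with h | h
  · have : (1 : R) = 0 := Subsingleton.elim _ _
    rw [← one_smul R a, this, zero_smul]
  · obtain ⟨x, hx⟩ := exists_deg_zero ρ
    have h1 := DFunLike.congr_fun ha (fun _ : Q => x)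
    rw [aug_apply, if_pos] at h1
    · exact h1
    · unfold tdeg
      exact Finset.sum_eq_zero fun c _ => hx

/-- **exactness in degree zero** -/
theorem exact_zero (hr : IsTournament r) {F : LocallyConstant (Q → X) A}
    (hF : F ∈ JJ A ρ Q 0) (hD : DD ρ r F = 0) : ∃ a, aug ρ a = F := by
  classical
  have h1 : ∀ c, opc c ρ.e F = F := by
    intro c
    have h2 := homotopy ρ hr c F
    have h3 : HH ρ r c (DD ρ r F) = 0 := by
      rw [hD, HH, opc_zero, map_zero]
    rw [h3, HH_zero ρ hF, map_zero, zero_add, zero_add] at h2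
    exact h2
  have h2 : ∀ (c : Q) (x : Q → X) (z : X), ρ.deg (x c) = 0 → ρ.deg z = 0 →
      F (Function.update x c z) = F x := by
    intro c x z hx hz
    have h3 : lineF c (Function.update x c z) F = lineF c x F := by
      ext w
      rw [lineF_apply, lineF_apply, Function.update_idem]
    conv_lhs => rw [← h1 c, opc_eq, h3, Function.update_self]
    conv_rhs => rw [← h1 c, opc_eq]
    exact opA_e_apply ρ _ hz hx
  have h3 : ∀ x y : Q → X, (∀ c, ρ.deg (x c) = 0) → (∀ c, ρ.deg (y c) = 0) → F x = F y := by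
    intro x y hx hy
    have h4 : ∀ s : Finset Q, F (s.piecewise y x) = F x := by
      intro s
      induction s using Finset.induction_on with
      | empty => rw [Finset.piecewise_empty]
      | insert c s hc ih =>
        rw [Finset.piecewise_insert, h2 c _ _ ?_ (hy c), ih]
        rw [Finset.piecewise_eq_of_notMem _ _ _ hc]
        exact hx c
    have h5 := h4 Finset.univ
    rw [Finset.piecewise_univ] at h5
    exact h5.symm
  have h0 : ∀ x : Q → X, tdeg ρ x = 0 → ∀ c, ρ.deg (x c) = 0 := by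
    intro x hx c
    unfold tdeg at hx
    exact (Finset.sum_eq_zero_iff.1 hx) c (Finset.mem_univ c)
  by_cases h : ∃ x : Q → X, tdeg ρ x = 0
  · obtain ⟨x₀, hx₀⟩ := h
    refine ⟨F x₀, ?_⟩
    ext x
    rw [aug_apply]
    split_ifs with hx
    · exact h3 _ _ (h0 _ hx₀) (h0 _ hx)
    · exact (hF x hx).symm
  · push Not at h
    refine ⟨0, ?_⟩
    ext x
    rw [map_zero, hF x (h x)]
    rfl

/-! ### naturality -/

omit [DecidableEq Q] in
theorem sm_map (L : A →ₗ[R] A') (c : Q) (F : LocallyConstant (Q → X) A) :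
    sm ρ r c (F.map L) = (sm ρ r c F).map L := by
  ext x
  rw [sm_apply, LocallyConstant.map_apply, LocallyConstant.map_apply, Function.comp_apply,
    Function.comp_apply, sm_apply, map_smul]

/-- the differential is natural in the coefficients -/
theorem DD_map (L : A →ₗ[R] A') (F : LocallyConstant (Q → X) A) :
    DD ρ r (F.map L) = (DD ρ r F).map L := by
  have h1 : (DD ρ r F).map L = LocallyConstant.mapₗ R L (DD ρ r F) := rfl
  rw [h1, DD_apply, DD_apply, map_sum]
  refine Finset.sum_congr rfl fun c _ => ?_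
  rw [opc_mapL, sm_map]
  rfl

omit [DecidableEq Q] in
theorem map_mem (L : A →ₗ[R] A') {j : ℕ} {F : LocallyConstant (Q → X) A}
    (hF : F ∈ JJ A ρ Q j) : F.map L ∈ JJ A' ρ Q j := fun x hx => by
  rw [LocallyConstant.map_apply, Function.comp_apply, hF x hx, map_zero]

/-- the differential and transformations of `Q → X` over permutations of `Q` -/
theorem DD_comap (σ : Equiv.Perm Q) (hσ : ∀ a b, r a b ↔ r (σ a) (σ b)) (g : C(Q → X, Q → X))
    (τ : Q → C(X, X))
    (hg : ∀ c x z, g (Function.update x c z) = Function.update (g x) (σ c) (τ c z))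
    (hdeg : ∀ c z, ρ.deg (τ c z) = ρ.deg z)
    (hd : ∀ c (f : LocallyConstant X R), ρ.d (f.comap (τ c)) = (ρ.d f).comap (τ c))
    (F : LocallyConstant (Q → X) A) : DD ρ r (F.comap g) = (DD ρ r F).comap g := by
  classical
  have h0 : ∀ x c, g x (σ c) = τ c (x c) := by
    intro x c
    have := hg c x (x c)
    rw [Function.update_eq_self] at this
    rw [this, Function.update_self]
  have hs : ∀ c x, sexp ρ r (σ c) (g x) = sexp ρ r c x := by
    intro c x
    unfold sexp
    rw [← Equiv.sum_comp σ]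
    refine Finset.sum_congr rfl fun a _ => ?_
    rw [h0, hdeg]
    by_cases h : r a c
    · rw [if_pos h, if_pos ((hσ a c).1 h)]
    · rw [if_neg h, if_neg (fun h' => h ((hσ a c).2 h'))]
  have h1 : (DD ρ r F).comap g = LocallyConstant.comapₗ R g (DD ρ r F) := rfl
  rw [h1, DD_apply, DD_apply, map_sum]
  conv_rhs => rw [← Equiv.sum_comp σ]
  refine Finset.sum_congr rfl fun c _ => ?_
  ext x
  show sm ρ r c (opc c ρ.d (F.comap g)) x = sm ρ r (σ c) (opc (σ c) ρ.d F) (g x)
  rw [sm_apply, sm_apply, hs, opc_comap ρ.d (σ c) c g (τ c) (hg c) (hd c) F]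
  rfl

end complex

end Vale.Agent.P251.C
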