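import Vale.Agent.P251.C.Basic

/-!
# P251, part C2: topological lemmas on locally constant functions
-/

open Finset Function Set

namespace Vale.Agent.P251.C

section Glue

variable {K I M : Type*} [TopologicalSpace K]

theorem isLocallyConstant_ite {N : Set K} (hN : IsClopen N) [∀ k, Decidable (k ∈ N)]
    {f g : K → M} (hf : IsLocallyConstant f) (hg : IsLocallyConstant g) :
    IsLocallyConstant fun k => if k ∈ N then f k else g k := by
  rw [IsLocallyConstant.iff_exists_open] at hf hg ⊢
  intro x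
  by_cases hx : x ∈ N
  · obtain ⟨U, hU, hxU, h⟩ := hf x
    refine ⟨U ∩ N, hU.inter hN.2, ⟨hxU, hx⟩, fun y hy => ?_⟩
    rw [if_pos hy.2, if_pos hx, h y hy.1]
  · obtain ⟨U, hU, hxU, h⟩ := hg x
    refine ⟨U ∩ Nᶜ, hU.inter hN.compl.2, ⟨hxU, hx⟩, fun y hy => ?_⟩
    rw [if_neg hy.2, if_neg hx, h y hy.1]

/-- Choose, in a locally constant way, a member of a clopen cover containing the given point. -/
theorem exists_selection_aux (N : I → Set K) (hN : ∀ i, IsClopen (N i)) (t : Finset I) :
    ∃ c : K → Option I, IsLocallyConstant c ∧ (∀ k j, c k = some j → k ∈ N j) ∧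
      (∀ k, ∀ j ∈ t, k ∈ N j → c k ≠ none) ∧
      ∀ k k', (∀ j, k ∈ N j ↔ k' ∈ N j) → c k = c k' := by
  classical
  induction t using Finset.induction_on with
  | empty =>
    exact ⟨fun _ => none, IsLocallyConstant.const _, by simp, by simp, by simp⟩
  | insert a t ha ih =>
    obtain ⟨c, h1, h2, h3, h4⟩ := ih
    refine ⟨fun k => if k ∈ N a then some a else c k,
      isLocallyConstant_ite (hN a) (IsLocallyConstant.const _) h1, ?_, ?_, ?_⟩
    · intro k j hk
      by_cases hka : k ∈ N a
      · simp only [if_pos hka, Option.some.injEq] at hk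
        rw [← hk]; exact hka
      · simp only [if_neg hka] at hk
        exact h2 k j hk
    · intro k j hj hkj
      by_cases hka : k ∈ N a
      · simp only [if_pos hka]; simp
      · simp only [if_neg hka]
        rcases Finset.mem_insert.1 hj with rfl | hj
        · exact absurd hkj hka
        · exact h3 k j hj hkj
    · intro k k' hkk
      simp only [hkk a, h4 k k' hkk]

theorem exists_selection [CompactSpace K] (N : I → Set K) (hN : ∀ i, IsClopen (N i))
    (hcov : ∀ k, ∃ i, k ∈ N i) :
    ∃ c : K → I, IsLocallyConstant c ∧ (∀ k, k ∈ N (c k)) ∧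
      ∀ k k', (∀ j, k ∈ N j ↔ k' ∈ N j) → c k = c k' := by
  classical
  obtain ⟨t, ht⟩ := isCompact_univ.elim_finite_subcover N (fun i => (hN i).2)
    (fun k _ => Set.mem_iUnion.2 (hcov k))
  obtain ⟨c, h1, h2, h3, h4⟩ := exists_selection_aux N hN t
  have h5 : ∀ k, (c k).isSome := by
    intro k
    obtain ⟨j, hj⟩ := Set.mem_iUnion.1 (ht (Set.mem_univ k))
    obtain ⟨hjt, hkj⟩ := Set.mem_iUnion.1 hj
    exact Option.isSome_iff_ne_none.2 (h3 k j hjt hkj)
  refine ⟨fun k => (c k).get (h5 k), ?_, fun k => h2 k _ (Option.some_get _).symm, ?_⟩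
  · rw [IsLocallyConstant.iff_exists_open] at h1 ⊢
    intro x
    obtain ⟨U, hU, hxU, h⟩ := h1 x
    refine ⟨U, hU, hxU, fun y hy => ?_⟩
    have := h y hy
    simp only [this]
  · intro k k' hkk
    simp only [h4 k k' hkk]

/-- Locally constant functions on a closed subset of a profinite space extend. -/
theorem exists_extend [CompactSpace K] [T2Space K] [TotallyDisconnectedSpace K] [Nonempty M]
    {C : Set K} (hC : IsClosed C) (θ : C → M) (hθ : IsLocallyConstant θ) :
    ∃ θ' : K → M, IsLocallyConstant θ' ∧ ∀ c : C, θ' c = θ c := by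
  classical
  obtain ⟨m0⟩ := ‹Nonempty M›
  -- clopen neighbourhoods on which `θ` is constant
  have h1 : ∀ k : K, ∃ (B : Set K) (m : M), IsClopen B ∧ k ∈ B ∧ ∀ c : C, (c : K) ∈ B → θ c = m := by
    intro k
    by_cases hk : k ∈ C
    · obtain ⟨U, hU, hkU, h⟩ := (IsLocallyConstant.iff_exists_open θ).1 hθ ⟨k, hk⟩
      obtain ⟨O, hO, rfl⟩ := isOpen_induced_iff.1 hU
      obtain ⟨B, hB, hkB, hBO⟩ := compact_exists_isClopen_in_isOpen hO hkU
      exact ⟨B, θ ⟨k, hk⟩, hB, hkB, fun c hc => h c (hBO hc)⟩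
    · obtain ⟨B, hB, hkB, hBO⟩ := compact_exists_isClopen_in_isOpen hC.isOpen_compl hk
      exact ⟨B, m0, hB, hkB, fun c hc => absurd c.2 (hBO hc)⟩
  choose B m hB hkB hm using h1
  obtain ⟨c, hc1, hc2, -⟩ := exists_selection B hB fun k => ⟨k, hkB k⟩
  exact ⟨fun k => m (c k), hc1.comp m, fun x => (hm (c x) x (hc2 x)).symm⟩

/-- Currying of locally constant functions, compact second factor. -/
theorem isOpen_curry {A X : Type*} [TopologicalSpace A] [TopologicalSpace X] [CompactSpace X]
    {φ : A × X → M} (hφ : IsLocallyConstant φ) (a₀ : A) :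
    IsOpen {a | ∀ x, φ (a, x) = φ (a₀, x)} := by
  rw [isOpen_iff_mem_nhds]
  intro a ha
  have h1 : ∀ x ∈ (Set.univ : Set X), ∀ᶠ p in (nhds a) ×ˢ (nhds x), φ (p.1, p.2) = φ (a₀, p.2) := by
    intro x _
    rw [← nhds_prod_eq]
    have e1 := hφ.eventually_eq (a, x)
    have e2 : ∀ᶠ p : A × X in nhds (a, x), φ (a, p.2) = φ (a, x) := by
      have : Filter.Tendsto (fun p : A × X => (a, p.2)) (nhds (a, x)) (nhds (a, x)) :=
        (continuous_const.prodMk continuous_snd).tendsto _
      exact this.eventually e1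
    filter_upwards [e1, e2] with p hp1 hp2
    have : φ (p.1, p.2) = φ (a, p.2) := by rw [hp2]; exact hp1
    rw [this]
    exact ha p.2
  have h2 := isCompact_univ.eventually_forall_of_forall_eventually (x₀ := a)
    (P := fun a x => φ (a, x) = φ (a₀, x)) (by
      intro x hx
      rw [nhds_prod_eq]
      exact h1 x hx)
  filter_upwards [h2] with b hb x
  exact hb x (Set.mem_univ x)

theorem isLocallyConstant_curry {A X : Type*} [TopologicalSpace A] [TopologicalSpace X]
    [CompactSpace X] (φ : A → LC X M) (hφ : IsLocallyConstant fun p : A × X => φ p.1 p.2) :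
    IsLocallyConstant φ := by
  rw [IsLocallyConstant.iff_exists_open]
  intro a₀
  refine ⟨_, isOpen_curry hφ a₀, fun x => rfl, fun b hb => ?_⟩
  ext x
  exact hb x

theorem isLocallyConstant_uncurry {A X : Type*} [TopologicalSpace A] [TopologicalSpace X]
    (φ : A → LC X M) (hφ : IsLocallyConstant φ) :
    IsLocallyConstant fun p : A × X => φ p.1 p.2 := by
  rw [IsLocallyConstant.iff_exists_open] at hφ ⊢
  rintro ⟨a, x⟩
  obtain ⟨U, hU, haU, h⟩ := hφ a
  obtain ⟨V, hV, hxV, h'⟩ := (IsLocallyConstant.iff_exists_open _).1 (φ a).isLocallyConstant x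
  refine ⟨U ×ˢ V, hU.prod hV, ⟨haU, hxV⟩, ?_⟩
  rintro ⟨b, y⟩ ⟨hb, hy⟩
  simp only
  rw [h b hb, h' y hy]

end Glue

section Act

variable {G M A : Type*} [Group G] [TopologicalSpace G] [IsTopologicalGroup G] [AddCommGroup M]
  [DistribMulAction G M] [DiscMod G M] [TopologicalSpace A]

theorem isLocallyConstant_smul {γ : A → G} (hγ : Continuous γ) {φ : A → M}
    (hφ : IsLocallyConstant φ) : IsLocallyConstant fun a => γ a • φ a := by
  rw [IsLocallyConstant.iff_exists_open] at hφ ⊢
  intro a
  obtain ⟨U, hU, haU, h⟩ := hφ a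
  have h1 : IsOpen {g : G | ((γ a)⁻¹ * g) • φ a = φ a} :=
    (DiscMod.isOpen_stab (G := G) (φ a)).preimage (continuous_const_mul (γ a)⁻¹)
  refine ⟨U ∩ γ ⁻¹' {g : G | ((γ a)⁻¹ * g) • φ a = φ a}, hU.inter (h1.preimage hγ),
    ⟨haU, by simp⟩, fun b hb => ?_⟩
  have h2 : ((γ a)⁻¹ * γ b) • φ a = φ a := hb.2
  rw [h b hb.1]
  calc γ b • φ a = γ a • (((γ a)⁻¹ * γ b) • φ a) := by rw [smul_smul, mul_inv_cancel_left]
    _ = γ a • φ a := by rw [h2]

/-- For a compact space `X`, the module of locally constant functions is discrete. -/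
instance {X : Type*} [TopologicalSpace X] [CompactSpace X] [MulAction G X] [ContinuousSMul G X] :
    DiscMod G (LC X M) where
  isOpen_stab f := by
    have h1 : IsLocallyConstant fun p : G × X => p.1 • f (p.1⁻¹ • p.2) :=
      isLocallyConstant_smul continuous_fst
        (f.isLocallyConstant.comp_continuous (continuous_fst.inv.smul continuous_snd))
    have h2 := isOpen_curry h1 1
    convert h2 using 1
    ext g
    simp only [Set.mem_ofPred_eq, inv_one, one_smul]
    constructor
    · intro h x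
      have := congrArg (fun k : LC X M => k x) h
      simpa using this
    · intro h
      ext x
      simpa using h x

end Act

end Vale.Agent.P251.C
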